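import Vale.Agent.P098.SqrtTest

/-!
P098: relations on the free boundary of a smooth cone, and Euler relations.
-/

open Filter
open scoped Topology ContDiff

namespace Vale.Agent.P098

variable {d : ℕ} {u v : Euc d → ℝ} {W : Set (Euc d)} (hu : IsSmoothCone u) (hW : IsOpen W)
  (hsub : closure (posSet u) \ {0} ⊆ W) (hv : ContDiffOn ℝ ∞ v W)
  (hvu : Set.EqOn v u (posSet u))

include hu hW hsub hv hvu in
/-- Near a free boundary point, the zero set of the smooth extension is the free boundary and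
its positive set is the positivity set. -/
lemma boundary_local
    (hbd : ∀ x ∈ frontier (posSet u), x ≠ 0 → ‖fderiv ℝ v x‖ = 1) {x : Euc d}
    (hx : x ∈ frontier (posSet u)) (hx0 : x ≠ 0) :
    ∀ᶠ y in 𝓝 x, (v y = 0 → y ∈ frontier (posSet u)) ∧ (0 < v y → y ∈ posSet u) := by
  have hxW : x ∈ W := hsub ⟨hx.1, hx0⟩
  have hne : fderiv ℝ v x ≠ 0 := fun h => by
    have := hbd x hx hx0
    rw [h, norm_zero] at this
    exact zero_ne_one this
  have hstrict : HasStrictFDerivAt v (fderiv ℝ v x) x :=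
    ((hv.contDiffAt (hW.mem_nhds hxW))).hasStrictFDerivAt (by simp)
  have hsurj : ((fderiv ℝ v x : Euc d →L[ℝ] ℝ) : Euc d →ₗ[ℝ] ℝ).range = ⊤ :=
    LinearMap.range_eq_top.2 (LinearMap.surjective fun h => hne (ContinuousLinearMap.coe_injective h))
  set e := hstrict.implicitToOpenPartialHomeomorph v (fderiv ℝ v x) hsurj with he
  have hfst : ∀ y, (e y).1 = v y := fun y => hstrict.implicitToOpenPartialHomeomorph_fst hsurj y
  have hxs : x ∈ e.source := hstrict.mem_implicitToOpenPartialHomeomorph_source hsurj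
  have hex : e x = (v x, 0) := hstrict.implicitToOpenPartialHomeomorph_self hsurj
  have hnp : x ∉ posSet u := fun h => hx.2 (by rwa [(isOpen_posSet hu).interior_eq])
  have hx00 : u x = 0 := le_antisymm (not_lt.1 hnp) (hu.nonneg x)
  have hvx : v x = 0 := by rw [eqOn_closure_of_ne hu hsub hv hvu hx.1 hx0, hx00]
  have hT : e.target ∩ e.symm ⁻¹' (W \ {0}) ∈ 𝓝 (e x) := by
    refine inter_mem (e.open_target.mem_nhds (e.map_source hxs)) ?_
    have hc := e.continuousAt_symm (e.map_source hxs)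
    refine hc.preimage_mem_nhds ?_
    rw [e.left_inv hxs]
    exact (hW.sdiff isClosed_singleton).mem_nhds ⟨hxW, hx0⟩
  obtain ⟨δ, hδ, hball⟩ := Metric.mem_nhds_iff.1 hT
  set B := Metric.ball (e x) δ with hB
  set P := e.symm '' (B ∩ {p | 0 < p.1}) with hP
  have hPc : IsPreconnected P := by
    refine IsPreconnected.image ?_ _
      (e.symm.continuousOn.mono fun p hp => (hball hp.1).1)
    exact ((convex_ball (e x) δ).inter
      (convex_halfSpace_gt (f := fun p => p.1) ⟨fun _ _ => rfl, fun _ _ => rfl⟩ 0)).isPreconnected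
  have hN : e.source ∩ e ⁻¹' B ∈ 𝓝 x :=
    inter_mem (e.open_source.mem_nhds hxs)
      ((e.continuousAt hxs).preimage_mem_nhds (Metric.ball_mem_nhds _ hδ))
  have hPu : ∀ z ∈ P, v z = (e z).1 ∧ 0 < (e z).1 ∧ z ∈ W \ {0} := by
    rintro z ⟨p, hp, rfl⟩
    refine ⟨(hfst _).symm, ?_, (hball hp.1).2⟩
    rw [e.right_inv (hball hp.1).1]
    exact hp.2
  have hPpos : P ⊆ posSet u := by
    refine hPc.subset_of_closure_inter_subset (isOpen_posSet hu) ?_ fun z hz => ?_
    · obtain ⟨y, hy1, hy2⟩ := mem_closure_iff_nhds.1 hx.1 _ hN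
      refine ⟨y, ⟨e y, ⟨hy1.2, ?_⟩, e.left_inv hy1.1⟩, hy2⟩
      show 0 < (e y).1
      rw [hfst, hvu hy2]
      exact hy2
    · obtain ⟨h1, h2, h3⟩ := hPu z hz.2
      show 0 < u z
      rw [← eqOn_closure_of_ne hu hsub hv hvu hz.1 h3.2, h1]
      exact h2
  filter_upwards [hN] with y hy
  refine ⟨fun hvy => ?_, fun hvy => hPpos ⟨e y, ⟨hy.2, show 0 < (e y).1 by rwa [hfst]⟩,
    e.left_inv hy.1⟩⟩
  have hy' : e y ∈ e.target ∩ e.symm ⁻¹' (W \ {0}) := hball hy.2
  have hyW : y ∈ W \ {0} := by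
    have := hy'.2
    rwa [Set.mem_preimage, e.left_inv hy.1] at this
  have hT' : Tendsto (fun t : ℝ => e.symm (t, (e y).2)) (𝓝[>] 0) (𝓝 y) := by
    have h0 : e y = (0, (e y).2) := by rw [← hvy, ← hfst]
    have h1 : Tendsto (fun t : ℝ => (t, (e y).2)) (𝓝[>] 0) (𝓝 (e y)) := by
      rw [h0]
      exact ((continuous_id.prodMk continuous_const).tendsto 0).mono_left nhdsWithin_le_nhds
    have h2 := e.continuousAt_symm (e.map_source hy.1)
    have := h2.tendsto.comp h1
    rwa [e.left_inv hy.1] at this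
  have hev : ∀ᶠ t : ℝ in 𝓝[>] 0, e.symm (t, (e y).2) ∈ P := by
    have h0 : e y = (0, (e y).2) := by rw [← hvy, ← hfst]
    have h1 : ∀ᶠ t : ℝ in 𝓝 0, (t, (e y).2) ∈ B := by
      have hc : Continuous fun t : ℝ => (t, (e y).2) := continuous_id.prodMk continuous_const
      exact (hc.tendsto 0).eventually (Metric.isOpen_ball.mem_nhds (h0 ▸ hy.2))
    filter_upwards [nhdsWithin_le_nhds h1, self_mem_nhdsWithin] with t ht htp
    exact ⟨(t, (e y).2), ⟨ht, htp⟩, rfl⟩
  have hcl : y ∈ closure (posSet u) :=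
    mem_closure_of_tendsto hT' (hev.mono fun t ht => hPpos ht)
  refine ⟨hcl, fun hi => ?_⟩
  have : 0 < u y := interior_subset (s := posSet u) hi
  rw [← eqOn_closure_of_ne hu hsub hv hvu hcl hyW.2, hvy] at this
  exact lt_irrefl _ this

include hu hW hsub hv hvu in
/-- Near a free boundary point, the zero set of the smooth extension is the free boundary. -/
lemma zero_set_subset_frontier
    (hbd : ∀ x ∈ frontier (posSet u), x ≠ 0 → ‖fderiv ℝ v x‖ = 1) {x : Euc d}
    (hx : x ∈ frontier (posSet u)) (hx0 : x ≠ 0) :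
    ∀ᶠ y in 𝓝 x, v y = 0 → y ∈ frontier (posSet u) :=
  (boundary_local hu hW hsub hv hvu hbd hx hx0).mono fun _ h => h.1

include hu hW hsub hv hvu in
/-- A function vanishing on the free boundary has gradient parallel to `∇v` there. -/
theorem pd_of_vanishing
    (hbd : ∀ x ∈ frontier (posSet u), x ≠ 0 → ‖fderiv ℝ v x‖ = 1) {x : Euc d}
    (hx : x ∈ frontier (posSet u)) (hx0 : x ≠ 0) {Φ : Euc d → ℝ} (hΦ : ContDiffAt ℝ 1 Φ x)
    (hzero : ∀ᶠ y in 𝓝 x, y ∈ frontier (posSet u) → Φ y = 0) (j : Fin d) :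
    pd j Φ x = (∑ k, pd k Φ x * pd k v x) * pd j v x := by
  have hxW : x ∈ W := hsub ⟨hx.1, hx0⟩
  have hnp : x ∉ posSet u := fun h => hx.2 (by rwa [(isOpen_posSet hu).interior_eq])
  have hvx : v x = 0 := by
    rw [eqOn_closure_of_ne hu hsub hv hvu hx.1 hx0]
    exact le_antisymm (not_lt.1 hnp) (hu.nonneg x)
  have hext : IsLocalExtrOn Φ {y | v y = v x} x := by
    refine Or.inl (eventually_nhdsWithin_iff.2 ?_)
    filter_upwards [hzero, zero_set_subset_frontier hu hW hsub hv hvu hbd hx hx0] with y h1 h2 hy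
    rw [h1 (h2 (hy.trans hvx)), hzero.self_of_nhds hx]
  obtain ⟨a, b, hab, h⟩ := hext.exists_multipliers_of_hasStrictFDerivAt_1d
    ((hv.contDiffAt (hW.mem_nhds hxW)).hasStrictFDerivAt (by simp))
    (hΦ.hasStrictFDerivAt one_ne_zero)
  have hk : ∀ k, a * pd k v x + b * pd k Φ x = 0 := fun k => by
    simpa [pd] using congrArg (fun L : Euc d →L[ℝ] ℝ => L (EuclideanSpace.single k 1)) h
  have hsum : ∑ k, pd k v x * pd k v x = 1 := by
    show gradSq v x = 1
    rw [← norm_fderiv_sq, hbd x hx hx0, one_pow]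
  have hb : b ≠ 0 := by
    intro hb
    have ha : a = 0 := by
      have : a * ∑ k, pd k v x * pd k v x = 0 := by
        rw [Finset.mul_sum]
        refine Finset.sum_eq_zero fun k _ => ?_
        have := hk k
        rw [hb, zero_mul, add_zero] at this
        rw [← mul_assoc, this, zero_mul]
      rwa [hsum, mul_one] at this
    exact hab (by rw [ha, hb]; rfl)
  have hc : b * (∑ k, pd k Φ x * pd k v x) = -a := by
    have e : ∀ k, b * (pd k Φ x * pd k v x) = -a * (pd k v x * pd k v x) := fun k => by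
      linear_combination (pd k v x) * hk k
    rw [Finset.mul_sum, Finset.sum_congr rfl fun k _ => e k, ← Finset.mul_sum, hsum, mul_one]
  apply mul_left_cancel₀ hb
  linear_combination hk j - pd j v x * hc

include hu hW hsub hv hvu in
/-- On the free boundary `D²v ∇v` is normal. -/
theorem hessGrad_eq
    (hbd : ∀ x ∈ frontier (posSet u), x ≠ 0 → ‖fderiv ℝ v x‖ = 1) {x : Euc d}
    (hx : x ∈ frontier (posSet u)) (hx0 : x ≠ 0) (j : Fin d) :
    hessGrad v j x = (∑ k, hessGrad v k x * pd k v x) * pd j v x := by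
  have hxW : x ∈ W := hsub ⟨hx.1, hx0⟩
  have hv3 : ContDiffAt ℝ 3 v x :=
    (hv.contDiffAt (hW.mem_nhds hxW)).of_le (WithTop.coe_le_coe.2 le_top)
  have g : ∀ i, ContDiffAt ℝ 1 (pd i v) x := fun i => contDiffAt_pd hv3 (by norm_num) i
  have hd : ∀ i, DifferentiableAt ℝ (pd i v) x := fun i => (g i).differentiableAt one_ne_zero
  have e : ∀ k, pd k (fun y => gradSq v y - 1) x = 2 * hessGrad v k x := fun k => by
    have hN : DifferentiableAt ℝ (gradSq v) x :=
      DifferentiableAt.fun_sum fun i _ => (hd i).fun_mul (hd i)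
    rw [pd_sub k hN (differentiableAt_const _), pd_const, sub_zero]
    refine (pd_sum Finset.univ k fun i _ => (hd i).fun_mul (hd i)).trans ?_
    rw [hessGrad, Finset.mul_sum]
    exact Finset.sum_congr rfl fun i _ => by rw [pd_mul k (hd i) (hd i)]; ring
  have h := pd_of_vanishing hu hW hsub hv hvu hbd hx hx0 (Φ := fun y => gradSq v y - 1)
    ((ContDiffAt.sum fun i _ => (g i).mul (g i)).sub contDiffAt_const) ?_ j
  · simp only [e, mul_assoc, ← Finset.mul_sum] at h
    linarith
  · filter_upwards [isOpen_compl_singleton.mem_nhds (show x ∈ ({0} : Set (Euc d))ᶜ from hx0)]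
      with y hy0 hy
    rw [← norm_fderiv_sq, hbd y hy hy0]
    norm_num

omit hu hW hsub hv hvu in
/-- Euler's relation for a function homogeneous on the positivity set. -/
theorem euler_of_homOn {a : ℝ} {f : Euc d → ℝ} (hf : HomOn u a f) {x : Euc d}
    (hx : x ∈ posSet u) (hd : DifferentiableAt ℝ f x) : ∑ i, x i * pd i f x = a * f x := by
  have h1 : HasDerivAt (fun r : ℝ => r • x) x 1 := by
    simpa using (hasDerivAt_id (1 : ℝ)).smul_const x
  have hf' : HasFDerivAt f (fderiv ℝ f x) ((1 : ℝ) • x) := by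
    rw [one_smul]
    exact hd.hasFDerivAt
  have h2 : HasDerivAt (fun r : ℝ => f (r • x)) (fderiv ℝ f x x) 1 := hf'.comp_hasDerivAt (1 : ℝ) h1
  have h3 : HasDerivAt (fun r : ℝ => f (r • x)) (a * f x) 1 := by
    refine HasDerivAt.congr_of_eventuallyEq (f := fun r : ℝ => r ^ a * f x) ?_ ?_
    · simpa using (Real.hasDerivAt_rpow_const (x := 1) (p := a) (Or.inl one_ne_zero)).mul_const (f x)
    · filter_upwards [lt_mem_nhds (show (0 : ℝ) < 1 from one_pos)] with r hr
      exact hf x hx r hr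
  rw [← h2.unique h3, clm_apply_eq_sum (fderiv ℝ f x) x]
  rfl

include hu hW hsub hv hvu in
/-- `D²v x = 0` up to the boundary. -/
theorem hessian_euler {x : Euc d} (hx : x ∈ closure (posSet u)) (hx0 : x ≠ 0) (i : Fin d) :
    ∑ j, x j * pd j (pd i v) x = 0 := by
  have hd : ∀ y ∈ W, ContDiffAt ℝ 1 (pd i v) y := fun y hy =>
    contDiffAt_pd ((hv.contDiffAt (hW.mem_nhds hy)).of_le (WithTop.coe_le_coe.2 le_top))
      (n := 2) le_rfl i
  have hint : ∀ y ∈ posSet u, ∑ j, y j * pd j (pd i v) y = 0 := fun y hy => by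
    rw [euler_of_homOn (a := 0) (fun z hz r hr => ?_) hy
      ((hd y (posSet_subset hu hsub hy)).differentiableAt one_ne_zero), zero_mul]
    rw [Real.rpow_zero, one_mul, pd, pd, fderiv_smul_eq hu hsub hv hvu hz hr]
  have : (𝓝[posSet u] x).NeBot := mem_closure_iff_nhdsWithin_neBot.1 hx
  refine tendsto_nhds_unique (f := fun y => ∑ j, y j * pd j (pd i v) y) (l := 𝓝[posSet u] x)
    ((tendsto_finsetSum _ fun j _ => ?_).mono_left nhdsWithin_le_nhds)
    (tendsto_const_nhds.congr' (eventually_nhdsWithin_of_forall fun y hy => (hint y hy).symm))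
  exact ((continuous_apply j).comp (PiLp.continuous_ofLp 2 _)).continuousAt.mul
    (contDiffAt_pd (hd x (hsub ⟨hx, hx0⟩)) (m := 0) le_rfl j).continuousAt

end Vale.Agent.P098
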