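import Vale.Agent.P098.SqrtTest

/-!
P098: certificates as families. If for small `ε > 0` the pairs `(F ε, V ε)` have boundary defect
`δ ε → 0`, interior expression bounded above and eventually at most `q + o(1)`, with `q ≤ 0`
vanishing only where the Hessian vanishes, then the minimizing smooth cone is flat.
-/

open MeasureTheory Filter
open scoped Topology ContDiff RealInnerProductSpace

namespace Vale.Agent.P098

variable {d : ℕ}

/-- `|x| ^ (1 - d)`. -/
noncomputable def fluxWeight (d : ℕ) (x : Euc d) : ℝ := (‖x‖ ^ 2) ^ ((1 - (d : ℝ)) / 2)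

lemma fluxWeight_eq {x : Euc d} : fluxWeight d x = ‖x‖ ^ (1 - (d : ℝ)) := by
  rw [fluxWeight, ← Real.rpow_natCast ‖x‖ 2, ← Real.rpow_mul (norm_nonneg _)]
  congr 1
  push_cast
  ring

lemma contDiffAt_fluxWeight {x : Euc d} (hx : x ≠ 0) {k : ℕ∞} :
    ContDiffAt ℝ k (fluxWeight d) x :=
  ((contDiff_norm_sq ℝ).contDiffAt).rpow_const_of_ne (pow_ne_zero 2 (norm_ne_zero_iff.2 hx))

lemma fluxWeight_smul {r : ℝ} (hr : 0 < r) (x : Euc d) :
    fluxWeight d (r • x) = r ^ (1 - (d : ℝ)) * fluxWeight d x := by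
  rw [fluxWeight_eq, fluxWeight_eq, norm_smul, Real.norm_eq_abs, abs_of_pos hr,
    Real.mul_rpow hr.le (norm_nonneg _)]

/-- The error of the regularisation `F ↦ F + η |x|^(2-d)`. -/
noncomputable def etaError (v : Euc d → ℝ) (x : Euc d) : ℝ :=
  ∑ i, pd i (radialWeight d) x ^ 2 / (4 * radialWeight d x)
    - radialWeight d x * ∑ i, ∑ j, pd j (pd i v) x ^ 2
    - ∑ k, pd k (radialWeight d) x * hessGrad v k x

/-- The error of the boundary correction. -/
noncomputable def fluxError (v : Euc d → ℝ) (x : Euc d) : ℝ :=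
  -∑ k, pd k (fun y => fluxWeight d y * pd k v y) x

variable {u v : Euc d → ℝ} {W : Set (Euc d)} (hu : IsSmoothCone u) (hW : IsOpen W)
  (hsub : closure (posSet u) \ {0} ⊆ W) (hv : ContDiffOn ℝ ∞ v W)
  (hvu : Set.EqOn v u (posSet u))

include hu hW hsub hv hvu in
/-- One step: a continuous integrand with nonnegative shell integral, below the certificate
expression plus the two errors. -/
lemma certificate_step (hmin : IsStable u)
    (hbd : ∀ x ∈ frontier (posSet u), x ≠ 0 → ‖fderiv ℝ v x‖ = 1)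
    {η δ : ℝ} (hη : 0 < η)
    {F : Euc d → ℝ} (hF : ContDiffOn ℝ 2 F W) (hF0 : ∀ x ∈ posSet u, 0 ≤ F x)
    (hFh : HomOn u (2 - (d : ℝ)) F)
    {V : Fin d → Euc d → ℝ} (hV : ∀ k, ContDiffOn ℝ 1 (V k) W)
    (hVh : ∀ k, HomOn u (1 - (d : ℝ)) (V k))
    (hflux : ∀ x ∈ frontier (posSet u), x ≠ 0 →
      ∑ k, V k x * pd k v x + F x * ∑ k, hessGrad v k x * pd k v x ≤ δ * ‖x‖ ^ (1 - (d : ℝ))) :
    ∃ Φ : Euc d → ℝ, ContinuousOn Φ (closure (posSet u) \ {0}) ∧
      0 ≤ ∫ x in shell 0 ∩ posSet u, Φ x ∧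
      ∀ x ∈ posSet u, ∃ y : Fin d → ℝ, Φ x ≤ ∑ i, y i * pd i F x - (∑ i, y i ^ 2) * F x
        + ∑ k, pd k (V k) x + η * etaError v x + δ * fluxError v x := by
  set h : Euc d → ℝ := radialWeight d with hh
  set w : Euc d → ℝ := fluxWeight d with hw
  set G : Euc d → ℝ := fun x => F x + η * h x with hG
  have hGd : ∀ {x}, x ∈ W → x ≠ 0 → ContDiffAt ℝ 2 G x := fun hx hx0 =>
    (hF.contDiffAt (hW.mem_nhds hx)).add
      (contDiffAt_const.mul (contDiffAt_radialWeight hx0))
  set W' := (W \ {0}) ∩ G ⁻¹' Set.Ioi 0 with hW'def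
  have hW0 : IsOpen (W \ {0}) := hW.sdiff isClosed_singleton
  have hW' : IsOpen W' := by
    have hc : ContinuousOn G (W \ {0}) := fun x hx =>
      (hGd hx.1 hx.2).continuousAt.continuousWithinAt
    exact hc.isOpen_inter_preimage hW0 isOpen_Ioi
  have hsub' : closure (posSet u) \ {0} ⊆ W' := by
    intro x hx
    have hxW := hsub hx
    refine ⟨⟨hxW, hx.2⟩, ?_⟩
    have hFx : 0 ≤ F x := by
      have : (𝓝[posSet u] x).NeBot := mem_closure_iff_nhdsWithin_neBot.1 hx.1
      exact ge_of_tendsto ((hF.continuousOn.continuousAt (hW.mem_nhds hxW)).mono_left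
        nhdsWithin_le_nhds) (eventually_nhdsWithin_of_forall hF0)
    exact add_pos_of_nonneg_of_pos hFx (mul_pos hη (radialWeight_pos hx.2))
  have hv' : ContDiffOn ℝ ∞ v W' := hv.mono fun x hx => hx.1.1
  set f : Euc d → ℝ := fun x => Real.sqrt (G x) with hf
  have hfd : ContDiffOn ℝ 2 f W' := fun x hx =>
    ((hGd hx.1.1 hx.1.2).sqrt hx.2.ne').contDiffWithinAt
  have hfh : HomOn u ((2 - (d : ℝ)) / 2) f := fun x hx r hr => by
    simp only [hf, hG]
    rw [hFh x hx r hr, hh, radialWeight_smul hr, ← mul_left_comm, ← mul_add,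
      Real.sqrt_mul (Real.rpow_nonneg hr.le _), Real.sqrt_eq_rpow, ← Real.rpow_mul hr.le]
    ring_nf
  have hgv : ∀ {x}, x ∈ W → ∀ k, ContDiffAt ℝ 1 (pd k v) x := fun hx k =>
    contDiffAt_pd ((hv.contDiffAt (hW.mem_nhds hx)).of_le (WithTop.coe_le_coe.2 le_top))
      (n := 2) le_rfl k
  set U : Fin d → Euc d → ℝ := fun k x => V k x + F x * hessGrad v k x - δ * (w x * pd k v x)
    with hU
  have hUd : ∀ k, ContDiffOn ℝ 1 (U k) W' := fun k x hx =>
    ((((hV k).contDiffAt (hW.mem_nhds hx.1.1)).add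
      (((hF.contDiffAt (hW.mem_nhds hx.1.1)).of_le (by norm_num)).mul
        (contDiffAt_hessGrad hu hW hsub hv hvu hx.1.1 k))).sub
      (contDiffAt_const.mul ((contDiffAt_fluxWeight hx.1.2).mul (hgv hx.1.1 k)))).contDiffWithinAt
  have hUh : ∀ k, HomOn u (1 - (d : ℝ)) (U k) := fun k x hx r hr => by
    simp only [hU]
    have hg : pd k v (r • x) = pd k v x := by rw [pd, pd, fderiv_smul_eq hu hsub hv hvu hx hr]
    rw [hVh k x hx r hr, hFh x hx r hr, homOn_hessGrad hu hW hsub hv hvu k x hx r hr, hg, hw,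
      fluxWeight_smul hr, show 1 - (d : ℝ) = (2 - (d : ℝ)) + (-1) by ring, Real.rpow_add hr]
    ring
  have hUf : ∀ x ∈ frontier (posSet u), x ≠ 0 → ∑ k, U k x * pd k v x ≤ 0 := fun x hx hx0 => by
    have e : ∑ k, U k x * pd k v x = ∑ k, V k x * pd k v x
        + F x * ∑ k, hessGrad v k x * pd k v x - δ * w x * gradSq v x := by
      simp only [hU, gradSq, add_mul, sub_mul, Finset.sum_add_distrib, Finset.sum_sub_distrib,
        Finset.mul_sum]
      congr 1
      · congr 1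
        exact Finset.sum_congr rfl fun k _ => by ring
      · exact Finset.sum_congr rfl fun k _ => by ring
    rw [e, ← norm_fderiv_sq, hbd x hx hx0, one_pow, mul_one, hw, fluxWeight_eq]
    linarith [hflux x hx hx0]
  refine ⟨certDensity v f U, fun y hy => ?_, ?_, fun x hx => ?_⟩
  · have hyW : y ∈ W' := hsub' hy
    have hy3 : ContDiffAt ℝ 3 v y := (hv'.contDiffAt (hW'.mem_nhds hyW)).of_le
      (WithTop.coe_le_coe.2 le_top)
    have hfy : ContDiffAt ℝ 2 f y := hfd.contDiffAt (hW'.mem_nhds hyW)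
    have g : ∀ i, ContinuousAt (pd i v) y := fun i =>
      (contDiffAt_pd hy3 (m := 2) (by norm_num) i).continuousAt
    have H : ∀ i j, ContinuousAt (pd j (pd i v)) y := fun i j =>
      (contDiffAt_pd (contDiffAt_pd hy3 (m := 2) (by norm_num) i) (m := 1) (by norm_num)
        j).continuousAt
    have p : ∀ i, ContinuousAt (pd i f) y := fun i =>
      (contDiffAt_pd hfy (m := 1) (by norm_num) i).continuousAt
    have r : ∀ i, ContinuousAt (pd i (U i)) y := fun i =>
      (contDiffAt_pd ((hUd i).contDiffAt (hW'.mem_nhds hyW)) (m := 0) (by norm_num)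
        i).continuousAt
    have s1 : ∀ {f : Fin d → Euc d → ℝ}, (∀ i, ContinuousAt (f i) y) →
        ContinuousAt (fun z => ∑ i, f i z) y := fun hf => tendsto_finsetSum _ fun i _ => hf i
    exact ((((s1 fun i => (p i).pow 2).sub ((hfy.continuousAt.pow 2).mul
      (s1 fun i => s1 fun j => (H i j).pow 2))).sub
      ((continuousAt_const.mul hfy.continuousAt).mul
        (s1 fun i => s1 fun j => ((g i).mul (H i j)).mul (p j)))).add
      (s1 r)).continuousWithinAt
  · have h1 := shell_integral_nonneg hu hW' hsub' hv' hvu hmin hbd hfd hfh hUd hUh hUf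
    rwa [setIntegral_congr_fun ((measurableSet_shell 0).inter (isOpen_posSet hu).measurableSet)
      fun x hx => show certDensity u f U x = certDensity v f U x by
        simp [certDensity, stabDensity_congr_left (eventuallyEq_of_mem_posSet hu hvu hx.2)]] at h1
  · have hxW : x ∈ W' := posSet_subset hu hsub' hx
    have hx0 : x ≠ 0 := hxW.1.2
    have hv3 : ContDiffAt ℝ 3 v x := (hv'.contDiffAt (hW'.mem_nhds hxW)).of_le
      (WithTop.coe_le_coe.2 le_top)
    have hdf : DifferentiableAt ℝ f x :=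
      (hfd.contDiffAt (hW'.mem_nhds hxW)).differentiableAt (by norm_num)
    have hdF : DifferentiableAt ℝ F x :=
      (hF.contDiffAt (hW.mem_nhds hxW.1.1)).differentiableAt (by norm_num)
    have hdh : DifferentiableAt ℝ h x :=
      (contDiffAt_radialWeight (k := 1) hx0).differentiableAt one_ne_zero
    have hdV : ∀ k, DifferentiableAt ℝ (V k) x := fun k =>
      ((hV k).contDiffAt (hW.mem_nhds hxW.1.1)).differentiableAt one_ne_zero
    have hdHg : ∀ k, DifferentiableAt ℝ (hessGrad v k) x := fun k =>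
      (contDiffAt_hessGrad hu hW hsub hv hvu hxW.1.1 k).differentiableAt one_ne_zero
    have hdwg : ∀ k, DifferentiableAt ℝ (fun y => w y * pd k v y) x := fun k =>
      ((contDiffAt_fluxWeight (k := 1) hx0).mul (hgv hxW.1.1 k)).differentiableAt one_ne_zero
    have hfpos : 0 < f x := Real.sqrt_pos.2 hxW.2
    have hfG : f x * f x = F x + η * h x := Real.mul_self_sqrt (le_of_lt hxW.2)
    have hpG : ∀ k, pd k F x + η * pd k h x = 2 * f x * pd k f x := fun k => by
      have e : (fun y => f y * f y) =ᶠ[𝓝 x] G := by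
        filter_upwards [hW'.mem_nhds hxW] with y hy
        exact Real.mul_self_sqrt (le_of_lt hy.2)
      have e2 := pd_congr e k
      rw [pd_mul k hdf hdf, hG, pd_add k hdF ((differentiableAt_const η).fun_mul hdh),
        pd_mul k (differentiableAt_const η) hdh, pd_const, zero_mul, zero_add] at e2
      linarith
    have hHg := sum_pd_hessGrad hv3 (by
      filter_upwards [(isOpen_posSet hu).mem_nhds hx] with y hy
      exact laplace_eq_zero hu hW hsub hv hvu (subset_closure hy) (ne_zero_of_mem_posSet hu hy))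
    refine ⟨fun i => pd i f x / f x, ?_⟩
    rw [certDensity, stabDensity]
    have e3 : ∀ k, pd k (U k) x
        = pd k (V k) x + (pd k F x * hessGrad v k x + F x * pd k (hessGrad v k) x)
          - δ * pd k (fun y => w y * pd k v y) x := fun k => by
      rw [hU, pd_sub k ((hdV k).fun_add (hdF.fun_mul (hdHg k)))
          ((differentiableAt_const δ).fun_mul (hdwg k)),
        pd_add k (hdV k) (hdF.fun_mul (hdHg k)), pd_mul k hdF (hdHg k),
        pd_mul k (differentiableAt_const δ) (hdwg k), pd_const, zero_mul, zero_add]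
    simp only [e3, Finset.sum_add_distrib, Finset.sum_sub_distrib, ← Finset.mul_sum, hHg]
    set D := ∑ i, ∑ j, pd j (pd i v) x ^ 2 with hD
    have e4 : 2 * f x * ∑ i, ∑ j, pd i v x * pd j (pd i v) x * pd j f x
        = ∑ k, pd k F x * hessGrad v k x + η * ∑ k, pd k h x * hessGrad v k x := by
      rw [Finset.mul_sum (a := η), ← Finset.sum_add_distrib, Finset.sum_comm, Finset.mul_sum]
      refine Finset.sum_congr rfl fun k _ => ?_
      rw [← mul_assoc η, ← add_mul, hpG k, hessGrad, Finset.mul_sum, Finset.mul_sum]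
      exact Finset.sum_congr rfl fun i _ => by ring
    set y : Fin d → ℝ := fun i => pd i f x / f x with hy
    have e5 : ∑ i, pd i f x ^ 2 = (∑ i, y i * pd i F x - (∑ i, y i ^ 2) * F x)
        + η * ∑ i, (y i * pd i h x - y i ^ 2 * h x) := by
      rw [Finset.sum_mul, ← Finset.sum_sub_distrib, Finset.mul_sum, ← Finset.sum_add_distrib]
      refine Finset.sum_congr rfl fun i _ => ?_
      have e : y i * f x = pd i f x := div_mul_cancel₀ _ hfpos.ne'
      linear_combination (- y i ^ 2) * hfG + (- y i) * hpG i + (y i * f x - pd i f x) * e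
    have e6 : ∑ i, (y i * pd i h x - y i ^ 2 * h x) ≤ ∑ i, pd i h x ^ 2 / (4 * h x) := by
      refine Finset.sum_le_sum fun i _ => ?_
      have hp : 0 < h x := radialWeight_pos hx0
      rw [le_div_iff₀ (by positivity)]
      nlinarith [sq_nonneg (2 * h x * y i - pd i h x)]
    have hG' : f x ^ 2 = F x + η * h x := by rw [sq]; exact hfG
    rw [e4, e5, hG']
    simp only [etaError, fluxError, ← hh, ← hw, ← hD]
    nlinarith [mul_le_mul_of_nonneg_left e6 hη.le]

include hu hW hsub hv hvu in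
/-- The family form of the certificate: `q = 0` on the open unit shell. -/
theorem family_eq_zero (hmin : IsStable u)
    (hbd : ∀ x ∈ frontier (posSet u), x ≠ 0 → ‖fderiv ℝ v x‖ = 1)
    {F : ℝ → Euc d → ℝ} {V : ℝ → Fin d → Euc d → ℝ} {δ : ℝ → ℝ}
    (hδ : Tendsto δ (𝓝[>] 0) (𝓝 0))
    (hF : ∀ᶠ ε : ℝ in 𝓝[>] 0, ContDiffOn ℝ 2 (F ε) W ∧ (∀ x ∈ posSet u, 0 ≤ F ε x) ∧
      HomOn u (2 - (d : ℝ)) (F ε))
    (hV : ∀ᶠ ε : ℝ in 𝓝[>] 0, ∀ k, ContDiffOn ℝ 1 (V ε k) W ∧ HomOn u (1 - (d : ℝ)) (V ε k))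
    (hflux : ∀ᶠ ε : ℝ in 𝓝[>] 0, ∀ x ∈ frontier (posSet u), x ≠ 0 →
      ∑ k, V ε k x * pd k v x + F ε x * ∑ k, hessGrad v k x * pd k v x
        ≤ δ ε * ‖x‖ ^ (1 - (d : ℝ)))
    (hbound : ∃ C : ℝ, ∀ᶠ ε : ℝ in 𝓝[>] 0, ∀ x ∈ posSet u, 1 ≤ ‖x‖ → ‖x‖ < 2 → ∀ y : Fin d → ℝ,
      ∑ i, y i * pd i (F ε) x - (∑ i, y i ^ 2) * F ε x + ∑ k, pd k (V ε k) x ≤ C)
    {q : Euc d → ℝ} (hq : ContinuousOn q W) (hq0 : ∀ x ∈ posSet u, q x ≤ 0)
    (hlim : ∀ x ∈ posSet u, 1 ≤ ‖x‖ → ‖x‖ < 2 → ∀ c : ℝ, 0 < c → ∀ᶠ ε : ℝ in 𝓝[>] 0,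
      ∀ y : Fin d → ℝ,
        ∑ i, y i * pd i (F ε) x - (∑ i, y i ^ 2) * F ε x + ∑ k, pd k (V ε k) x ≤ q x + c) :
    ∀ x ∈ posSet u, 1 < ‖x‖ → ‖x‖ < 2 → q x = 0 := by
  classical
  set S := shell 0 ∩ posSet u with hS
  have hSm : MeasurableSet S := (measurableSet_shell 0).inter (isOpen_posSet hu).measurableSet
  set K := closure (posSet u) ∩ (Metric.closedBall (0 : Euc d) 2 \ Metric.ball 0 1) with hK
  have hKc : IsCompact K :=
    ((isCompact_closedBall _ _).diff Metric.isOpen_ball).inter_left isClosed_closure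
  have hSn : ∀ y ∈ S, 1 ≤ ‖y‖ ∧ ‖y‖ < 2 := fun y hy =>
    ⟨by simpa [shell] using hy.1.1, by simpa [shell] using hy.1.2⟩
  have hSK : S ⊆ K := fun y hy =>
    ⟨subset_closure hy.2, by simp [(hSn y hy).2.le], by simp [(hSn y hy).1]⟩
  have hK0 : ∀ y ∈ K, y ≠ 0 := fun y hy h => hy.2.2 (by simp [h])
  have hKW : K ⊆ W := fun y hy => hsub ⟨hy.1, hK0 y hy⟩
  have hd1 : ∀ {y}, y ∈ K → ContDiffAt ℝ 3 v y := fun hy =>
    (hv.contDiffAt (hW.mem_nhds (hKW hy))).of_le (WithTop.coe_le_coe.2 le_top)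
  have hEc : ContinuousOn (etaError v) K := fun y hy => by
    have hy0 : y ≠ 0 := hK0 y hy
    have hr : ContinuousAt (radialWeight d) y := (contDiffAt_radialWeight (k := 1) hy0).continuousAt
    have p : ∀ i, ContinuousAt (pd i (radialWeight d)) y := fun i =>
      (contDiffAt_pd (contDiffAt_radialWeight (k := 2) hy0) (m := 1) (by norm_num) i).continuousAt
    have H : ∀ i j, ContinuousAt (pd j (pd i v)) y := fun i j =>
      (contDiffAt_pd (contDiffAt_pd (hd1 hy) (m := 2) (by norm_num) i) (m := 1) (by norm_num)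
        j).continuousAt
    have s1 : ∀ {f : Fin d → Euc d → ℝ}, (∀ i, ContinuousAt (f i) y) →
        ContinuousAt (fun z => ∑ i, f i z) y := fun hf => tendsto_finsetSum _ fun i _ => hf i
    exact (((s1 fun i => ((p i).pow 2).div (continuousAt_const.mul hr)
        (mul_ne_zero (by norm_num) (radialWeight_pos hy0).ne')).sub
      (hr.mul (s1 fun i => s1 fun j => (H i j).pow 2))).sub
      (s1 fun k => (p k).mul (contDiffAt_hessGrad hu hW hsub hv hvu (hKW hy) k).continuousAt))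
      |>.continuousWithinAt
  have hDc : ContinuousOn (fluxError v) K := fun y hy => by
    have hy0 : y ≠ 0 := hK0 y hy
    have h : ContinuousAt (fluxError v) y :=
      (tendsto_finsetSum Finset.univ fun k _ => ((contDiffAt_pd
        ((contDiffAt_fluxWeight (k := 1) hy0).mul
          (contDiffAt_pd (hd1 hy) (m := 1) (by norm_num) k)) (m := 0) le_rfl k).continuousAt :
        ContinuousAt (pd k fun z => fluxWeight d z * pd k v z) y)).neg
    exact h.continuousWithinAt
  obtain ⟨E, hE⟩ := hKc.exists_bound_of_continuousOn hEc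
  obtain ⟨E', hE'⟩ := hKc.exists_bound_of_continuousOn hDc
  obtain ⟨Q, hQ⟩ := hKc.exists_bound_of_continuousOn (hq.mono hKW)
  obtain ⟨C, hC⟩ := hbound
  have hvol : volume S < ⊤ := lt_of_le_of_lt (measure_mono hSK) hKc.measure_lt_top
  set good : ℝ → Prop := fun ε => 0 < ε ∧
    ∃ Φ : Euc d → ℝ, ContinuousOn Φ (closure (posSet u) \ {0}) ∧
      0 ≤ ∫ x in S, Φ x ∧
      ∀ x ∈ posSet u, ∃ y : Fin d → ℝ, Φ x ≤ ∑ i, y i * pd i (F ε) x - (∑ i, y i ^ 2) * F ε x
        + ∑ k, pd k (V ε k) x + ε * etaError v x + δ ε * fluxError v x with hgood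
  have hev : ∀ᶠ ε : ℝ in 𝓝[>] 0, good ε := by
    filter_upwards [hF, hV, hflux, self_mem_nhdsWithin] with ε h1 h2 h3 (hε : 0 < ε)
    exact ⟨hε, certificate_step hu hW hsub hv hvu hmin hbd hε h1.1 h1.2.1 h1.2.2
      (fun k => (h2 k).1) (fun k => (h2 k).2) h3⟩
  set g : ℝ → Euc d → ℝ := fun ε x => if h : good ε then max (h.2.choose x) (q x) else q x with hg
  have hgc : ∀ ε, ContinuousOn (g ε) S := fun ε => by
    simp only [hg]
    split_ifs with h
    · exact (h.2.choose_spec.1.mono fun x hx => ⟨subset_closure hx.2,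
        ne_zero_of_mem_posSet hu hx.2⟩).sup (hq.mono fun x hx => posSet_subset hu hsub hx.2)
    · exact hq.mono fun x hx => posSet_subset hu hsub hx.2
  have hup : ∀ᶠ ε : ℝ in 𝓝[>] 0, ∀ x ∈ S, g ε x ≤ max (C + E + E') Q := by
    filter_upwards [hev, hC, hδ.eventually (Metric.closedBall_mem_nhds 0 one_pos),
      nhdsWithin_le_nhds (gt_mem_nhds (show (0 : ℝ) < 1 from one_pos))] with ε h h1 h2 h3 x hx
    simp only [hg, dif_pos h]
    refine max_le ?_ (le_max_of_le_right ((le_abs_self _).trans (hQ x (hSK hx))))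
    obtain ⟨y, hy⟩ := h.2.choose_spec.2.2 x hx.2
    refine le_max_of_le_left ?_
    have a1 : ε * etaError v x ≤ E := by
      refine (le_abs_self _).trans ?_
      rw [abs_mul, abs_of_pos h.1]
      exact (mul_le_of_le_one_left (abs_nonneg _) h3.le).trans (hE x (hSK hx))
    have a2 : δ ε * fluxError v x ≤ E' := by
      refine (le_abs_self _).trans ?_
      rw [abs_mul]
      refine (mul_le_of_le_one_left (abs_nonneg _) ?_).trans (hE' x (hSK hx))
      simpa using h2
    linarith [h1 x hx.2 (hSn x hx).1 (hSn x hx).2 y]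
  have hpt : ∀ x ∈ S, Tendsto (fun ε => g ε x) (𝓝[>] 0) (𝓝 (q x)) := by
    intro x hx
    refine tendsto_order.2 ⟨fun a ha => Eventually.of_forall fun ε => ?_, fun a ha => ?_⟩
    · simp only [hg]
      split_ifs with h
      · exact lt_max_of_lt_right ha
      · exact ha
    · have hc : 0 < (a - q x) / 3 := by linarith
      have hsmall : ∀ᶠ ε : ℝ in 𝓝[>] 0, ε * etaError v x + δ ε * fluxError v x < (a - q x) / 3 := by
        have h1 : Tendsto (fun ε : ℝ => ε * etaError v x + δ ε * fluxError v x) (𝓝[>] 0)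
            (𝓝 (0 * etaError v x + 0 * fluxError v x)) :=
          ((tendsto_id.mono_left nhdsWithin_le_nhds).mul_const _).add (hδ.mul_const _)
        exact h1.eventually (gt_mem_nhds (by simpa using hc))
      filter_upwards [hev, hlim x hx.2 (hSn x hx).1 (hSn x hx).2 _ hc, hsmall] with ε h h1 h2
      simp only [hg, dif_pos h]
      obtain ⟨y, hy⟩ := h.2.choose_spec.2.2 x hx.2
      exact max_lt (by linarith [h1 y]) ha
  have hqi : IntegrableOn q S := ((hq.mono hKW).integrableOn_compact hKc).mono_set hSK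
  have hlim2 : Tendsto (fun ε => ∫ x in S, g ε x) (𝓝[>] 0) (𝓝 (∫ x in S, q x)) := by
    refine tendsto_integral_filter_of_dominated_convergence
      (fun _ => max |max (C + E + E') Q| |Q|)
      (Eventually.of_forall fun ε => (hgc ε).aestronglyMeasurable hSm) ?_
      (integrableOn_const hvol.ne)
      ((ae_restrict_iff' hSm).2 (Eventually.of_forall hpt))
    filter_upwards [hup] with ε h
    refine (ae_restrict_iff' hSm).2 (Eventually.of_forall fun x hx => abs_le.2 ⟨?_, ?_⟩)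
    · have hge : q x ≤ g ε x := by
        simp only [hg]
        split_ifs <;> simp
      have := (abs_le.1 (hQ x (hSK hx))).1
      linarith [le_max_right |max (C + E + E') Q| |Q|, le_abs_self Q]
    · exact ((h x hx).trans (le_abs_self _)).trans (le_max_left _ _)
  have hq1 : 0 ≤ ∫ x in S, q x := by
    refine ge_of_tendsto hlim2 ?_
    filter_upwards [hev, hup] with ε h hb
    refine h.2.choose_spec.2.1.trans (setIntegral_mono_on ?_ ?_ hSm fun x _ => ?_)
    · exact ((h.2.choose_spec.1.mono fun y hy => ⟨hy.1, hK0 y hy⟩).integrableOn_compact hKc).mono_set hSK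
    · refine IntegrableOn.of_bound hvol ((hgc ε).aestronglyMeasurable hSm)
        (max |max (C + E + E') Q| |Q|)
        ((ae_restrict_iff' hSm).2 (Eventually.of_forall fun x hx => abs_le.2 ⟨?_, ?_⟩))
      · have hge : q x ≤ g ε x := by
          simp only [hg, dif_pos h]; exact le_max_right _ _
        have := (abs_le.1 (hQ x (hSK hx))).1
        linarith [le_max_right |max (C + E + E') Q| |Q|, le_abs_self Q]
      · exact ((hb x hx).trans (le_abs_self _)).trans (le_max_left _ _)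
    · simp only [hg, dif_pos h]; exact le_max_left _ _
  have hzero : ∫ x in S, -q x = 0 := by
    refine le_antisymm ?_ (setIntegral_nonneg hSm fun x hx => neg_nonneg.2 (hq0 x hx.2))
    rw [integral_neg]
    linarith
  have hae := (setIntegral_eq_zero_iff_of_nonneg_ae
    ((ae_restrict_iff' hSm).2 (Eventually.of_forall fun x hx => neg_nonneg.2 (hq0 x hx.2)))
    hqi.neg).1 hzero
  set O := posSet u ∩ {y : Euc d | 1 < ‖y‖ ∧ ‖y‖ < 2} with hO
  have hOo : IsOpen O := (isOpen_posSet hu).inter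
    ((isOpen_lt continuous_const continuous_norm).inter
      (isOpen_lt continuous_norm continuous_const))
  have hOS : O ⊆ S := fun y hy => ⟨by
    simp only [shell, Set.mem_ofPred_eq, zpow_zero, zero_add, zpow_one]
    exact ⟨hy.2.1.le, hy.2.2⟩, hy.1⟩
  have hOz : Set.EqOn q (fun _ => 0) O := by
    refine Measure.eqOn_open_of_ae_eq (μ := volume) ?_ hOo
      (hq.mono fun y hy => posSet_subset hu hsub hy.1) continuousOn_const
    have : ∀ᵐ y ∂volume.restrict O, -q y = 0 := ae_mono (Measure.restrict_mono hOS le_rfl) hae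
    filter_upwards [this] with y hy
    simpa using hy
  exact fun x hx h1 h2 => hOz ⟨hx, h1, h2⟩

include hu hW hsub hv hvu in
/-- A family certificate whose `q` detects the Hessian forces flatness. -/
theorem flat_of_certificate_family (hd : 2 ≤ d) (hmin : IsStable u)
    (hbd : ∀ x ∈ frontier (posSet u), x ≠ 0 → ‖fderiv ℝ v x‖ = 1)
    {F : ℝ → Euc d → ℝ} {V : ℝ → Fin d → Euc d → ℝ} {δ : ℝ → ℝ}
    (hδ : Tendsto δ (𝓝[>] 0) (𝓝 0))
    (hF : ∀ᶠ ε : ℝ in 𝓝[>] 0, ContDiffOn ℝ 2 (F ε) W ∧ (∀ x ∈ posSet u, 0 ≤ F ε x) ∧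
      HomOn u (2 - (d : ℝ)) (F ε))
    (hV : ∀ᶠ ε : ℝ in 𝓝[>] 0, ∀ k, ContDiffOn ℝ 1 (V ε k) W ∧ HomOn u (1 - (d : ℝ)) (V ε k))
    (hflux : ∀ᶠ ε : ℝ in 𝓝[>] 0, ∀ x ∈ frontier (posSet u), x ≠ 0 →
      ∑ k, V ε k x * pd k v x + F ε x * ∑ k, hessGrad v k x * pd k v x
        ≤ δ ε * ‖x‖ ^ (1 - (d : ℝ)))
    (hbound : ∃ C : ℝ, ∀ᶠ ε : ℝ in 𝓝[>] 0, ∀ x ∈ posSet u, 1 ≤ ‖x‖ → ‖x‖ < 2 → ∀ y : Fin d → ℝ,
      ∑ i, y i * pd i (F ε) x - (∑ i, y i ^ 2) * F ε x + ∑ k, pd k (V ε k) x ≤ C)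
    {q : Euc d → ℝ} (hq : ContinuousOn q W) (hq0 : ∀ x ∈ posSet u, q x ≤ 0)
    (hlim : ∀ x ∈ posSet u, 1 ≤ ‖x‖ → ‖x‖ < 2 → ∀ c : ℝ, 0 < c → ∀ᶠ ε : ℝ in 𝓝[>] 0,
      ∀ y : Fin d → ℝ,
        ∑ i, y i * pd i (F ε) x - (∑ i, y i ^ 2) * F ε x + ∑ k, pd k (V ε k) x ≤ q x + c)
    (hdet : ∀ x ∈ posSet u, q x = 0 → ∀ i j, pd j (pd i v) x = 0) :
    (∀ x, u x = 0) ∨ ∃ e : Euc d, ‖e‖ = 1 ∧ ∀ x, u x = max ⟪e, x⟫ 0 := by
  refine flat_of_hessian_zero hd hu fun x hx i j => ?_
  have hn : 0 < ‖x‖ := norm_pos_iff.2 (ne_zero_of_mem_posSet hu hx)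
  set r := (3 / 2 : ℝ) / ‖x‖ with hr
  have hr0 : 0 < r := by positivity
  have hnr : ‖r • x‖ = 3 / 2 := by
    rw [norm_smul, Real.norm_eq_abs, abs_of_pos hr0, hr, div_mul_cancel₀ _ hn.ne']
  have hrx := smul_mem_posSet hu hx hr0
  have h0 := hdet _ hrx (family_eq_zero hu hW hsub hv hvu hmin hbd hδ hF hV hflux hbound hq hq0
    hlim _ hrx (by rw [hnr]; norm_num) (by rw [hnr]; norm_num)) i j
  rw [hessian_smul hu hW hsub hv hvu hx hr0] at h0
  have hxv : pd j (pd i v) x = 0 := (mul_eq_zero.1 h0).resolve_left (inv_ne_zero hr0.ne')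
  rw [← hxv]
  exact pd_congr (by
    filter_upwards [(eventuallyEq_of_mem_posSet hu hvu hx).eventually_nhds] with y hy
    exact pd_congr hy i) j

end Vale.Agent.P098
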