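import Vale.Agent.P098.Stability

/-!
P098: an explicit nonflat smooth cone in dimension six.
-/

open Filter
open scoped Topology ContDiff RealInnerProductSpace

namespace Vale.Agent.P098.Six

/-- `x₃² + x₄² + x₅²`. -/
def sqS (x : Euc 6) : ℝ := x 3 ^ 2 + x 4 ^ 2 + x 5 ^ 2

/-- `x₀² + x₁² + x₂²`. -/
def sqR (x : Euc 6) : ℝ := x 0 ^ 2 + x 1 ^ 2 + x 2 ^ 2

/-- `|x''|⁻¹`. -/
noncomputable def invS (x : Euc 6) : ℝ := (√(sqS x))⁻¹

/-- The harmonic function defining the cone. -/
noncomputable def cone6 (x : Euc 6) : ℝ := (√48)⁻¹ * ((3 * sqS x - sqR x) * invS x)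

/-- Indicator of the last three coordinates. -/
def sgm (i : Fin 6) : ℝ := if i = 3 ∨ i = 4 ∨ i = 5 then 1 else 0

lemma differentiableAt_coord (j : Fin 6) (x : Euc 6) :
    DifferentiableAt ℝ (fun y : Euc 6 => y j) x :=
  (EuclideanSpace.proj (𝕜 := ℝ) j).differentiableAt

lemma pd_coord (i j : Fin 6) (x : Euc 6) :
    pd i (fun y => y j) x = if j = i then 1 else 0 := by
  have h : (fun y : Euc 6 => y j) = EuclideanSpace.proj (𝕜 := ℝ) j := rfl
  rw [pd, h, ContinuousLinearMap.fderiv]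
  simp

lemma differentiableAt_sqS (x : Euc 6) : DifferentiableAt ℝ sqS x :=
  (((differentiableAt_coord 3 x).pow 2).add ((differentiableAt_coord 4 x).pow 2)).add
    ((differentiableAt_coord 5 x).pow 2)

lemma differentiableAt_sqR (x : Euc 6) : DifferentiableAt ℝ sqR x :=
  (((differentiableAt_coord 0 x).pow 2).add ((differentiableAt_coord 1 x).pow 2)).add
    ((differentiableAt_coord 2 x).pow 2)

lemma pd_sq_coord (i j : Fin 6) (x : Euc 6) :
    pd i (fun y => y j ^ 2) x = if j = i then 2 * x j else 0 := by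
  simp only [sq, pd_mul i (differentiableAt_coord j x) (differentiableAt_coord j x), pd_coord]
  split_ifs <;> ring

lemma pd_sqS (i : Fin 6) (x : Euc 6) : pd i sqS x = 2 * sgm i * x i := by
  have h := pd_add i (((differentiableAt_coord 3 x).fun_pow 2).fun_add
    ((differentiableAt_coord 4 x).fun_pow 2)) ((differentiableAt_coord 5 x).fun_pow 2)
  have h' := pd_add i ((differentiableAt_coord 3 x).fun_pow 2)
    ((differentiableAt_coord 4 x).fun_pow 2)
  show pd i (fun y => y 3 ^ 2 + y 4 ^ 2 + y 5 ^ 2) x = _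
  rw [h, h', pd_sq_coord, pd_sq_coord, pd_sq_coord]
  fin_cases i <;> simp [sgm]

lemma pd_sqR (i : Fin 6) (x : Euc 6) : pd i sqR x = 2 * (1 - sgm i) * x i := by
  have h := pd_add i (((differentiableAt_coord 0 x).fun_pow 2).fun_add
    ((differentiableAt_coord 1 x).fun_pow 2)) ((differentiableAt_coord 2 x).fun_pow 2)
  have h' := pd_add i ((differentiableAt_coord 0 x).fun_pow 2)
    ((differentiableAt_coord 1 x).fun_pow 2)
  show pd i (fun y => y 0 ^ 2 + y 1 ^ 2 + y 2 ^ 2) x = _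
  rw [h, h', pd_sq_coord, pd_sq_coord, pd_sq_coord]
  fin_cases i <;> simp [sgm]

lemma differentiableAt_invS {x : Euc 6} (hx : 0 < sqS x) : DifferentiableAt ℝ invS x :=
  ((differentiableAt_sqS x).sqrt hx.ne').inv (Real.sqrt_pos.2 hx).ne'

lemma pd_invS {x : Euc 6} (hx : 0 < sqS x) (i : Fin 6) :
    pd i invS x = -(sgm i * x i * invS x ^ 3) := by
  have hs := Real.sqrt_pos.2 hx
  have h : fderiv ℝ (fun y => (√(sqS y))⁻¹) x = _ :=
    ((hasDerivAt_inv hs.ne').comp_hasFDerivAt x
      ((differentiableAt_sqS x).hasFDerivAt.sqrt hx.ne')).fderiv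
  show fderiv ℝ (fun y => (√(sqS y))⁻¹) x _ = _
  rw [h]
  have e := pd_sqS i x
  rw [pd] at e
  simp only [invS, _root_.smul_apply, smul_eq_mul, e]
  field_simp

lemma sqS_mul_invS {x : Euc 6} (hx : 0 < sqS x) : sqS x * invS x ^ 2 = 1 := by
  rw [invS, inv_pow, Real.sq_sqrt hx.le, mul_inv_cancel₀ hx.ne']

/-- The gradient of the cone. -/
noncomputable def grad6 (i : Fin 6) (x : Euc 6) : ℝ :=
  (√48)⁻¹ * (x i * (-2 * (1 - sgm i) * invS x
    + sgm i * (3 * invS x + sqR x * invS x ^ 3)))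

lemma pd_cone6 {x : Euc 6} (hx : 0 < sqS x) (i : Fin 6) : pd i cone6 x = grad6 i x := by
  have hw := differentiableAt_invS hx
  have hq : DifferentiableAt ℝ (fun y => 3 * sqS y - sqR y) x :=
    ((differentiableAt_sqS x).const_mul 3).sub (differentiableAt_sqR x)
  show pd i (fun y => (√48)⁻¹ * ((3 * sqS y - sqR y) * invS y)) x = _
  rw [pd_mul i (differentiableAt_const _) (hq.fun_mul hw), pd_const, pd_mul i hq hw,
    pd_sub i ((differentiableAt_sqS x).const_mul 3) (differentiableAt_sqR x),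
    pd_mul i (differentiableAt_const _) (differentiableAt_sqS x), pd_const, pd_sqS, pd_sqR,
    pd_invS hx, grad6]
  linear_combination (-3 * (√48)⁻¹ * x i * sgm i * invS x) * sqS_mul_invS hx

lemma pd_grad6 {x : Euc 6} (hx : 0 < sqS x) (i : Fin 6) :
    pd i (grad6 i) x = (√48)⁻¹ * ((-2 * (1 - sgm i) * invS x
      + sgm i * (3 * invS x + sqR x * invS x ^ 3))
      + x i ^ 2 * (2 * (1 - sgm i) * sgm i * invS x ^ 3
      + sgm i * (-3 * sgm i * invS x ^ 3 + 2 * (1 - sgm i) * invS x ^ 3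
      - 3 * sqR x * sgm i * invS x ^ 5))) := by
  have hw := differentiableAt_invS hx
  have hR := differentiableAt_sqR x
  have h1 : DifferentiableAt ℝ (fun y => -2 * (1 - sgm i) * invS y) x := hw.const_mul _
  have h3 : DifferentiableAt ℝ (fun y => invS y ^ 3) x := hw.fun_pow 3
  have h2 : DifferentiableAt ℝ (fun y => sgm i * (3 * invS y + sqR y * invS y ^ 3)) x :=
    ((hw.const_mul 3).fun_add (hR.fun_mul h3)).const_mul _
  have e3 : pd i (fun y => invS y ^ 3) x = 3 * invS x ^ 2 * pd i invS x := by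
    have e : (fun y => invS y ^ 3) = fun y => invS y * (invS y * invS y) := by
      funext y; ring
    rw [e, pd_mul i hw (hw.fun_mul hw), pd_mul i hw hw]
    ring
  show pd i (fun y => (√48)⁻¹ * (y i * (-2 * (1 - sgm i) * invS y
    + sgm i * (3 * invS y + sqR y * invS y ^ 3)))) x = _
  rw [pd_mul i (differentiableAt_const _) ((differentiableAt_coord i x).fun_mul (h1.fun_add h2)), pd_const,
    pd_mul i (differentiableAt_coord i x) (h1.fun_add h2), pd_coord, if_pos rfl, pd_add i h1 h2,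
    pd_mul i (differentiableAt_const _) hw, pd_const,
    pd_mul i (differentiableAt_const _) ((hw.const_mul 3).fun_add (hR.fun_mul h3)), pd_const,
    pd_add i (hw.const_mul 3) (hR.fun_mul h3), pd_mul i (differentiableAt_const _) hw, pd_const,
    pd_mul i hR h3, e3, pd_sqR, pd_invS hx]
  ring

lemma isOpen_sqS_pos : IsOpen {x : Euc 6 | 0 < sqS x} :=
  isOpen_lt continuous_const (continuous_iff_continuousAt.2 fun x =>
    (differentiableAt_sqS x).continuousAt)

lemma sqS_pos_of_cone6_ne {x : Euc 6} (hx : cone6 x ≠ 0) : 0 < sqS x := by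
  rcases (show 0 ≤ sqS x by rw [sqS]; positivity).lt_or_eq with h | h
  · exact h
  · exact absurd (by simp [cone6, invS, ← h]) hx

lemma contDiffOn_cone6 : ContDiffOn ℝ ∞ cone6 {x : Euc 6 | 0 < sqS x} := by
  intro x hx
  have hc : ∀ j : Fin 6, ContDiffAt ℝ ∞ (fun y : Euc 6 => y j) x := fun j =>
    (EuclideanSpace.proj (𝕜 := ℝ) j).contDiff.contDiffAt
  have hS : ContDiffAt ℝ ∞ sqS x := (((hc 3).pow 2).add ((hc 4).pow 2)).add ((hc 5).pow 2)
  have hR : ContDiffAt ℝ ∞ sqR x := (((hc 0).pow 2).add ((hc 1).pow 2)).add ((hc 2).pow 2)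
  exact (contDiffAt_const.mul (((contDiffAt_const.mul hS).sub hR).mul
    ((hS.sqrt hx.ne').inv (Real.sqrt_pos.2 hx).ne'))).contDiffWithinAt

lemma mem_posSet_cone6 {x : Euc 6} :
    x ∈ posSet (fun y => max (cone6 y) 0) ↔ 0 < cone6 x := by
  simp [posSet]

lemma sgm_values : sgm 0 = 0 ∧ sgm 1 = 0 ∧ sgm 2 = 0 ∧ sgm 3 = 1 ∧ sgm 4 = 1 ∧ sgm 5 = 1 := by
  simp [sgm]

/-- An explicit smooth cone in dimension six which is not flat. -/
theorem isSmoothCone_cone6 : IsSmoothCone (fun x => max (cone6 x) 0) := by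
  set u : Euc 6 → ℝ := fun x => max (cone6 x) 0 with hu
  have h24 : (√48 : ℝ) ^ 2 = 48 := Real.sq_sqrt (by norm_num)
  have h24p : (0 : ℝ) < √48 := by positivity
  have hc0 : (0 : ℝ) ≤ (√48)⁻¹ := by positivity
  have hR : ∀ x : Euc 6, 0 ≤ sqR x := fun x => by rw [sqR]; positivity
  have hS : ∀ x : Euc 6, 0 ≤ sqS x := fun x => by rw [sqS]; positivity
  have hbound : ∀ x, u x ≤ √(sqS x) := by
    intro x
    refine max_le ?_ (Real.sqrt_nonneg _)
    rcases (hS x).lt_or_eq with h | h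
    · have hw : sqS x * invS x = √(sqS x) := by
        rw [invS, ← div_eq_mul_inv, Real.div_sqrt]
      have h2 : 3 ≤ √48 := by
        rw [Real.le_sqrt' (by norm_num)]; norm_num
      have hwp : 0 ≤ invS x := by rw [invS]; positivity
      rw [cone6, inv_mul_le_iff₀ h24p]
      nlinarith [mul_nonneg (hR x) hwp, Real.sqrt_nonneg (sqS x)]
    · simp [cone6, invS, ← h]
  have hcl : ∀ x ∈ closure (posSet u), sqR x ≤ 3 * sqS x := by
    refine closure_minimal (t := {x : Euc 6 | sqR x ≤ 3 * sqS x}) (fun x hx => ?_)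
      (isClosed_le ?_ ?_)
    · have hp := mem_posSet_cone6.1 hx
      have hw : 0 < invS x := inv_pos.2 (Real.sqrt_pos.2 (sqS_pos_of_cone6_ne hp.ne'))
      show sqR x ≤ 3 * sqS x
      have := (mul_pos_iff_of_pos_left (inv_pos.2 h24p)).1 hp
      nlinarith [(mul_pos_iff_of_pos_right hw).1 this]
    · exact continuous_iff_continuousAt.2 fun x => (differentiableAt_sqR x).continuousAt
    · exact continuous_iff_continuousAt.2 fun x =>
        ((differentiableAt_sqS x).const_mul 3).continuousAt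
  have hW : closure (posSet u) \ {0} ⊆ {x : Euc 6 | 0 < sqS x} := by
    intro x hx
    rcases (hS x).lt_or_eq with h | h
    · exact h
    · exfalso
      have h1 : sqR x = 0 := le_antisymm (by linarith [hcl x hx.1]) (hR x)
      simp only [sqR, sqS] at h h1
      refine hx.2 (PiLp.ext fun i => ?_)
      fin_cases i <;> simp <;> nlinarith [sq_nonneg (x 0), sq_nonneg (x 1), sq_nonneg (x 2),
        sq_nonneg (x 3), sq_nonneg (x 4), sq_nonneg (x 5)]
  have hcont : Continuous u := by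
    refine continuous_iff_continuousAt.2 fun x => ?_
    rcases (hS x).lt_or_eq with h | h
    · exact ((contDiffOn_cone6.contDiffAt (isOpen_sqS_pos.mem_nhds h)).continuousAt).max
        continuousAt_const
    · have h0 : u x = 0 := by simp [hu, cone6, invS, ← h]
      rw [ContinuousAt, h0]
      refine squeeze_zero (fun y => le_max_right _ _) hbound ?_
      have := (((differentiableAt_sqS x).continuousAt).sqrt).tendsto
      rwa [← h, Real.sqrt_zero] at this
  refine ⟨hcont, fun x => le_max_right _ _, fun r hr x => ?_,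
    ⟨{x | 0 < sqS x}, cone6, isOpen_sqS_pos, hW, contDiffOn_cone6,
      fun x hx => (max_eq_left (mem_posSet_cone6.1 hx).le).symm, fun x hx hx0 => ?_⟩,
    fun x hx => ?_⟩
  · have hc : cone6 (r • x) = r * cone6 x := by
      have e1 : sqS (r • x) = r ^ 2 * sqS x := by simp [sqS]; ring
      have e2 : sqR (r • x) = r ^ 2 * sqR x := by simp [sqR]; ring
      simp only [cone6, invS, e1, e2, Real.sqrt_mul (sq_nonneg r), Real.sqrt_sq hr.le,
        mul_inv_rev]
      field_simp
    simp only [hu, hc, mul_max_of_nonneg _ _ hr.le, mul_zero]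
  · have hp : 0 < sqS x := hW ⟨hx.1, hx0⟩
    have hnp : ¬ 0 < cone6 x := fun h => by
      have ho : IsOpen (posSet u) := isOpen_lt continuous_const hcont
      rw [ho.frontier_eq] at hx
      exact hx.2 (mem_posSet_cone6.2 h)
    have hw : 0 < invS x := inv_pos.2 (Real.sqrt_pos.2 hp)
    have heq : sqR x = 3 * sqS x := by
      refine le_antisymm (hcl x hx.1) (not_lt.1 fun h => hnp ?_)
      exact mul_pos (inv_pos.2 h24p) (mul_pos (by linarith) hw)
    have hg : gradSq cone6 x = 1 := by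
      obtain ⟨s0, s1, s2, s3, s4, s5⟩ := sgm_values
      simp only [gradSq, Fin.sum_univ_six, pd_cone6 hp, grad6, s0, s1, s2, s3, s4, s5]
      have hc : (√48)⁻¹ ^ 2 = (48 : ℝ)⁻¹ := by rw [inv_pow, h24]
      have e := sqS_mul_invS hp
      have hR' : x 0 ^ 2 + x 1 ^ 2 + x 2 ^ 2 = 3 * sqS x := heq
      have hS' : x 3 ^ 2 + x 4 ^ 2 + x 5 ^ 2 = sqS x := rfl
      rw [heq]
      linear_combination ((√48)⁻¹ ^ 2 * 4 * invS x ^ 2) * hR'
      + ((√48)⁻¹ ^ 2 * (3 * invS x + 3 * sqS x * invS x ^ 3) ^ 2) * hS'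
      + ((√48)⁻¹ ^ 2 * (9 * sqS x ^ 2 * invS x ^ 4 + 27 * sqS x * invS x ^ 2 + 48)) * e
      + 48 * hc
    rw [← norm_fderiv_sq] at hg
    exact (pow_eq_one_iff_of_nonneg (norm_nonneg _) two_ne_zero).1 hg
  · have hc := mem_posSet_cone6.1 hx
    have hp := sqS_pos_of_cone6_ne hc.ne'
    have hev : u =ᶠ[𝓝 x] cone6 := by
      filter_upwards [(isOpen_lt continuous_const hcont).mem_nhds hx] with y hy
      exact max_eq_left (mem_posSet_cone6.1 hy).le
    have e : ∀ i, pd i (pd i u) x = pd i (grad6 i) x := fun i => pd_congr (by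
      filter_upwards [hev.eventually_nhds, isOpen_sqS_pos.mem_nhds hp] with y hy hy'
      rw [pd_congr hy i, pd_cone6 hy' i]) i
    obtain ⟨s0, s1, s2, s3, s4, s5⟩ := sgm_values
    simp only [e, Fin.sum_univ_six, pd_grad6 hp, s0, s1, s2, s3, s4, s5]
    have hS' : x 3 ^ 2 + x 4 ^ 2 + x 5 ^ 2 = sqS x := rfl
    linear_combination ((√48)⁻¹ * (-3 * invS x ^ 3 - 3 * sqR x * invS x ^ 5)) * hS'
      + ((√48)⁻¹ * (-3 * invS x - 3 * sqR x * invS x ^ 3)) * sqS_mul_invS hp

/-- The explicit cone is not flat. -/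
theorem cone6_not_flat :
    ¬ ((∀ x, max (cone6 x) 0 = 0) ∨
      ∃ e : Euc 6, ‖e‖ = 1 ∧ ∀ x, max (cone6 x) 0 = max ⟪e, x⟫ 0) := by
  have h : ∀ r : ℝ, r ^ 2 = 1 → 0 < cone6 (EuclideanSpace.single 3 r) := fun r hr => by
    simp [cone6, sqS, sqR, invS, hr]
  rintro (h0 | ⟨e, -, he⟩)
  · have := h0 (EuclideanSpace.single 3 1)
    rw [max_eq_left (h 1 (one_pow 2)).le] at this
    exact (h 1 (one_pow 2)).ne' this
  · have h1 := he (EuclideanSpace.single 3 1)
    have h2 := he (EuclideanSpace.single 3 (-1))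
    rw [max_eq_left (h 1 (one_pow 2)).le] at h1
    rw [max_eq_left (h (-1) (by norm_num)).le] at h2
    have p1 := h 1 (one_pow 2)
    have p2 := h (-1) (by norm_num)
    have hneg : ⟪e, EuclideanSpace.single (3 : Fin 6) (-1 : ℝ)⟫
        = -⟪e, EuclideanSpace.single (3 : Fin 6) (1 : ℝ)⟫ := by
      simp [EuclideanSpace.inner_single_right]
    rw [hneg] at h2
    rcases le_total ⟪e, EuclideanSpace.single (3 : Fin 6) (1 : ℝ)⟫ 0 with hle | hle
    · rw [max_eq_right hle] at h1; linarith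
    · rw [max_eq_right (neg_nonpos.2 hle)] at h2; linarith

end Vale.Agent.P098.Six
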