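import Vale.Agent.P098.Stability

/-!
P098: global minimizers among Sobolev competitors, and the bridge to `IsMinimizer`.
-/

open MeasureTheory Filter
open scoped Topology ContDiff

namespace Vale.Agent.P098

variable {d : ℕ}

/-- `g` is a square integrable weak gradient of `f` on the open set `B`. -/
def HasWeakGrad (B : Set (Euc d)) (f : Euc d → ℝ) (g : Fin d → Euc d → ℝ) : Prop :=
  (∀ i, MemLp (g i) 2 (volume.restrict B)) ∧
    ∀ (i : Fin d) (φ : Euc d → ℝ), ContDiff ℝ ∞ φ → HasCompactSupport φ → tsupport φ ⊆ B →
      ∫ x in B, f x * pd i φ x = -∫ x in B, g i x * φ x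

/-- The one-phase energy `∫_B |g|² + |B ∩ {f > 0}|` of a function with weak gradient `g`. -/
noncomputable def sobolevEnergy (f : Euc d → ℝ) (g : Fin d → Euc d → ℝ) (B : Set (Euc d)) :
    ENNReal :=
  (∫⁻ x in B, ENNReal.ofReal (∑ i, g i x ^ 2)) + volume.restrict B (posSet f)

/-- A global minimizer: nonnegative, in `H¹` on every ball, and of least energy there among
nonnegative `H¹` functions equal to it outside a compact subset of the ball. -/
def IsGlobalMinimizer (u : Euc d → ℝ) : Prop :=
  (∀ᵐ x, 0 ≤ u x) ∧ ∀ (c : Euc d) (R : ℝ),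
    (MemLp u 2 (volume.restrict (Metric.ball c R)) ∧ ∃ g, HasWeakGrad (Metric.ball c R) u g) ∧
    ∀ (v : Euc d → ℝ) (g h : Fin d → Euc d → ℝ), HasWeakGrad (Metric.ball c R) u g →
      MemLp v 2 (volume.restrict (Metric.ball c R)) → HasWeakGrad (Metric.ball c R) v h →
      (∀ᵐ x ∂volume.restrict (Metric.ball c R), 0 ≤ v x) →
      (∃ K, IsCompact K ∧ K ⊆ Metric.ball c R ∧
        ∀ᵐ x ∂volume.restrict (Metric.ball c R), x ∉ K → v x = u x) →
      sobolevEnergy u g (Metric.ball c R) ≤ sobolevEnergy v h (Metric.ball c R)

/-- The gradient on the positivity set, zero elsewhere. -/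
noncomputable def posGrad (f : Euc d → ℝ) (i : Fin d) : Euc d → ℝ :=
  (posSet f).indicator (pd i f)

variable {f : Euc d → ℝ} {B : Set (Euc d)}

lemma measurable_posGrad (hc : Continuous f) (i : Fin d) : Measurable (posGrad f i) :=
  (measurable_fderiv_apply_const ℝ f _).indicator (isOpen_lt continuous_const hc).measurableSet

lemma sum_posGrad_sq (f : Euc d → ℝ) (x : Euc d) :
    ∑ i, posGrad f i x ^ 2 = (posSet f).indicator (fun y => ‖fderiv ℝ f y‖ ^ 2) x := by
  by_cases hx : x ∈ posSet f
  · simp only [posGrad, Set.indicator_of_mem hx]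
    rw [norm_fderiv_sq]
    exact Finset.sum_congr rfl fun i _ => sq _
  · simp [posGrad, Set.indicator_of_notMem hx]

/-- The energy of the positive part of the gradient is the pointwise energy. -/
lemma sobolevEnergy_posGrad (hc : Continuous f) (hB : MeasurableSet B) :
    sobolevEnergy f (posGrad f) B = energy f B := by
  have hP : MeasurableSet (posSet f) := (isOpen_lt continuous_const hc).measurableSet
  simp only [sobolevEnergy, energy, sum_posGrad_sq]
  have h1 : ∀ x, ENNReal.ofReal ((posSet f).indicator (fun y => ‖fderiv ℝ f y‖ ^ 2) x)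
      = (posSet f).indicator (fun y => ENNReal.ofReal (‖fderiv ℝ f y‖ ^ 2)) x := fun x => by
    by_cases hx : x ∈ posSet f <;> simp [hx]
  simp only [h1]
  rw [lintegral_indicator hP, Measure.restrict_restrict hP, Set.inter_comm (posSet f) B,
    Measure.restrict_apply hP, Set.inter_comm (posSet f) B, ← setLIntegral_one (B ∩ posSet f),
    ← lintegral_add_right _ measurable_const]
  refine setLIntegral_congr_fun (hB.inter hP) fun x _ => ?_
  simp [ENNReal.ofReal_add (sq_nonneg _) zero_le_one]

lemma memLp_posGrad (hc : Continuous f) (hB : MeasurableSet B) (hfin : energy f B < ⊤)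
    (i : Fin d) : MemLp (posGrad f i) 2 (volume.restrict B) := by
  have hm := (measurable_posGrad hc i).aestronglyMeasurable (μ := volume.restrict B)
  refine (memLp_two_iff_integrable_sq hm).2 ⟨hm.pow 2, ?_⟩
  rw [hasFiniteIntegral_iff_ofReal (Eventually.of_forall fun x => sq_nonneg _)]
  refine lt_of_le_of_lt ?_ hfin
  rw [← sobolevEnergy_posGrad hc hB]
  refine le_trans (lintegral_mono fun x => ENNReal.ofReal_le_ofReal ?_) le_self_add
  exact Finset.single_le_sum (f := fun j => posGrad f j x ^ 2) (fun j _ => sq_nonneg _)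
    (Finset.mem_univ i)

lemma deriv_smoothTransition_mul_bound :
    ∃ M, ∀ t : ℝ, |deriv Real.smoothTransition t| * |t + 1| ≤ M := by
  have hc : Continuous fun t : ℝ => |deriv Real.smoothTransition t| * |t + 1| :=
    (((Real.smoothTransition.contDiff (n := 1)).continuous_deriv le_rfl).abs).mul
      ((continuous_id.add continuous_const).abs)
  obtain ⟨M, hM⟩ := (isCompact_Icc (a := (0 : ℝ)) (b := 1)).exists_bound_of_continuousOn
    hc.continuousOn
  refine ⟨max M 0, fun t => ?_⟩
  by_cases ht : t ∈ Set.Icc (0 : ℝ) 1
  · exact le_max_of_le_left ((le_abs_self _).trans (hM t ht))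
  · have hz : deriv Real.smoothTransition t = 0 := by
      rcases not_and_or.1 ht with h | h
      · exact IsLocalMin.deriv_eq_zero (Eventually.of_forall fun y => by
          rw [Real.smoothTransition.zero_of_nonpos (not_le.1 h).le]
          exact Real.smoothTransition.nonneg y)
      · exact IsLocalMax.deriv_eq_zero (Eventually.of_forall fun y => by
          rw [Real.smoothTransition.one_of_one_le (not_le.1 h).le]
          exact Real.smoothTransition.le_one y)
    simp [hz]

lemma eventuallyEq_zero_cut (hc : Continuous f) (hn : ∀ x, 0 ≤ f x) (N : ℝ) {x : Euc d}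
    (hx : x ∉ posSet f) : cut f N =ᶠ[𝓝 x] fun _ => 0 := by
  have h0 : f x = 0 := le_antisymm (not_lt.1 hx) (hn x)
  have : ∀ᶠ y in 𝓝 x, N * f y - 1 < 0 :=
    (((continuous_const.mul hc).sub continuous_const).tendsto x).eventually
      (gt_mem_nhds (by simp [h0]))
  filter_upwards [this] with y hy
  exact Real.smoothTransition.zero_of_nonpos hy.le

lemma contDiff_trunc (hc : Continuous f) (hn : ∀ x, 0 ≤ f x) (hf : ContDiffOn ℝ 1 f (posSet f))
    (N : ℝ) : ContDiff ℝ 1 fun y => f y * cut f N y := by
  refine contDiff_iff_contDiffAt.2 fun x => ?_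
  by_cases hx : x ∈ posSet f
  · have h := hf.contDiffAt ((isOpen_lt continuous_const hc).mem_nhds hx)
    exact h.mul (Real.smoothTransition.contDiff.contDiffAt.comp x
      ((contDiffAt_const.mul h).sub contDiffAt_const))
  · refine (contDiffAt_const (c := (0 : ℝ))).congr_of_eventuallyEq ?_
    filter_upwards [eventuallyEq_zero_cut hc hn N hx] with y hy
    simp [hy]

lemma pd_trunc (hc : Continuous f) (hn : ∀ x, 0 ≤ f x) (hf : ContDiffOn ℝ 1 f (posSet f))
    (N : ℝ) (i : Fin d) (x : Euc d) :
    pd i (fun y => f y * cut f N y) x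
      = (cut f N x + N * f x * deriv Real.smoothTransition (N * f x - 1)) * posGrad f i x := by
  by_cases hx : x ∈ posSet f
  · have hd := (hf.contDiffAt ((isOpen_lt continuous_const hc).mem_nhds hx)).differentiableAt
      one_ne_zero
    have h2 := ((Real.smoothTransition.contDiff (n := 1)).differentiable one_ne_zero
      (N * f x - 1)).hasDerivAt.comp_hasFDerivAt x ((hd.hasFDerivAt.const_mul N).sub_const 1)
    have h3 : fderiv ℝ (cut f N) x
        = deriv Real.smoothTransition (N * f x - 1) • (N • fderiv ℝ f x) := h2.fderiv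
    have hcut : DifferentiableAt ℝ (cut f N) x := h2.differentiableAt
    rw [posGrad, Set.indicator_of_mem hx, pd_mul i hd hcut]
    simp only [pd, h3, _root_.smul_apply, smul_eq_mul]
    ring
  · rw [posGrad, Set.indicator_of_notMem hx, mul_zero]
    refine pd_eq_zero_of_eventually ?_ i
    filter_upwards [eventuallyEq_zero_cut hc hn N hx] with y hy
    simp [hy]

/-- A continuous nonnegative function, `C¹` where positive and of finite energy, has the
gradient on its positivity set as weak gradient. -/
theorem hasWeakGrad_posGrad (hc : Continuous f) (hn : ∀ x, 0 ≤ f x)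
    (hf : ContDiffOn ℝ 1 f (posSet f)) (hB : IsOpen B) (hb : Bornology.IsBounded B)
    (hfin : energy f B < ⊤) : HasWeakGrad B f (posGrad f) := by
  refine ⟨memLp_posGrad hc hB.measurableSet hfin, fun i φ hφ hs hsub => ?_⟩
  have : IsFiniteMeasure (volume.restrict B) :=
    ⟨by rw [Measure.restrict_apply_univ]; exact hb.measure_lt_top⟩
  obtain ⟨M, hM⟩ := deriv_smoothTransition_mul_bound
  obtain ⟨C, hC⟩ := hφ.continuous.bounded_above_of_compact_support hs
  have hφ1 : ContDiff ℝ 1 φ := hφ.of_le (WithTop.coe_le_coe.2 le_top)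
  have hout : ∀ x, x ∉ B → φ x = 0 ∧ pd i φ x = 0 := fun x hx => by
    have h := notMem_tsupport_iff_eventuallyEq.1 fun h => hx (hsub h)
    exact ⟨h.eq_of_nhds, pd_eq_zero_of_eventually h i⟩
  set T : ℝ → Euc d → ℝ := fun N x => f x * cut f N x with hT
  set a : ℝ → Euc d → ℝ := fun N x =>
    cut f N x + N * f x * deriv Real.smoothTransition (N * f x - 1) with ha
  have haC : ∀ N, Continuous (a N) := fun N =>
    ((Real.smoothTransition.continuous.comp ((continuous_const.mul hc).sub continuous_const))).add
      ((continuous_const.mul hc).mul (((Real.smoothTransition.contDiff (n := 1)).continuous_deriv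
        le_rfl).comp ((continuous_const.mul hc).sub continuous_const)))
  have hab : ∀ N x, |a N x| ≤ 1 + M := fun N x => by
    refine (abs_add_le _ _).trans (add_le_add ?_ ?_)
    · rw [cut, abs_of_nonneg (Real.smoothTransition.nonneg _)]
      exact Real.smoothTransition.le_one _
    · have h := hM (N * f x - 1)
      rw [sub_add_cancel, ← abs_mul] at h
      rwa [mul_comm]
  have hI : IntegrableOn (fun x => posGrad f i x * φ x) B := by
    refine ((memLp_posGrad hc hB.measurableSet hfin i).integrable one_le_two).mul_bdd (c := C)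
      hφ.continuous.aestronglyMeasurable (Eventually.of_forall hC)
  have hmain : ∀ N, ∫ x in B, (a N x * (posGrad f i x * φ x) + T N x * pd i φ x) = 0 := by
    intro N
    have hTd := contDiff_trunc hc hn hf N
    have e : pd i (fun y => T N y * φ y)
        = fun x => a N x * (posGrad f i x * φ x) + T N x * pd i φ x := by
      funext x
      rw [pd_mul i (hTd.differentiable one_ne_zero x) (hφ1.differentiable one_ne_zero x),
        pd_trunc hc hn hf N i x]
      ring
    rw [setIntegral_eq_integral_of_forall_compl_eq_zero fun x hx => by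
      simp [(hout x hx).1, (hout x hx).2], ← e]
    exact integral_pd_eq_zero (hTd.mul hφ1) hs.mul_left i
  have hfφ : IntegrableOn (fun x => f x * pd i φ x) B :=
    ((hc.mul (continuous_pd hφ1 i)).integrable_of_hasCompactSupport
      (hasCompactSupport_pd hs i).mul_left).integrableOn
  have hlim : Tendsto (fun N : ℝ => ∫ x in B, (a N x * (posGrad f i x * φ x) + T N x * pd i φ x))
      atTop (𝓝 (∫ x in B, (posGrad f i x * φ x + f x * pd i φ x))) := by
    refine tendsto_integral_filter_of_dominated_convergence
      (fun x => (1 + M) * ‖posGrad f i x * φ x‖ + ‖f x * pd i φ x‖) ?_ ?_ ?_ ?_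
    · exact Eventually.of_forall fun N =>
        ((haC N).aestronglyMeasurable.mul hI.aestronglyMeasurable).add
          ((contDiff_trunc hc hn hf N).continuous.mul (continuous_pd hφ1 i)).aestronglyMeasurable
    · refine Eventually.of_forall fun N => Eventually.of_forall fun x => ?_
      refine (norm_add_le _ _).trans (add_le_add ?_ ?_)
      · rw [norm_mul, Real.norm_eq_abs]
        exact mul_le_mul_of_nonneg_right (hab N x) (norm_nonneg _)
      · simp only [hT, norm_mul]
        refine mul_le_mul_of_nonneg_right (mul_le_of_le_one_right (norm_nonneg _) ?_)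
          (norm_nonneg _)
        rw [Real.norm_eq_abs, cut, abs_of_nonneg (Real.smoothTransition.nonneg _)]
        exact Real.smoothTransition.le_one _
    · exact (hI.norm.const_mul _).add hfφ.norm
    · refine Eventually.of_forall fun x => ?_
      by_cases hx : x ∈ posSet f
      · refine tendsto_const_nhds.congr' ?_
        filter_upwards [eventually_gt_atTop (2 / f x)] with N hN
        have h2 : 1 < N * f x - 1 := by
          rw [div_lt_iff₀ (show 0 < f x from hx)] at hN
          linarith
        have hcut : cut f N x = 1 := Real.smoothTransition.one_of_one_le h2.le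
        have hz : deriv Real.smoothTransition (N * f x - 1) = 0 :=
          IsLocalMax.deriv_eq_zero (Eventually.of_forall fun y => by
            rw [Real.smoothTransition.one_of_one_le h2.le]
            exact Real.smoothTransition.le_one y)
        simp [ha, hT, hcut, hz]
      · have h0 : f x = 0 := le_antisymm (not_lt.1 hx) (hn x)
        simp [hT, posGrad, Set.indicator_of_notMem hx, h0]
  have h := tendsto_nhds_unique hlim (tendsto_const_nhds.congr fun N => (hmain N).symm)
  rw [integral_add hI hfφ] at h
  linarith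

/-- A continuous function is square integrable on a ball. -/
lemma memLp_ball (hc : Continuous f) (c : Euc d) (R : ℝ) :
    MemLp f 2 (volume.restrict (Metric.ball c R)) := by
  have : IsFiniteMeasure (volume.restrict (Metric.ball c R)) :=
    ⟨by rw [Measure.restrict_apply_univ]; exact Metric.isBounded_ball.measure_lt_top⟩
  obtain ⟨C, hC⟩ := (isCompact_closedBall c R).exists_bound_of_continuousOn hc.continuousOn
  exact MemLp.of_bound hc.aestronglyMeasurable C ((ae_restrict_iff' measurableSet_ball).2
    (Eventually.of_forall fun x hx => hC x (Metric.ball_subset_closedBall hx)))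

lemma sobolevEnergy_congr {u w : Euc d → ℝ} (h : w =ᵐ[volume] u) (g : Fin d → Euc d → ℝ) :
    sobolevEnergy w g B = sobolevEnergy u g B := by
  unfold sobolevEnergy
  congr 1
  refine measure_congr ?_
  filter_upwards [ae_restrict_of_ae (s := B) h] with x hx
  show (0 < w x) = (0 < u x)
  rw [hx]

lemma energy_ball_lt_top {u : Euc d → ℝ} (hu : IsSmoothCone u) (c : Euc d) (R : ℝ) :
    energy u (Metric.ball c R) < ⊤ := by
  obtain ⟨W, v, hW, hsub, hv, hvu, -⟩ := hu.smooth
  obtain ⟨C, hC⟩ := exists_gradSq_bound hu hW hsub hv hvu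
  refine lt_of_le_of_lt (setLIntegral_mono measurable_const
    (g := fun _ => ENNReal.ofReal (C + 1)) fun x hx => ENNReal.ofReal_le_ofReal ?_) ?_
  · rw [(hasFDerivAt_of_mem hu hsub hv hvu hx.2).fderiv, norm_fderiv_sq]
    linarith [hC x hx.2]
  · rw [setLIntegral_const]
    exact ENNReal.mul_lt_top ENNReal.ofReal_lt_top
      ((Metric.isBounded_ball.subset Set.inter_subset_left).measure_lt_top)

/-- A global minimizer which agrees almost everywhere with a smooth cone makes that cone
minimal among continuous competitors. -/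
theorem IsGlobalMinimizer.isMinimizer {u w : Euc d → ℝ} (hu : IsSmoothCone u)
    (hw : IsGlobalMinimizer w) (hwu : w =ᵐ[volume] u) : IsMinimizer u := by
  intro c R f hfc hfn hf hK
  rcases eq_top_or_lt_top (energy f (Metric.ball c R)) with ht | ht
  · rw [ht]
    exact le_top
  obtain ⟨W, v, hW, hsub, hv, hvu, -⟩ := hu.smooth
  have hu1 : ContDiffOn ℝ 1 u (posSet u) := fun x hx =>
    (contDiffAt_of_mem_posSet hu hsub hv hvu hx (WithTop.coe_le_coe.2 le_top)).contDiffWithinAt
  have hgu := hasWeakGrad_posGrad hu.continuous hu.nonneg hu1 Metric.isOpen_ball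
    Metric.isBounded_ball (energy_ball_lt_top hu c R)
  have hgw : HasWeakGrad (Metric.ball c R) w (posGrad u) := by
    refine ⟨hgu.1, fun i φ h1 h2 h3 => ?_⟩
    rw [← hgu.2 i φ h1 h2 h3]
    refine integral_congr_ae ?_
    filter_upwards [ae_restrict_of_ae (s := Metric.ball c R) hwu] with x hx
    rw [hx]
  obtain ⟨K, hKc, hKB, hKeq⟩ := hK
  have h := (hw.2 c R).2 f (posGrad u) (posGrad f) hgw (memLp_ball hfc c R)
    (hasWeakGrad_posGrad hfc hfn hf Metric.isOpen_ball Metric.isBounded_ball ht)
    (Eventually.of_forall hfn) ⟨K, hKc, hKB, ?_⟩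
  · rwa [sobolevEnergy_congr hwu, sobolevEnergy_posGrad hu.continuous measurableSet_ball,
      sobolevEnergy_posGrad hfc measurableSet_ball] at h
  · filter_upwards [ae_restrict_of_ae (s := Metric.ball c R) hwu] with x hx hxK
    rw [hKeq x hxK, hx]

/-- A global minimizer with smooth cross-section is stable. -/
theorem IsGlobalMinimizer.isStable {u w : Euc d → ℝ} (hu : IsSmoothCone u)
    (hw : IsGlobalMinimizer w) (hwu : w =ᵐ[volume] u) : IsStable u :=
  IsMinimizer.isStable hu (hw.isMinimizer hu hwu)

/-- The flat solutions are stable smooth cones. -/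
theorem flat_isSmoothCone_isStable {e : Euc d} (he : ‖e‖ = 1) :
    IsSmoothCone (fun x => max (inner ℝ e x) 0) ∧ IsStable (fun x => max (inner ℝ e x) 0) := by
  set u : Euc d → ℝ := fun x => max (inner ℝ e x) 0 with hu
  set L : Euc d →L[ℝ] ℝ := innerSL ℝ e with hL
  have hpos : ∀ x, x ∈ posSet u ↔ 0 < L x := fun x => by simp [posSet, hu, hL]
  have heq : Set.EqOn L u (posSet u) := fun x hx => by
    have h := (hpos x).1 hx
    simp only [hL, innerSL_apply_apply] at h ⊢
    exact (max_eq_left h.le).symm
  have hc : Continuous u := (continuous_const.inner continuous_id).max continuous_const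
  have hev : ∀ x ∈ posSet u, u =ᶠ[𝓝 x] L := fun x hx => by
    filter_upwards [(isOpen_lt continuous_const hc).mem_nhds hx] with y hy
    exact (heq hy).symm
  have hpd : ∀ x ∈ posSet u, ∀ i, pd i u =ᶠ[𝓝 x] fun _ => L (EuclideanSpace.single i 1) := by
    intro x hx i
    filter_upwards [(hev x hx).eventually_nhds] with y hy
    rw [pd_congr hy i, pd, L.fderiv]
  have h2 : ∀ x ∈ posSet u, ∀ i j, pd j (pd i u) x = 0 := fun x hx i j => by
    rw [pd_congr (hpd x hx i) j]
    simp [pd]
  refine ⟨⟨hc, fun x => le_max_right _ _, fun r hr x => ?_, ⟨Set.univ, L, isOpen_univ,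
    Set.subset_univ _, L.contDiff.contDiffOn, heq, fun x _ _ => ?_⟩, fun x hx => ?_⟩,
    fun φ _ _ _ => ?_⟩
  · simp [hu, inner_smul_right, mul_max_of_nonneg, hr.le]
  · rw [L.fderiv, hL, innerSL_apply_norm, he]
  · exact Finset.sum_eq_zero fun i _ => h2 x hx i i
  · refine setIntegral_nonneg (isOpen_lt continuous_const hc).measurableSet fun x hx => ?_
    have e : stabDensity u φ x = ∑ i, pd i φ x ^ 2 := by
      simp [stabDensity, h2 x hx]
    rw [e]
    exact Finset.sum_nonneg fun i _ => sq_nonneg _

end Vale.Agent.P098
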