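import Vale.Agent.P098.Stability

/-!
P098: cutoff step. A homogeneous pair `(f, V)` with `V · ∇u ≤ 0` on the free boundary of a
minimizing smooth cone has `0 ≤ ∫ (stab f + div V)` over a dyadic shell.
-/

open MeasureTheory Filter
open scoped Topology ContDiff Pointwise

namespace Vale.Agent.P098

variable {d : ℕ}

/-- Positive homogeneity of degree `a` on the positivity set. -/
def HomOn (u : Euc d → ℝ) (a : ℝ) (f : Euc d → ℝ) : Prop :=
  ∀ x ∈ posSet u, ∀ r : ℝ, 0 < r → f (r • x) = r ^ a * f x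

/-- The stability integrand plus a divergence. -/
noncomputable def certDensity (u f : Euc d → ℝ) (V : Fin d → Euc d → ℝ) (x : Euc d) : ℝ :=
  stabDensity u f x + ∑ k, pd k (V k) x

/-- The dyadic shell `2^k ≤ |x| < 2^(k+1)`. -/
def shell (k : ℤ) : Set (Euc d) := {x | (2 : ℝ) ^ k ≤ ‖x‖ ∧ ‖x‖ < (2 : ℝ) ^ (k + 1)}

/-- A smooth radial step from `0` on the unit ball to `1` outside radius `√2`. -/
noncomputable def outer (x : Euc d) : ℝ := Real.smoothTransition (‖x‖ ^ 2 - 1)

/-- The cutoff to `2^(-n) ≤ |x| ≤ √2 2^n`. -/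
noncomputable def annCut (n : ℕ) (x : Euc d) : ℝ :=
  outer ((2 : ℝ) ^ n • x) * (1 - outer (((2 : ℝ) ^ n)⁻¹ • x))

lemma contDiff_outer {k : ℕ∞} : ContDiff ℝ k (outer : Euc d → ℝ) :=
  Real.smoothTransition.contDiff.comp ((contDiff_norm_sq ℝ).sub contDiff_const)

lemma outer_eq_zero {x : Euc d} (h : ‖x‖ ≤ 1) : outer x = 0 :=
  Real.smoothTransition.zero_of_nonpos (by nlinarith [norm_nonneg x])

lemma outer_eq_one {x : Euc d} (h : 3 / 2 ≤ ‖x‖) : outer x = 1 :=
  Real.smoothTransition.one_of_one_le (by nlinarith [norm_nonneg x])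

lemma contDiff_annCut {k : ℕ∞} (n : ℕ) : ContDiff ℝ k (annCut n : Euc d → ℝ) :=
  (contDiff_outer.comp (contDiff_id.const_smul _)).mul
    (contDiff_const.sub (contDiff_outer.comp (contDiff_id.const_smul _)))

lemma annCut_eq_zero_inner {n : ℕ} {x : Euc d} (h : ‖x‖ * (2 : ℝ) ^ n ≤ 1) : annCut n x = 0 := by
  rw [annCut, outer_eq_zero, zero_mul]
  rwa [norm_smul, norm_pow, Real.norm_ofNat, mul_comm]

lemma annCut_eq_zero_outer {n : ℕ} {x : Euc d} (h : 3 / 2 * (2 : ℝ) ^ n ≤ ‖x‖) :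
    annCut n x = 0 := by
  rw [annCut, outer_eq_one (x := ((2 : ℝ) ^ n)⁻¹ • x), sub_self, mul_zero]
  rw [norm_smul, norm_inv, norm_pow, Real.norm_ofNat, inv_mul_eq_div, le_div_iff₀ (by positivity)]
  exact h

lemma tsupport_annCut_subset (n : ℕ) :
    tsupport (annCut n : Euc d → ℝ) ⊆
      {x | 1 ≤ ‖x‖ * (2 : ℝ) ^ n ∧ ‖x‖ ≤ 3 / 2 * (2 : ℝ) ^ n} := by
  refine closure_minimal (fun x hx => ⟨?_, ?_⟩)
    ((isClosed_le continuous_const (continuous_norm.mul continuous_const)).inter
      (isClosed_le continuous_norm continuous_const))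
  · by_contra h
    exact hx (annCut_eq_zero_inner (not_le.1 h).le)
  · by_contra h
    exact hx (annCut_eq_zero_outer (not_le.1 h).le)

lemma measurableSet_shell (k : ℤ) : MeasurableSet (shell k : Set (Euc d)) :=
  (isClosed_le continuous_const continuous_norm).measurableSet.inter
    (isOpen_lt continuous_norm continuous_const).measurableSet

lemma disjoint_shell {j k : ℤ} (h : j ≠ k) : Disjoint (shell j : Set (Euc d)) (shell k) := by
  refine Set.disjoint_left.2 fun x hj hk => h ?_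
  have h1 : j < k + 1 := (zpow_lt_zpow_iff_right₀ (one_lt_two (α := ℝ))).1 (hj.1.trans_lt hk.2)
  have h2 : k < j + 1 := (zpow_lt_zpow_iff_right₀ (one_lt_two (α := ℝ))).1 (hk.1.trans_lt hj.2)
  omega

lemma smul_shell {k : ℤ} {x : Euc d} :
    (2 : ℝ) ^ k • x ∈ (shell k : Set (Euc d)) ↔ x ∈ (shell 0 : Set (Euc d)) := by
  have h : (0 : ℝ) < 2 ^ k := zpow_pos two_pos k
  simp only [shell, Set.mem_ofPred_eq, norm_smul, Real.norm_eq_abs, abs_of_pos h, zpow_zero,
    zero_add, zpow_one, zpow_add₀ (two_ne_zero : (2 : ℝ) ≠ 0)]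
  constructor <;> rintro ⟨h1, h2⟩ <;> constructor <;> nlinarith

/-- Derivative of a rescaled function. -/
lemma pd_scale {h h' : Euc d → ℝ} {r c : ℝ} {x : Euc d}
    (he : (fun y => h (r • y)) =ᶠ[𝓝 x] fun y => c * h' y) (hd : DifferentiableAt ℝ h (r • x))
    (hd' : DifferentiableAt ℝ h' x) (i : Fin d) : r * pd i h (r • x) = c * pd i h' x := by
  have h1 : HasFDerivAt (fun y => h (r • y))
      ((fderiv ℝ h (r • x)).comp (r • ContinuousLinearMap.id ℝ (Euc d))) x :=
    hd.hasFDerivAt.comp x ((hasFDerivAt_id x).const_smul r)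
  have h2 := h1.unique ((hd'.hasFDerivAt.const_mul c).congr_of_eventuallyEq he)
  simpa [pd] using congrArg (fun L : Euc d →L[ℝ] ℝ => L (EuclideanSpace.single i 1)) h2

variable {u v : Euc d → ℝ} {W : Set (Euc d)} (hu : IsSmoothCone u) (hW : IsOpen W)
  (hsub : closure (posSet u) \ {0} ⊆ W) (hv : ContDiffOn ℝ ∞ v W)
  (hvu : Set.EqOn v u (posSet u))

include hu hW hsub hv hvu in
/-- Scaling of the density: `φ(r·) = r^a φ'` and `V(r·) = r^(2a-1) V'` with `2a - 2 = -d`. -/
lemma certDensity_scale {φ φ' : Euc d → ℝ} {V V' : Fin d → Euc d → ℝ} {r : ℝ} (hr : 0 < r)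
    {x : Euc d} (hx : x ∈ posSet u) (hd : DifferentiableAt ℝ φ (r • x))
    (hd' : DifferentiableAt ℝ φ' x)
    (he : (fun y => φ (r • y)) =ᶠ[𝓝 x] fun y => r ^ ((2 - (d : ℝ)) / 2) * φ' y)
    (hV : ∀ k, DifferentiableAt ℝ (V k) (r • x)) (hV' : ∀ k, DifferentiableAt ℝ (V' k) x)
    (heV : ∀ k, (fun y => V k (r • y)) =ᶠ[𝓝 x] fun y => r ^ (1 - (d : ℝ)) * V' k y) :
    certDensity v φ V (r • x) = r ^ (-(d : ℝ)) * certDensity v φ' V' x := by
  set a := r ^ ((2 - (d : ℝ)) / 2) with ha
  have hrx : r • x ∈ posSet u := smul_mem_posSet hu hx hr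
  have hpdv : ∀ i, ∀ y ∈ posSet u, DifferentiableAt ℝ (pd i v) y := fun i y hy =>
    (contDiffAt_pd ((hv.contDiffAt (hW.mem_nhds (posSet_subset hu hsub hy))).of_le
      (WithTop.coe_le_coe.2 le_top)) (m := 1) (n := 2) le_rfl i).differentiableAt one_ne_zero
  have hg : ∀ i, ∀ y ∈ posSet u, pd i v (r • y) = pd i v y := fun i y hy => by
    rw [pd, pd, fderiv_smul_eq hu hsub hv hvu hy hr]
  have hH : ∀ i j, r * pd j (pd i v) (r • x) = pd j (pd i v) x := fun i j => by
    refine (pd_scale (c := 1) ?_ (hpdv i _ hrx) (hpdv i x hx) j).trans (one_mul _)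
    filter_upwards [(isOpen_posSet hu).mem_nhds hx] with y hy
    rw [one_mul, hg i y hy]
  have h0 : φ (r • x) = a * φ' x := he.eq_of_nhds
  have h1 : ∀ i, pd i φ (r • x) = a * r⁻¹ * pd i φ' x := fun i => by
    have := pd_scale he hd hd' i
    field_simp
    linarith
  have h2 : ∀ i j, pd j (pd i v) (r • x) = r⁻¹ * pd j (pd i v) x := fun i j => by
    rw [← hH i j, inv_mul_cancel_left₀ hr.ne']
  have h3 : ∀ k, pd k (V k) (r • x) = r ^ (1 - (d : ℝ)) * r⁻¹ * pd k (V' k) x := fun k => by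
    have := pd_scale (heV k) (hV k) (hV' k) k
    field_simp
    linarith
  have e1 : a * a * (r⁻¹ * r⁻¹) = r ^ (-(d : ℝ)) := by
    rw [ha, ← Real.rpow_neg_one r, ← Real.rpow_add hr, ← Real.rpow_add hr, ← Real.rpow_add hr]
    ring_nf
  have e2 : r ^ (1 - (d : ℝ)) * r⁻¹ = r ^ (-(d : ℝ)) := by
    rw [← Real.rpow_neg_one r, ← Real.rpow_add hr]
    ring_nf
  simp only [certDensity, stabDensity, h0, h1, h2, h3, hg _ x hx, e2, ← Finset.mul_sum]
  rw [← e1]
  have s1 : ∑ i, (a * r⁻¹ * pd i φ' x) ^ 2 = a * a * (r⁻¹ * r⁻¹) * ∑ i, pd i φ' x ^ 2 := by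
    rw [Finset.mul_sum]; exact Finset.sum_congr rfl fun i _ => by ring
  have s2 : ∑ i, ∑ j, (r⁻¹ * pd j (pd i v) x) ^ 2
      = r⁻¹ * r⁻¹ * ∑ i, ∑ j, pd j (pd i v) x ^ 2 := by
    simp only [Finset.mul_sum]
    exact Finset.sum_congr rfl fun i _ => Finset.sum_congr rfl fun j _ => by ring
  have s3 : ∑ i, ∑ j, pd i v x * (r⁻¹ * pd j (pd i v) x) * (a * r⁻¹ * pd j φ' x)
      = a * (r⁻¹ * r⁻¹) * ∑ i, ∑ j, pd i v x * pd j (pd i v) x * pd j φ' x := by
    simp only [Finset.mul_sum]
    exact Finset.sum_congr rfl fun i _ => Finset.sum_congr rfl fun j _ => by ring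
  rw [s1, s2, s3]
  ring

include hu in
lemma smul_shell_inter (k : ℤ) :
    ((2 : ℝ) ^ k) • (shell 0 ∩ posSet u) = (shell k ∩ posSet u : Set (Euc d)) := by
  have h : (0 : ℝ) < 2 ^ k := zpow_pos two_pos k
  ext y
  rw [Set.mem_smul_set_iff_inv_smul_mem₀ h.ne']
  constructor
  · rintro ⟨h1, h2⟩
    have a := (smul_shell (k := k)).2 h1
    have b := smul_mem_posSet hu h2 h
    rw [smul_inv_smul₀ h.ne'] at a b
    exact ⟨a, b⟩
  · rintro ⟨h1, h2⟩
    refine ⟨?_, smul_mem_posSet hu h2 (inv_pos.2 h)⟩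
    rwa [← smul_shell (k := k), smul_inv_smul₀ h.ne']

include hu in
lemma setIntegral_shell {G H : Euc d → ℝ} (k : ℤ)
    (h : ∀ x ∈ shell 0 ∩ posSet u, G ((2 : ℝ) ^ k • x) = ((2 : ℝ) ^ k) ^ (-(d : ℝ)) * H x) :
    ∫ x in shell k ∩ posSet u, G x = ∫ x in shell 0 ∩ posSet u, H x := by
  have hk : (0 : ℝ) < 2 ^ k := zpow_pos two_pos k
  have hc := Measure.setIntegral_comp_smul_of_pos (volume : Measure (Euc d)) G
    (shell 0 ∩ posSet u) hk
  rw [smul_shell_inter hu, setIntegral_congr_fun ((measurableSet_shell 0).inter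
    (isOpen_posSet hu).measurableSet) h, integral_const_mul, finrank_euclideanSpace_fin,
    smul_eq_mul, Real.rpow_neg hk.le, Real.rpow_natCast] at hc
  exact (mul_left_cancel₀ (inv_ne_zero (pow_ne_zero d hk.ne')) hc).symm

lemma certDensity_congr {φ φ' : Euc d → ℝ} {V V' : Fin d → Euc d → ℝ} {x : Euc d}
    (h : φ =ᶠ[𝓝 x] φ') (hV : ∀ k, V k =ᶠ[𝓝 x] V' k) :
    certDensity v φ V x = certDensity v φ' V' x := by
  simp only [certDensity, stabDensity_congr_right h, fun k => pd_congr (hV k) k]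

include hu hW hsub hv hvu in
/-- The cutoff step. -/
theorem shell_integral_nonneg (hmin : IsStable u)
    (hbd : ∀ x ∈ frontier (posSet u), x ≠ 0 → ‖fderiv ℝ v x‖ = 1)
    {f : Euc d → ℝ} (hf : ContDiffOn ℝ 2 f W) (hfh : HomOn u ((2 - (d : ℝ)) / 2) f)
    {V : Fin d → Euc d → ℝ} (hV : ∀ k, ContDiffOn ℝ 1 (V k) W)
    (hVh : ∀ k, HomOn u (1 - (d : ℝ)) (V k))
    (hflux : ∀ x ∈ frontier (posSet u), x ≠ 0 → ∑ k, V k x * pd k v x ≤ 0) :
    0 ≤ ∫ x in shell 0 ∩ posSet u, certDensity u f V x := by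
  classical
  set σ₀ : Euc d → ℝ := outer with hσ₀
  set J := ∫ x in shell 0 ∩ posSet u, certDensity u f V x with hJ
  set J₁ := ∫ x in shell 0 ∩ posSet u,
    certDensity v (fun y => σ₀ y * f y) (fun k y => σ₀ y * σ₀ y * V k y) x with hJ₁
  set J₂ := ∫ x in shell 0 ∩ posSet u,
    certDensity v (fun y => (1 - σ₀ y) * f y) (fun k y => (1 - σ₀ y) * (1 - σ₀ y) * V k y) x with hJ₂
  suffices key : ∀ n : ℕ, 1 ≤ n → 0 ≤ ((2 * n - 1 : ℕ) : ℝ) * J + J₁ + J₂ by
    by_contra hneg
    rw [not_le] at hneg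
    obtain ⟨n, hn⟩ := exists_nat_gt ((J₁ + J₂) / (-J))
    have h2 := key (n + 1) (by omega)
    rw [div_lt_iff₀ (neg_pos.2 hneg)] at hn
    have h3 : (n : ℝ) ≤ ((2 * (n + 1) - 1 : ℕ) : ℝ) := by exact_mod_cast (by omega)
    nlinarith [mul_le_mul_of_nonpos_right h3 hneg.le]
  intro n hn
  have h2n : (0 : ℝ) < 2 ^ n := by positivity
  have h2n' : (2 : ℝ) ≤ 2 ^ n := le_self_pow₀ one_le_two (by omega)
  set A : Set (Euc d) := {x | 1 ≤ ‖x‖ * (2 : ℝ) ^ n ∧ ‖x‖ ≤ 3 / 2 * (2 : ℝ) ^ n} with hA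
  have hAc : IsCompact A := by
    refine (isCompact_closedBall (0 : Euc d) (3 / 2 * (2 : ℝ) ^ n)).of_isClosed_subset
      ((isClosed_le continuous_const (continuous_norm.mul continuous_const)).inter
        (isClosed_le continuous_norm continuous_const)) fun x hx => ?_
    simpa using hx.2
  have hA0 : (0 : Euc d) ∉ A := fun h => by
    have := h.1
    simp at this
    linarith
  set K := closure (posSet u) ∩ A with hK
  have hKc : IsCompact K := hAc.inter_left isClosed_closure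
  have hKW : K ⊆ W \ {0} := fun x hx =>
    ⟨hsub ⟨hx.1, fun h => hA0 (h ▸ hx.2)⟩, fun h => hA0 (h ▸ hx.2)⟩
  obtain ⟨L, hL, hKL, hLW⟩ := exists_compact_between hKc (hW.sdiff isClosed_singleton) hKW
  obtain ⟨χ, hχ, -, hχ1⟩ := exists_eta hL hW hLW
  set η : Euc d → ℝ := annCut n with hη
  set φ : Euc d → ℝ := fun y => χ y * f y * η y with hφ
  set U : Fin d → Euc d → ℝ := fun k y => χ y * V k y * (η y * η y) with hU
  have hφt : IsTest W 2 φ :=
    ((hχ.of_le (WithTop.coe_le_coe.2 le_top)).mul hW hf).mul hW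
      (contDiff_annCut (k := 2) n).contDiffOn
  have hUt : ∀ k, IsTest W 1 (U k) := fun k =>
    ((hχ.of_le (WithTop.coe_le_coe.2 le_top)).mul hW (hV k)).mul hW
      ((contDiff_annCut (k := 1) n).mul (contDiff_annCut (k := 1) n)).contDiffOn
  have hloc : ∀ x ∈ posSet u, (∀ᶠ y in 𝓝 x, χ y = 1) ∨ (∀ᶠ y in 𝓝 x, η y = 0) := by
    intro x hx
    by_cases hxs : x ∈ tsupport η
    · refine Or.inl ?_
      filter_upwards [isOpen_interior.mem_nhds
        (hKL ⟨subset_closure hx, tsupport_annCut_subset n hxs⟩)] with y hy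
      exact hχ1 y (interior_subset hy)
    · exact Or.inr (notMem_tsupport_iff_eventuallyEq.1 hxs)
  have hφe : ∀ x ∈ posSet u, φ =ᶠ[𝓝 x] fun y => η y * f y := fun x hx => by
    rcases hloc x hx with h | h <;> filter_upwards [h] with y hy
    · simp [hφ, hy]; ring
    · simp [hφ, hy]
  have hUe : ∀ k, ∀ x ∈ posSet u, U k =ᶠ[𝓝 x] fun y => η y * η y * V k y := fun k x hx => by
    rcases hloc x hx with h | h <;> filter_upwards [h] with y hy
    · simp [hU, hy]; ring
    · simp [hU, hy]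
  have h00 : (0 : Euc d) ∉ tsupport φ := fun h => (hφt.subset h).2 rfl
  have hsi := integrableOn_stabDensity hu hφt.contDiff hφt.hasCompactSupport h00
  have hs := hmin φ hφt.contDiff hφt.hasCompactSupport h00
  have hdiv : 0 ≤ ∫ x in posSet u, ∑ k, pd k (U k) x := by
    refine integral_div_nonneg hu hW hsub hv hvu hbd hUt fun x hx hx0 => ?_
    by_cases hxs : x ∈ tsupport η
    · have hxK : x ∈ K := ⟨hx.1, tsupport_annCut_subset n hxs⟩
      have e : ∑ k, U k x * pd k v x = η x * η x * ∑ k, V k x * pd k v x := by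
        rw [Finset.mul_sum]
        exact Finset.sum_congr rfl fun k _ => by
          simp [hU, hχ1 x (interior_subset (hKL hxK))]; ring
      rw [e]
      exact mul_nonpos_of_nonneg_of_nonpos (mul_self_nonneg _) (hflux x hx hx0)
    · simp [hU, image_eq_zero_of_notMem_tsupport hxs]
  have hdi : IntegrableOn (fun x => ∑ k, pd k (U k) x) (posSet u) :=
    (integrable_finsetSum _ fun k _ =>
      (continuous_pd (hUt k).contDiff k).integrable_of_hasCompactSupport
        (hasCompactSupport_pd (hUt k).hasCompactSupport k)).integrableOn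
  have huv : ∀ φ : Euc d → ℝ, ∀ x ∈ posSet u, stabDensity u φ x = stabDensity v φ x := fun φ x hx =>
    stabDensity_congr_left (eventuallyEq_of_mem_posSet hu hvu hx)
  have hGi : IntegrableOn (certDensity v φ U) (posSet u) :=
    IntegrableOn.congr_fun (hsi.add hdi) (fun x hx => by
      simp [certDensity, huv φ x hx]) (isOpen_posSet hu).measurableSet
  have hG : 0 ≤ ∫ x in posSet u, certDensity v φ U x := by
    rw [setIntegral_congr_fun (g := fun x => stabDensity u φ x + ∑ k, pd k (U k) x)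
      (isOpen_posSet hu).measurableSet fun x hx => by simp [certDensity, huv φ x hx],
      integral_add hsi hdi]
    exact add_nonneg hs hdiv
  -- outside the shells the density vanishes
  have hsupp : ∀ x ∈ posSet u \ ⋃ k ∈ Finset.Icc (-(n : ℤ)) n, shell k ∩ posSet u,
      certDensity v φ U x = 0 := by
    intro x hx
    have hxA : x ∉ A := fun h => by
      refine hx.2 ?_
      have hn0 : 0 < ‖x‖ := norm_pos_iff.2 (ne_zero_of_mem_posSet hu hx.1)
      obtain ⟨k, hk1, hk2⟩ := exists_mem_Ico_zpow hn0 (one_lt_two (α := ℝ))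
      refine Set.mem_iUnion₂.2 ⟨k, Finset.mem_Icc.2 ⟨?_, ?_⟩, ⟨hk1, hk2⟩, hx.1⟩
      · have h1 : (2 : ℝ) ^ (-(n : ℤ)) ≤ ‖x‖ := by
          rw [zpow_neg, zpow_natCast, inv_le_iff_one_le_mul₀ h2n]
          exact h.1
        have := (zpow_lt_zpow_iff_right₀ (one_lt_two (α := ℝ))).1 (h1.trans_lt hk2)
        omega
      · have h1 : ‖x‖ < (2 : ℝ) ^ ((n : ℤ) + 1) := by
          rw [zpow_add₀ two_ne_zero, zpow_natCast, zpow_one]
          nlinarith [h.2]
        have := (zpow_lt_zpow_iff_right₀ (one_lt_two (α := ℝ))).1 (hk1.trans_lt h1)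
        omega
    have hz : η =ᶠ[𝓝 x] fun _ => 0 :=
      notMem_tsupport_iff_eventuallyEq.1 fun h => hxA (tsupport_annCut_subset n h)
    have e : certDensity v φ U x = certDensity v (fun _ => 0) (fun _ _ => 0) x := by
      refine certDensity_congr ?_ fun k => ?_ <;> filter_upwards [hz] with y hy <;>
        simp [hφ, hU, hy]
    rw [e]
    simp [certDensity, stabDensity, pd]
  -- each shell is a dilate of the unit shell
  have hshell : ∀ (k : ℤ) (σ : Euc d → ℝ), ContDiff ℝ 1 σ →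
      (∀ x ∈ shell 0 ∩ posSet u, (fun y => η ((2 : ℝ) ^ k • y)) =ᶠ[𝓝 x] σ) →
      ∫ x in shell k ∩ posSet u, certDensity v φ U x = ∫ x in shell 0 ∩ posSet u,
        certDensity v (fun y => σ y * f y) (fun i y => σ y * σ y * V i y) x := by
    intro k σ hσ he
    have hr : (0 : ℝ) < 2 ^ k := zpow_pos two_pos k
    refine setIntegral_shell hu k fun x hx => ?_
    have hrx := smul_mem_posSet hu hx.2 hr
    have hσd := hσ.differentiable one_ne_zero x
    have hfd : DifferentiableAt ℝ f x :=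
      (hf.contDiffAt (hW.mem_nhds (posSet_subset hu hsub hx.2))).differentiableAt (by norm_num)
    have hVd : ∀ i, DifferentiableAt ℝ (V i) x := fun i =>
      ((hV i).contDiffAt (hW.mem_nhds (posSet_subset hu hsub hx.2))).differentiableAt one_ne_zero
    refine certDensity_scale hu hW hsub hv hvu hr hx.2
      (hφt.contDiff.differentiable (by norm_num) _) (hσd.fun_mul hfd) ?_
      (fun i => (hUt i).contDiff.differentiable one_ne_zero _)
      (fun i => (hσd.fun_mul hσd).fun_mul (hVd i)) fun i => ?_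
    · filter_upwards [he x hx, (isOpen_posSet hu).mem_nhds hx.2,
        ((continuous_const_smul ((2 : ℝ) ^ k)).tendsto x).eventually (hφe _ hrx)] with y h1 h2 h3
      rw [h3, h1, hfh y h2 _ hr]
      ring
    · filter_upwards [he x hx, (isOpen_posSet hu).mem_nhds hx.2,
        ((continuous_const_smul ((2 : ℝ) ^ k)).tendsto x).eventually (hUe i _ hrx)] with y h1 h2 h3
      rw [h3, h1, hVh i y h2 _ hr]
      ring
  have hnear : ∀ x ∈ shell 0 ∩ posSet u, ∀ᶠ y in 𝓝 x, 3 / 4 < ‖y‖ ∧ ‖y‖ < 2 := fun x hx => by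
    have h1 : 1 ≤ ‖x‖ := by simpa [shell] using hx.1.1
    have h2 : ‖x‖ < 2 := by simpa [shell] using hx.1.2
    exact ((continuous_norm.tendsto x).eventually (lt_mem_nhds (by linarith))).and
      ((continuous_norm.tendsto x).eventually (gt_mem_nhds h2))
  have hmid : ∀ k ∈ Finset.Ioo (-(n : ℤ)) n,
      ∫ x in shell k ∩ posSet u, certDensity v φ U x = J := by
    intro k hk
    rw [Finset.mem_Ioo] at hk
    rw [hshell k (fun _ => 1) contDiff_const fun x hx => ?_, hJ]
    · refine setIntegral_congr_fun ((measurableSet_shell 0).inter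
        (isOpen_posSet hu).measurableSet) fun x hx => ?_
      simp [certDensity, huv f x hx.2]
    · filter_upwards [hnear x hx] with y hy
      have hr : (0 : ℝ) < 2 ^ k := zpow_pos two_pos k
      have h1 : (2 : ℝ) ^ (1 - (n : ℤ)) ≤ 2 ^ k :=
        zpow_le_zpow_right₀ one_le_two (by omega)
      have h2 : (2 : ℝ) ^ k ≤ 2 ^ ((n : ℤ) - 1) := zpow_le_zpow_right₀ one_le_two (by omega)
      rw [zpow_sub₀ two_ne_zero, zpow_one, zpow_natCast, div_le_iff₀ h2n] at h1
      rw [zpow_sub₀ two_ne_zero, zpow_one, zpow_natCast, le_div_iff₀ two_pos] at h2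
      simp only [hη, annCut]
      rw [outer_eq_one, outer_eq_zero, one_mul, sub_zero]
      · rw [norm_smul, norm_smul, norm_inv, norm_pow, Real.norm_ofNat, Real.norm_eq_abs,
          abs_of_pos hr, inv_mul_le_one₀ h2n]
        nlinarith [norm_nonneg y]
      · rw [norm_smul, norm_smul, norm_pow, Real.norm_ofNat, Real.norm_eq_abs, abs_of_pos hr]
        nlinarith [norm_nonneg y]
  have hlo : ∫ x in shell (-(n : ℤ)) ∩ posSet u, certDensity v φ U x = J₁ := by
    refine hshell _ σ₀ contDiff_outer fun x hx => ?_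
    filter_upwards [hnear x hx] with y hy
    simp only [hη, hσ₀, annCut, zpow_neg, zpow_natCast, smul_smul,
      mul_inv_cancel₀ h2n.ne', one_smul]
    rw [outer_eq_zero (x := (_ : ℝ) • y), sub_zero, mul_one]
    rw [norm_smul, norm_mul, norm_inv, norm_pow, Real.norm_ofNat, ← mul_inv,
      inv_mul_le_one₀ (by positivity)]
    nlinarith
  have hhi : ∫ x in shell (n : ℤ) ∩ posSet u, certDensity v φ U x = J₂ := by
    refine hshell _ (fun y => 1 - σ₀ y) (contDiff_const.sub contDiff_outer) fun x hx => ?_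
    filter_upwards [hnear x hx] with y hy
    simp only [hη, hσ₀, annCut, zpow_natCast, smul_smul, inv_mul_cancel₀ h2n.ne', one_smul]
    rw [outer_eq_one (x := (_ : ℝ) • y), one_mul]
    rw [norm_smul, norm_mul, norm_pow, Real.norm_ofNat]
    have hsq : (4 : ℝ) ≤ 2 ^ n * 2 ^ n := by nlinarith
    nlinarith [mul_le_mul_of_nonneg_right hsq (norm_nonneg y)]
  have hmeas : ∀ k ∈ Finset.Icc (-(n : ℤ)) n, MeasurableSet (shell k ∩ posSet u) := fun k _ =>
    (measurableSet_shell k).inter (isOpen_posSet hu).measurableSet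
  rw [setIntegral_eq_of_subset_of_forall_sdiff_eq_zero (isOpen_posSet hu).measurableSet
      (Set.iUnion₂_subset fun k _ => Set.inter_subset_right) hsupp,
    integral_biUnion_finset _ hmeas
      (fun j _ k _ h => (disjoint_shell h).mono Set.inter_subset_left Set.inter_subset_left)
      (fun k _ => hGi.mono_set Set.inter_subset_right)] at hG
  have hsplit : Finset.Icc (-(n : ℤ)) n
      = insert (-(n : ℤ)) (insert (n : ℤ) (Finset.Ioo (-(n : ℤ)) n)) := by
    ext k
    simp only [Finset.mem_Icc, Finset.mem_insert, Finset.mem_Ioo]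
    omega
  rw [hsplit, Finset.sum_insert (by simp; omega), Finset.sum_insert (by simp), hlo, hhi,
    Finset.sum_congr rfl hmid, Finset.sum_const, Int.card_Ioo, nsmul_eq_mul] at hG
  have hc : ((n : ℤ) - -(n : ℤ) - 1).toNat = 2 * n - 1 := by omega
  rw [hc] at hG
  linarith

include hu hW hsub hv hvu in
/-- No stable smooth cone admits a strict pointwise certificate. -/
theorem no_certificate (hmin : IsStable u)
    (hbd : ∀ x ∈ frontier (posSet u), x ≠ 0 → ‖fderiv ℝ v x‖ = 1)
    {f : Euc d → ℝ} (hf : ContDiffOn ℝ 2 f W) (hfh : HomOn u ((2 - (d : ℝ)) / 2) f)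
    {V : Fin d → Euc d → ℝ} (hV : ∀ k, ContDiffOn ℝ 1 (V k) W)
    (hVh : ∀ k, HomOn u (1 - (d : ℝ)) (V k))
    (hflux : ∀ x ∈ frontier (posSet u), x ≠ 0 → ∑ k, V k x * pd k v x ≤ 0)
    (hle : ∀ x ∈ posSet u, certDensity u f V x ≤ 0)
    (hlt : ∃ x ∈ posSet u, certDensity u f V x < 0) : False := by
  have hJ := shell_integral_nonneg hu hW hsub hv hvu hmin hbd hf hfh hV hVh hflux
  have huv : ∀ x ∈ posSet u, certDensity u f V x = certDensity v f V x := fun x hx => by
    simp [certDensity, stabDensity_congr_left (eventuallyEq_of_mem_posSet hu hvu hx)]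
  obtain ⟨x₀, hx₀, hneg⟩ := hlt
  have hn : 0 < ‖x₀‖ := norm_pos_iff.2 (ne_zero_of_mem_posSet hu hx₀)
  set r := (3 / 2 : ℝ) / ‖x₀‖ with hr
  have hr0 : 0 < r := by positivity
  have hx : r • x₀ ∈ posSet u := smul_mem_posSet hu hx₀ hr0
  have hsc : certDensity v f V (r • x₀) = r ^ (-(d : ℝ)) * certDensity v f V x₀ := by
    have hWn : ∀ y ∈ posSet u, W ∈ 𝓝 y := fun y hy => hW.mem_nhds (posSet_subset hu hsub hy)
    refine certDensity_scale hu hW hsub hv hvu hr0 hx₀
      ((hf.contDiffAt (hWn _ hx)).differentiableAt (by norm_num))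
      ((hf.contDiffAt (hWn _ hx₀)).differentiableAt (by norm_num)) ?_
      (fun i => ((hV i).contDiffAt (hWn _ hx)).differentiableAt one_ne_zero)
      (fun i => ((hV i).contDiffAt (hWn _ hx₀)).differentiableAt one_ne_zero) fun i => ?_ <;>
      filter_upwards [(isOpen_posSet hu).mem_nhds hx₀] with y hy
    · exact hfh y hy r hr0
    · exact hVh i y hy r hr0
  have hG : ContinuousOn (certDensity v f V) W := fun y hy => by
    have hv3 : ContDiffAt ℝ 3 v y :=
      (hv.contDiffAt (hW.mem_nhds hy)).of_le (WithTop.coe_le_coe.2 le_top)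
    have hfy : ContDiffAt ℝ 2 f y := hf.contDiffAt (hW.mem_nhds hy)
    have g : ∀ i, ContinuousAt (pd i v) y := fun i =>
      (contDiffAt_pd hv3 (m := 2) (by norm_num) i).continuousAt
    have h : ∀ i j, ContinuousAt (pd j (pd i v)) y := fun i j =>
      (contDiffAt_pd (contDiffAt_pd hv3 (m := 2) (by norm_num) i) (m := 1) (by norm_num) j).continuousAt
    have p : ∀ i, ContinuousAt (pd i f) y := fun i =>
      (contDiffAt_pd hfy (m := 1) (by norm_num) i).continuousAt
    have q : ∀ i, ContinuousAt (pd i (V i)) y := fun i =>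
      (contDiffAt_pd ((hV i).contDiffAt (hW.mem_nhds hy)) (m := 0) (by norm_num) i).continuousAt
    have s1 : ∀ {F : Fin d → Euc d → ℝ}, (∀ i, ContinuousAt (F i) y) →
        ContinuousAt (fun z => ∑ i, F i z) y := fun hF => tendsto_finsetSum _ fun i _ => hF i
    exact ((((s1 fun i => (p i).pow 2).sub ((hfy.continuousAt.pow 2).mul
      (s1 fun i => s1 fun j => (h i j).pow 2))).sub
      ((continuousAt_const.mul hfy.continuousAt).mul
        (s1 fun i => s1 fun j => ((g i).mul (h i j)).mul (p j)))).add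
      (s1 q)).continuousWithinAt
  set S := shell 0 ∩ posSet u with hS
  have hSm : MeasurableSet S := (measurableSet_shell 0).inter (isOpen_posSet hu).measurableSet
  set K := closure (posSet u) ∩ (Metric.closedBall (0 : Euc d) 2 \ Metric.ball 0 1) with hK
  have hKc : IsCompact K :=
    ((isCompact_closedBall _ _).diff Metric.isOpen_ball).inter_left isClosed_closure
  have hSK : S ⊆ K := fun y hy => by
    have h1 : 1 ≤ ‖y‖ := by simpa [shell] using hy.1.1
    have h2 : ‖y‖ < 2 := by simpa [shell] using hy.1.2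
    exact ⟨subset_closure hy.2, by simp [h2.le], by simp [h1]⟩
  have hKW : K ⊆ W := fun y hy => hsub ⟨hy.1, fun h => hy.2.2 (by simp [Set.mem_singleton_iff.1 h])⟩
  have hi : IntegrableOn (fun y => -certDensity v f V y) S :=
    (((hG.mono hKW).neg).integrableOn_compact hKc).mono_set hSK
  have hnn : 0 ≤ᵐ[volume.restrict S] fun y => -certDensity v f V y :=
    (ae_restrict_iff' hSm).2 (Eventually.of_forall fun y hy => by
      have := hle y hy.2
      rw [huv y hy.2] at this
      exact neg_nonneg.2 this)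
  have hzero : ∫ y in S, -certDensity v f V y = 0 := by
    refine le_antisymm ?_ (integral_nonneg_of_ae hnn)
    rw [integral_neg]
    rw [setIntegral_congr_fun hSm fun y hy => huv y hy.2] at hJ
    linarith
  have hae := (setIntegral_eq_zero_iff_of_nonneg_ae hnn hi).1 hzero
  -- an open set in the shell where the density is negative
  set O := (W ∩ certDensity v f V ⁻¹' Set.Iio 0) ∩
    (posSet u ∩ {y | 1 < ‖y‖ ∧ ‖y‖ < 2}) with hO
  have hOo : IsOpen O := (hG.isOpen_inter_preimage hW isOpen_Iio).inter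
    ((isOpen_posSet hu).inter ((isOpen_lt continuous_const continuous_norm).inter
      (isOpen_lt continuous_norm continuous_const)))
  have hxO : r • x₀ ∈ O := by
    refine ⟨⟨posSet_subset hu hsub hx, ?_⟩, hx, ?_⟩
    · show certDensity v f V (r • x₀) < 0
      rw [hsc, ← huv x₀ hx₀]
      exact mul_neg_of_pos_of_neg (Real.rpow_pos_of_pos hr0 _) hneg
    · have : ‖r • x₀‖ = 3 / 2 := by
        rw [norm_smul, Real.norm_eq_abs, abs_of_pos hr0, hr, div_mul_cancel₀ _ hn.ne']
      show 1 < ‖r • x₀‖ ∧ ‖r • x₀‖ < 2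
      rw [this]
      norm_num
  have hOS : O ⊆ S := fun y hy => ⟨by
    simp only [shell, Set.mem_ofPred_eq, zpow_zero, zero_add, zpow_one]
    exact ⟨hy.2.2.1.le, hy.2.2.2⟩, hy.2.1⟩
  have hnull : volume O = 0 := by
    have h1 : ∀ᵐ y ∂volume.restrict S, y ∉ O := by
      filter_upwards [hae] with y hy hyO
      have : certDensity v f V y < 0 := hyO.1.2
      simp at hy
      linarith
    have h2 := ae_iff.1 h1
    simp only [not_not, Set.ofPred_mem_eq] at h2
    rwa [Measure.restrict_apply' hSm, Set.inter_eq_left.2 hOS] at h2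
  exact (hOo.measure_pos volume ⟨_, hxO⟩).ne' hnull

end Vale.Agent.P098
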