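import Mathlib

/-!
P098: one-homogeneous solutions of the one-phase problem with smooth cross-section, and
minimality among continuous competitors.
-/

open MeasureTheory
open scoped Topology ContDiff

namespace Vale.Agent.P098

/-- Euclidean space. -/
abbrev Euc (d : ℕ) := EuclideanSpace ℝ (Fin d)

variable {d : ℕ}

/-- The `i`-th partial derivative. -/
noncomputable def pd (i : Fin d) (f : Euc d → ℝ) (x : Euc d) : ℝ :=
  fderiv ℝ f x (EuclideanSpace.single i 1)

/-- The positivity set. -/
def posSet (u : Euc d → ℝ) : Set (Euc d) := {x | 0 < u x}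

/-- A one-homogeneous solution with smooth cross-section: continuous, nonnegative,
positively one-homogeneous, smooth up to the free boundary away from the origin, with
gradient of norm one there, and harmonic where positive. -/
structure IsSmoothCone (u : Euc d → ℝ) : Prop where
  continuous : Continuous u
  nonneg : ∀ x, 0 ≤ u x
  homogeneous : ∀ r : ℝ, 0 < r → ∀ x, u (r • x) = r * u x
  smooth : ∃ (W : Set (Euc d)) (v : Euc d → ℝ), IsOpen W ∧
    closure (posSet u) \ {0} ⊆ W ∧ ContDiffOn ℝ ∞ v W ∧ Set.EqOn v u (posSet u) ∧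
    ∀ x ∈ frontier (posSet u), x ≠ 0 → ‖fderiv ℝ v x‖ = 1
  harmonic : ∀ x ∈ posSet u, ∑ i, pd i (pd i u) x = 0

/-- The energy `∫_B |∇ u|² + 1_{u > 0}`, with the gradient taken on the positivity set. -/
noncomputable def energy (u : Euc d → ℝ) (B : Set (Euc d)) : ENNReal :=
  ∫⁻ x in B ∩ posSet u, ENNReal.ofReal (‖fderiv ℝ u x‖ ^ 2 + 1)

/-- Minimality in every ball among continuous nonnegative competitors which are `C¹` where
positive and agree with `u` outside a compact subset of the ball. -/
def IsMinimizer (u : Euc d → ℝ) : Prop :=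
  ∀ (c : Euc d) (R : ℝ) (w : Euc d → ℝ), Continuous w → (∀ x, 0 ≤ w x) →
    ContDiffOn ℝ 1 w (posSet w) →
    (∃ K, IsCompact K ∧ K ⊆ Metric.ball c R ∧ ∀ x, x ∉ K → w x = u x) →
    energy u (Metric.ball c R) ≤ energy w (Metric.ball c R)

end Vale.Agent.P098
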