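import Vale.Agent.P098.Defs

/-!
P098: divergence theorem on the positivity set of a smooth cone, without surface measure.
-/

open MeasureTheory Filter
open scoped Topology ContDiff

namespace Vale.Agent.P098

variable {d : ℕ}

lemma pd_congr {f g : Euc d → ℝ} {x : Euc d} (h : f =ᶠ[𝓝 x] g) (i : Fin d) :
    pd i f x = pd i g x := by
  rw [pd, pd, h.fderiv_eq]

lemma pd_mul {f g : Euc d → ℝ} {x : Euc d} (i : Fin d) (hf : DifferentiableAt ℝ f x)
    (hg : DifferentiableAt ℝ g x) :
    pd i (fun y => f y * g y) x = pd i f x * g x + f x * pd i g x := by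
  simp [pd, fderiv_fun_mul hf hg, mul_comm]
  ring

lemma pd_eq_zero_of_eventually {f : Euc d → ℝ} {x : Euc d} (h : f =ᶠ[𝓝 x] fun _ => 0)
    (i : Fin d) : pd i f x = 0 := by
  rw [pd_congr h]
  simp [pd]

lemma continuous_pd {f : Euc d → ℝ} (hf : ContDiff ℝ 1 f) (i : Fin d) : Continuous (pd i f) :=
  (hf.continuous_fderiv one_ne_zero).clm_apply continuous_const

lemma hasCompactSupport_pd {f : Euc d → ℝ} (hf : HasCompactSupport f) (i : Fin d) :
    HasCompactSupport (pd i f) :=
  hf.fderiv_apply ℝ _

/-- The integral of a partial derivative of a compactly supported function vanishes. -/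
lemma integral_pd_eq_zero {f : Euc d → ℝ} (hf : ContDiff ℝ 1 f) (hs : HasCompactSupport f)
    (i : Fin d) : ∫ x, pd i f x = 0 := by
  have hint : Integrable (pd i f) :=
    (continuous_pd hf i).integrable_of_hasCompactSupport (hasCompactSupport_pd hs i)
  have h := integral_mul_fderiv_eq_neg_fderiv_mul_of_integrable (μ := volume)
    (f := fun _ : Euc d => (1 : ℝ)) (g := f) (v := EuclideanSpace.single i 1)
    (by simp) (by simpa [show pd i f = fun x => fderiv ℝ f x (EuclideanSpace.single i 1) from rfl]
      using hint)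
    (by simpa using hf.continuous.integrable_of_hasCompactSupport hs)
    (fun _ _ => differentiableAt_const _) (fun x _ => hf.differentiable one_ne_zero x)
  simpa [pd] using h

/-- The cutoff `θ (N u - 1)`. -/
noncomputable def cut (u : Euc d → ℝ) (N : ℝ) (x : Euc d) : ℝ :=
  Real.smoothTransition (N * u x - 1)

/-- A function supported in the open set where the smooth extension lives. -/
structure IsTest (W : Set (Euc d)) (k : WithTop ℕ∞) (f : Euc d → ℝ) : Prop where
  contDiff : ContDiff ℝ k f
  hasCompactSupport : HasCompactSupport f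
  subset : tsupport f ⊆ W \ {0}

lemma IsTest.of_le {W : Set (Euc d)} {k l : WithTop ℕ∞} {f : Euc d → ℝ} (h : IsTest W k f)
    (hl : l ≤ k) : IsTest W l f :=
  ⟨h.contDiff.of_le hl, h.hasCompactSupport, h.subset⟩

/-- Multiplying a test function by a function smooth on `W` gives a test function. -/
lemma IsTest.mul {W : Set (Euc d)} {k : WithTop ℕ∞} {f g : Euc d → ℝ} (hW : IsOpen W)
    (hf : IsTest W k f) (hg : ContDiffOn ℝ k g W) : IsTest W k (fun x => f x * g x) := by
  refine ⟨contDiff_iff_contDiffAt.2 fun x => ?_, hf.hasCompactSupport.mul_right, ?_⟩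
  · by_cases hx : x ∈ W
    · exact hf.contDiff.contDiffAt.mul (hg.contDiffAt (hW.mem_nhds hx))
    · have : f =ᶠ[𝓝 x] fun _ => 0 :=
        notMem_tsupport_iff_eventuallyEq.1 fun h => hx (hf.subset h).1
      refine (contDiffAt_const (c := (0 : ℝ))).congr_of_eventuallyEq ?_
      filter_upwards [this] with y hy
      simp [hy]
  · exact (closure_mono (Function.support_mul_subset_left f g)).trans hf.subset

variable {u : Euc d → ℝ} (hu : IsSmoothCone u) {W : Set (Euc d)} {v : Euc d → ℝ}
  (hW : IsOpen W) (hsub : closure (posSet u) \ {0} ⊆ W) (hv : ContDiffOn ℝ ∞ v W)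
  (hvu : Set.EqOn v u (posSet u))

include hu in
lemma isOpen_posSet : IsOpen (posSet u) :=
  isOpen_lt continuous_const hu.continuous

include hu in
lemma ne_zero_of_mem_posSet {x : Euc d} (hx : x ∈ posSet u) : x ≠ 0 := by
  rintro rfl
  have h := hu.homogeneous 2 two_pos 0
  rw [smul_zero] at h
  have hpos : 0 < u 0 := hx
  linarith

include hu hsub in
lemma posSet_subset : posSet u ⊆ W := fun _ hx =>
  hsub ⟨subset_closure hx, ne_zero_of_mem_posSet hu hx⟩

include hu hsub hv hvu in
lemma contDiffAt_of_mem_posSet {x : Euc d} (hx : x ∈ posSet u) {k : WithTop ℕ∞} (hk : k ≤ ∞) :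
    ContDiffAt ℝ k u x := by
  have h : ContDiffAt ℝ ∞ v x :=
    ((hv.mono (posSet_subset hu hsub)).contDiffAt ((isOpen_posSet hu).mem_nhds hx))
  refine (h.of_le hk).congr_of_eventuallyEq ?_
  filter_upwards [(isOpen_posSet hu).mem_nhds hx] with y hy
  exact (hvu hy).symm

include hu hvu in
lemma eventuallyEq_of_mem_posSet {x : Euc d} (hx : x ∈ posSet u) : u =ᶠ[𝓝 x] v := by
  filter_upwards [(isOpen_posSet hu).mem_nhds hx] with y hy
  exact (hvu hy).symm

include hu in
lemma cut_eventually_zero {N : ℝ} {x : Euc d} (hx : x ∉ posSet u) :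
    cut u N =ᶠ[𝓝 x] fun _ => 0 := by
  have h0 : u x = 0 := le_antisymm (not_lt.1 hx) (hu.nonneg x)
  have : ∀ᶠ y in 𝓝 x, N * u y - 1 < 0 :=
    (((continuous_const.mul hu.continuous).sub continuous_const).tendsto x).eventually
      (gt_mem_nhds (by simp [h0]))
  filter_upwards [this] with y hy
  exact Real.smoothTransition.zero_of_nonpos hy.le

include hu hsub hv hvu in
lemma contDiff_cut (N : ℝ) : ContDiff ℝ 1 (cut u N) := by
  refine contDiff_iff_contDiffAt.2 fun x => ?_
  by_cases hx : x ∈ posSet u
  · exact Real.smoothTransition.contDiff.contDiffAt.comp x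
      ((contDiffAt_const.mul (contDiffAt_of_mem_posSet hu hsub hv hvu hx
        (WithTop.coe_le_coe.2 le_top))).sub contDiffAt_const)
  · exact contDiffAt_const.congr_of_eventuallyEq (cut_eventually_zero hu hx)

/-- The boundary layer density. -/
noncomputable def layer (u v : Euc d → ℝ) (N : ℝ) (V : Fin d → Euc d → ℝ) : Euc d → ℝ :=
  (posSet u).indicator fun x =>
    N * deriv Real.smoothTransition (N * u x - 1) * ∑ i, V i x * pd i v x

include hu hsub hv hvu in
lemma pd_cut_mul (N : ℝ) {V : Fin d → Euc d → ℝ} (hV : ∀ i, ContDiff ℝ 1 (V i)) (x : Euc d) :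
    ∑ i, pd i (fun y => cut u N y * V i y) x
      = layer u v N V x + cut u N x * ∑ i, pd i (V i) x := by
  have hc : DifferentiableAt ℝ (cut u N) x := (contDiff_cut hu hsub hv hvu N).differentiable one_ne_zero x
  simp only [pd_mul _ hc ((hV _).differentiable one_ne_zero x), Finset.sum_add_distrib,
    ← Finset.mul_sum]
  congr 1
  by_cases hx : x ∈ posSet u
  · rw [layer, Set.indicator_of_mem hx]
    have h1 : HasFDerivAt u (fderiv ℝ v x) x := by
      rw [← (eventuallyEq_of_mem_posSet hu hvu hx).fderiv_eq]
      exact ((contDiffAt_of_mem_posSet hu hsub hv hvu hx (k := 1)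
        (WithTop.coe_le_coe.2 le_top)).differentiableAt one_ne_zero).hasFDerivAt
    have h2 := ((Real.smoothTransition.contDiff (n := 1)).differentiable one_ne_zero
      (N * u x - 1)).hasDerivAt.comp_hasFDerivAt x ((h1.const_mul N).sub_const 1)
    have h3 : fderiv ℝ (cut u N) x
        = deriv Real.smoothTransition (N * u x - 1) • (N • fderiv ℝ v x) := h2.fderiv
    rw [Finset.mul_sum]
    refine Finset.sum_congr rfl fun i _ => ?_
    simp only [pd, h3, ContinuousLinearMap.smul_apply, smul_eq_mul]
    ring
  · rw [layer, Set.indicator_of_notMem hx]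
    refine Finset.sum_eq_zero fun i _ => ?_
    rw [pd_eq_zero_of_eventually (cut_eventually_zero hu hx), zero_mul]

include hu hW hsub hv hvu in
lemma layer_identity (N : ℝ) {V : Fin d → Euc d → ℝ} (hV : ∀ i, IsTest W 1 (V i)) :
    Integrable (layer u v N V) ∧
      ∫ x, layer u v N V x = -∫ x, cut u N x * ∑ i, pd i (V i) x := by
  have _ := hW
  have hC : ∀ i, ContDiff ℝ 1 (fun y => cut u N y * V i y) := fun i =>
    (contDiff_cut hu hsub hv hvu N).mul (hV i).contDiff
  have hS : ∀ i, HasCompactSupport (fun y => cut u N y * V i y) := fun i =>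
    (hV i).hasCompactSupport.mul_left
  have hI1 : ∀ i, Integrable (pd i (fun y => cut u N y * V i y)) := fun i =>
    (continuous_pd (hC i) i).integrable_of_hasCompactSupport (hasCompactSupport_pd (hS i) i)
  have hI2 : Integrable fun x => cut u N x * ∑ i, pd i (V i) x := by
    simp only [Finset.mul_sum]
    exact integrable_finsetSum _ fun i _ =>
      ((contDiff_cut hu hsub hv hvu N).continuous.mul
        (continuous_pd (hV i).contDiff i)).integrable_of_hasCompactSupport
        ((hasCompactSupport_pd (hV i).hasCompactSupport i).mul_left)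
  have heq : layer u v N V = fun x =>
      (∑ i, pd i (fun y => cut u N y * V i y) x) - cut u N x * ∑ i, pd i (V i) x := by
    funext x
    rw [pd_cut_mul hu hsub hv hvu N (fun i => (hV i).contDiff) x]
    ring
  refine ⟨heq ▸ (integrable_finsetSum _ fun i _ => hI1 i).sub hI2, ?_⟩
  rw [heq, integral_sub (integrable_finsetSum _ fun i _ => hI1 i) hI2,
    integral_finsetSum _ fun i _ => hI1 i]
  simp [integral_pd_eq_zero (hC _) (hS _)]

include hu hvu hsub hv in
lemma eqOn_closure_of_ne {x : Euc d} (hx : x ∈ closure (posSet u)) (hx0 : x ≠ 0) : v x = u x := by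
  have hxW : x ∈ W := hsub ⟨hx, hx0⟩
  have : (𝓝[posSet u] x).NeBot := mem_closure_iff_nhdsWithin_neBot.1 hx
  exact tendsto_nhds_unique_of_eventuallyEq
    (((hv.continuousOn) x hxW).mono (posSet_subset hu hsub))
    (hu.continuous.continuousWithinAt (s := posSet u))
    (eventually_nhdsWithin_of_forall hvu)

/-- An inequality that holds on the free boundary holds in a thin layer, on a compact set. -/
lemma eventually_layer_lt {u g h : Euc d → ℝ} {K : Set (Euc d)} (hK : IsCompact K)
    (hnn : ∀ x, 0 ≤ u x) (hu : Continuous u) (hg : ContinuousOn g K) (hh : ContinuousOn h K)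
    (hlt : ∀ x ∈ K, u x = 0 → g x < h x) :
    ∀ᶠ N : ℝ in atTop, ∀ x ∈ K, N * u x < 2 → g x < h x := by
  have hS : IsCompact {x ∈ K | h x ≤ g x} :=
    hK.of_isClosed_subset (hK.isClosed.isClosed_le hh hg) fun x hx => hx.1
  rcases Set.eq_empty_or_nonempty {x ∈ K | h x ≤ g x} with he | hne
  · refine Eventually.of_forall fun N x hx _ => lt_of_not_ge fun hle => ?_
    have : x ∈ {x ∈ K | h x ≤ g x} := ⟨hx, hle⟩
    rw [he] at this
    exact this
  · obtain ⟨x0, hx0, hmin⟩ := hS.exists_isMinOn hne hu.continuousOn
    have hpos : 0 < u x0 := (hnn x0).lt_of_ne fun h0 =>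
      absurd (hlt x0 hx0.1 h0.symm) (not_lt.2 hx0.2)
    filter_upwards [eventually_ge_atTop (2 / u x0)] with N hN x hx hNx
    refine lt_of_not_ge fun hle => ?_
    have h1 : u x0 ≤ u x := hmin ⟨hx, hle⟩
    have h2 : 2 ≤ N * u x0 := by rwa [div_le_iff₀ hpos] at hN
    have h3 : 0 ≤ N := le_trans (div_nonneg two_pos.le hpos.le) hN
    nlinarith [mul_le_mul_of_nonneg_left h1 h3]

lemma exists_eta {W K : Set (Euc d)} (hK : IsCompact K) (hW : IsOpen W) (hKW : K ⊆ W \ {0}) :
    ∃ η : Euc d → ℝ, IsTest W ∞ η ∧ (∀ x, 0 ≤ η x) ∧ ∀ x ∈ K, η x = 1 := by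
  have hO : IsOpen (W \ {0}) := hW.sdiff isClosed_singleton
  obtain ⟨L, hL, hKL, hLW⟩ := exists_compact_between hK hO hKW
  obtain ⟨f, hfs, hf, hf01⟩ := (isOpen_interior (s := L)).exists_contDiff_support_eq (n := ⊤)
  have hnn : ∀ x, 0 ≤ f x := fun x => (hf01 ⟨x, rfl⟩).1
  obtain ⟨c, hc, hcK⟩ : ∃ c, 0 < c ∧ ∀ x ∈ K, c ≤ f x := by
    rcases K.eq_empty_or_nonempty with rfl | hne
    · exact ⟨1, one_pos, by simp⟩
    · obtain ⟨x0, hx0, hmin⟩ := hK.exists_isMinOn hne hf.continuous.continuousOn
      have hne0 : f x0 ≠ 0 := by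
        rw [← Function.mem_support, hfs]
        exact hKL hx0
      exact ⟨f x0, (hnn x0).lt_of_ne hne0.symm, fun x hx => hmin hx⟩
  refine ⟨fun x => Real.smoothTransition (f x / c),
    ⟨Real.smoothTransition.contDiff.comp (hf.div_const c), ?_, ?_⟩,
    fun x => Real.smoothTransition.nonneg _,
    fun x hx => Real.smoothTransition.one_of_one_le ((one_le_div hc).2 (hcK x hx))⟩
  all_goals
    have hts : Function.support (fun x => Real.smoothTransition (f x / c)) ⊆ L := by
      intro x hx
      by_contra hxL
      apply hx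
      have : f x = 0 := by
        by_contra hne
        exact hxL (interior_subset (hfs ▸ (Function.mem_support.2 hne) : x ∈ interior L))
      simp [this]
  · exact HasCompactSupport.of_support_subset_isCompact hL hts
  · exact (closure_minimal hts hL.isClosed).trans hLW

include hu hW hsub hv hvu in
/-- Divergence theorem, inequality form: a field pointing out of `{u > 0}` on the free
boundary has nonnegative total divergence there. -/
theorem integral_div_nonneg (hbd : ∀ x ∈ frontier (posSet u), x ≠ 0 → ‖fderiv ℝ v x‖ = 1)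
    {V : Fin d → Euc d → ℝ} (hV : ∀ i, IsTest W 1 (V i))
    (hflux : ∀ x ∈ frontier (posSet u), x ≠ 0 → ∑ i, V i x * pd i v x ≤ 0) :
    0 ≤ ∫ x in posSet u, ∑ i, pd i (V i) x := by
  classical
  set S := (⋃ i, tsupport (V i)) with hSdef
  have hS : IsCompact S := isCompact_iUnion fun i => (hV i).hasCompactSupport.isCompact
  have hSW : S ⊆ W \ {0} := Set.iUnion_subset fun i => (hV i).subset
  set K := S ∩ closure (posSet u) with hKdef
  have hK : IsCompact K := hS.inter_right isClosed_closure
  have hKW : K ⊆ W \ {0} := fun x hx => hSW hx.1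
  obtain ⟨η, hη, hη0, hη1⟩ := exists_eta hK hW hKW
  have hpdv : ∀ i, ContDiffOn ℝ 1 (pd i v) W := fun i =>
    ((hv.fderiv_of_isOpen hW (m := 1) (WithTop.coe_le_coe.2 le_top)).clm_apply contDiffOn_const)
  have hG : ∀ i, IsTest W 1 (fun x => η x * pd i v x) := fun i =>
    (hη.of_le (WithTop.coe_le_coe.2 le_top)).mul hW (hpdv i)
  obtain ⟨C, hC⟩ : ∃ C, ∀ N : ℝ, ∫ x, layer u v N (fun i x => η x * pd i v x) x ≤ C := by
    refine ⟨∫ x, ‖∑ i, pd i (fun x => η x * pd i v x) x‖, fun N => ?_⟩
    rw [(layer_identity hu hW hsub hv hvu N hG).2]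
    refine le_trans (le_abs_self _) ?_
    rw [abs_neg]
    refine le_trans (abs_integral_le_integral_abs) ?_
    refine integral_mono_of_nonneg (Eventually.of_forall fun x => abs_nonneg _) ?_
      (Eventually.of_forall fun x => ?_)
    · exact (integrable_finsetSum _ fun i _ =>
        (continuous_pd (hG i).contDiff i).integrable_of_hasCompactSupport
          (hasCompactSupport_pd (hG i).hasCompactSupport i)).norm
    · simp only [abs_mul, Real.norm_eq_abs]
      refine mul_le_of_le_one_left (abs_nonneg _) ?_
      rw [cut, abs_of_nonneg (Real.smoothTransition.nonneg _)]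
      exact Real.smoothTransition.le_one _
  have hlim : Tendsto (fun N : ℝ => ∫ x, cut u N x * ∑ i, pd i (V i) x) atTop
      (𝓝 (∫ x in posSet u, ∑ i, pd i (V i) x)) := by
    rw [← integral_indicator (isOpen_posSet hu).measurableSet]
    refine tendsto_integral_filter_of_dominated_convergence
      (fun x => ‖∑ i, pd i (V i) x‖) ?_ ?_ ?_ ?_
    · exact Eventually.of_forall fun N => ((contDiff_cut hu hsub hv hvu N).continuous.mul
        (continuous_finsetSum _ fun i _ => continuous_pd (hV i).contDiff i)).aestronglyMeasurable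
    · refine Eventually.of_forall fun N => Eventually.of_forall fun x => ?_
      rw [norm_mul]
      refine mul_le_of_le_one_left (norm_nonneg _) ?_
      rw [Real.norm_eq_abs, cut, abs_of_nonneg (Real.smoothTransition.nonneg _)]
      exact Real.smoothTransition.le_one _
    · exact (integrable_finsetSum _ fun i _ =>
        (continuous_pd (hV i).contDiff i).integrable_of_hasCompactSupport
          (hasCompactSupport_pd (hV i).hasCompactSupport i)).norm
    · refine Eventually.of_forall fun x => ?_
      by_cases hx : x ∈ posSet u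
      · rw [Set.indicator_of_mem hx]
        refine tendsto_const_nhds.congr' ?_
        filter_upwards [eventually_ge_atTop (2 / u x)] with N hN
        have h2 : 2 ≤ N * u x := by rwa [div_le_iff₀ (show 0 < u x from hx)] at hN
        rw [cut, Real.smoothTransition.one_of_one_le (by linarith), one_mul]
      · rw [Set.indicator_of_notMem hx]
        refine tendsto_const_nhds.congr' (Eventually.of_forall fun N => ?_)
        simp [(cut_eventually_zero hu (N := N) hx).eq_of_nhds]
  have hsq : ∀ x ∈ K, u x = 0 → (1 : ℝ) / 2 < ∑ i, pd i v x ^ 2 := by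
    intro x hx h0
    have hfr : x ∈ frontier (posSet u) := by
      rw [frontier, (isOpen_posSet hu).interior_eq]
      exact ⟨hx.2, fun h => h.ne' h0⟩
    have h1 := hbd x hfr (hKW hx).2
    have h2 : ∑ i, pd i v x ^ 2 = ‖fderiv ℝ v x‖ ^ 2 := by
      rw [← (InnerProductSpace.toDual ℝ (Euc d)).symm.norm_map, EuclideanSpace.norm_sq_eq]
      refine Finset.sum_congr rfl fun i _ => ?_
      rw [Real.norm_eq_abs, sq_abs]
      congr 1
      rw [pd, ← InnerProductSpace.toDual_symm_apply, PiLp.inner_apply]
      simp [EuclideanSpace.single_apply]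
    rw [h2, h1]
    norm_num
  have hkey : ∀ ε : ℝ, 0 < ε → ∀ᶠ N : ℝ in atTop,
      ∫ x, layer u v N V x ≤ ε * ∫ x, layer u v N (fun i x => η x * pd i v x) x := by
    intro ε hε
    have hcont : ContinuousOn (fun x => ∑ i, V i x * pd i v x) K :=
      continuousOn_finsetSum _ fun i _ => (hV i).contDiff.continuous.continuousOn.mul
        ((hpdv i).continuousOn.mono fun x hx => (hKW hx).1)
    have hcont2 : ContinuousOn (fun x => ε * ∑ i, pd i v x ^ 2) K :=
      continuousOn_const.mul (continuousOn_finsetSum _ fun i _ =>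
        ((hpdv i).continuousOn.mono fun x hx => (hKW hx).1).pow 2)
    filter_upwards [eventually_layer_lt hK hu.nonneg hu.continuous hcont hcont2 (fun x hx h0 => by
      have hfr : x ∈ frontier (posSet u) := by
        rw [frontier, (isOpen_posSet hu).interior_eq]
        exact ⟨hx.2, fun h => h.ne' h0⟩
      nlinarith [hflux x hfr (hKW hx).2, hsq x hx h0]), eventually_ge_atTop (0 : ℝ)] with N hN hN0
    rw [← integral_const_mul]
    refine integral_mono (layer_identity hu hW hsub hv hvu N hV).1
      ((layer_identity hu hW hsub hv hvu N hG).1.const_mul ε) fun x => ?_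
    simp only [layer, Set.indicator]
    split_ifs with hx
    · have hd : 0 ≤ N * deriv Real.smoothTransition (N * u x - 1) :=
        mul_nonneg hN0 Real.smoothTransition.monotone.deriv_nonneg
      have hsum : ∑ i, η x * pd i v x * pd i v x = η x * ∑ i, pd i v x ^ 2 := by
        rw [Finset.mul_sum]
        exact Finset.sum_congr rfl fun i _ => by ring
      rw [hsum]
      by_cases hxS : x ∈ S
      · by_cases hlt : N * u x < 2
        · have hxK : x ∈ K := ⟨hxS, subset_closure hx⟩
          rw [hη1 x hxK, one_mul]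
          nlinarith [hN x hxK hlt]
        · have hz : deriv Real.smoothTransition (N * u x - 1) = 0 := by
            have hge : 1 ≤ N * u x - 1 := by linarith
            have hmax : IsLocalMax Real.smoothTransition (N * u x - 1) :=
              Eventually.of_forall fun y => by
                rw [Real.smoothTransition.one_of_one_le hge]
                exact Real.smoothTransition.le_one y
            exact hmax.deriv_eq_zero
          simp [hz]
      · have hz : ∀ i, V i x = 0 := fun i =>
          image_eq_zero_of_notMem_tsupport fun h => hxS (Set.mem_iUnion.2 ⟨i, h⟩)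
        simp only [hz, zero_mul, Finset.sum_const_zero, mul_zero]
        exact mul_nonneg hε.le (mul_nonneg hd
          (mul_nonneg (hη0 x) (Finset.sum_nonneg fun i _ => sq_nonneg _)))
    · simp
  refine le_of_forall_pos_le_add fun δ hδ => ?_
  obtain ⟨ε, hε, hεC⟩ : ∃ ε > 0, ε * C ≤ δ := by
    refine ⟨δ / (|C| + 1), by positivity, ?_⟩
    rw [div_mul_eq_mul_div, div_le_iff₀ (by positivity)]
    nlinarith [le_abs_self C]
  have hev : ∀ᶠ N : ℝ in atTop, -δ ≤ ∫ x, cut u N x * ∑ i, pd i (V i) x := by
    filter_upwards [hkey ε hε] with N hN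
    have h1 := (layer_identity hu hW hsub hv hvu N hV).2
    nlinarith [hC N]
  linarith [ge_of_tendsto hlim hev]

end Vale.Agent.P098
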