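import Vale.Agent.P098.Defs

/-!
P098: second symmetric difference of `det (1 + tB) * (|g (1 + tB)⁻¹|² + 1)`.
-/

open Matrix Filter
open scoped Topology Polynomial

namespace Vale.Agent.P098

variable {d : ℕ}

/-- The determinant `det (1 + X M)` for the generic matrix `M`. -/
noncomputable def genDet (d : ℕ) : Polynomial (MvPolynomial (Fin d × Fin d) ℝ) :=
  det (1 + (Polynomial.X : Polynomial (MvPolynomial (Fin d × Fin d) ℝ)) •
    (mvPolynomialX (Fin d) (Fin d) ℝ).map Polynomial.C)

/-- Evaluation at the entries of `B`. -/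
noncomputable def entryEval (B : Matrix (Fin d) (Fin d) ℝ) :
    MvPolynomial (Fin d × Fin d) ℝ →+* ℝ :=
  MvPolynomial.eval fun p => B p.1 p.2

lemma map_genDet (B : Matrix (Fin d) (Fin d) ℝ) :
    (genDet d).map (entryEval B) = det (1 + (Polynomial.X : ℝ[X]) • B.map Polynomial.C) := by
  rw [genDet, ← Polynomial.coe_mapRingHom, RingHom.map_det]
  congr 1
  ext i j : 1
  by_cases h : i = j <;>
    simp [entryEval, h, mvPolynomialX]

/-- The remainder in `det (1 + tB) = 1 + t tr B + t² rem`. -/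
noncomputable def detRem (t : ℝ) (B : Matrix (Fin d) (Fin d) ℝ) : ℝ :=
  (genDet d).divX.divX.eval₂ (entryEval B) t

lemma det_expansion (t : ℝ) (B : Matrix (Fin d) (Fin d) ℝ) :
    det (1 + t • B) = 1 + t * trace B + t ^ 2 * detRem t B := by
  have h := det_one_add_smul t B
  rw [h, detRem, Polynomial.eval₂_eq_eval_map]
  have e : (genDet d).divX.divX.map (entryEval B)
      = (det (1 + (Polynomial.X : ℝ[X]) • B.map Polynomial.C)).divX.divX := by
    rw [← map_genDet]
    ext k
    simp [Polynomial.coeff_divX]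
  rw [e]
  ring

lemma continuous_detRem :
    Continuous fun p : ℝ × Matrix (Fin d) (Fin d) ℝ => detRem p.1 p.2 := by
  simp only [detRem, Polynomial.eval₂_eq_sum_range]
  refine continuous_finsetSum _ fun k _ => ?_
  refine Continuous.mul ?_ (continuous_fst.pow k)
  exact ((genDet d).divX.divX.coeff k).continuous_eval.comp
    (continuous_pi fun q => (continuous_apply q.2).comp ((continuous_apply q.1).comp continuous_snd))

lemma detRem_zero_identity (B : Matrix (Fin d) (Fin d) ℝ) :
    2 * detRem 0 B = trace B ^ 2 - trace (B * B) := by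
  have key : ∀ t : ℝ, t ≠ 0 → detRem t B + detRem (-t) B
      + t * trace B * (detRem (-t) B - detRem t B) + t ^ 2 * detRem t B * detRem (-t) B
      = trace B ^ 2 - trace (B * B) + t ^ 2 * detRem (t ^ 2) (-(B * B)) := by
    intro t ht
    have h : det (1 + t • B) * det (1 + (-t) • B) = det (1 + (t ^ 2) • (-(B * B))) := by
      rw [← det_mul]
      congr 1
      simp only [mul_add, add_mul, one_mul, mul_one, smul_mul_assoc, mul_smul_comm]
      module
    rw [det_expansion, det_expansion, det_expansion, trace_neg] at h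
    have ht2 : t ^ 2 ≠ 0 := pow_ne_zero _ ht
    apply mul_left_cancel₀ ht2
    linear_combination h
  have hc : Continuous fun t : ℝ => detRem t B :=
    continuous_detRem.comp (continuous_id.prodMk continuous_const)
  have hc' : Continuous fun t : ℝ => detRem (t ^ 2) (-(B * B)) :=
    continuous_detRem.comp ((continuous_id.pow 2).prodMk continuous_const)
  have hL : Continuous fun t : ℝ => detRem t B + detRem (-t) B
      + t * trace B * (detRem (-t) B - detRem t B) + t ^ 2 * detRem t B * detRem (-t) B := by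
    fun_prop
  have hR : Continuous fun t : ℝ =>
      trace B ^ 2 - trace (B * B) + t ^ 2 * detRem (t ^ 2) (-(B * B)) := by fun_prop
  have := congrFun (Continuous.ext_on (dense_compl_singleton (0 : ℝ)) hL hR
    (fun t ht => key t ht)) 0
  simp at this
  linarith

/-- The transformed energy density. -/
noncomputable def dens (g : Fin d → ℝ) (B : Matrix (Fin d) (Fin d) ℝ) (t : ℝ) : ℝ :=
  det (1 + t • B) * ((g ᵥ* (1 + t • B)⁻¹) ⬝ᵥ (g ᵥ* (1 + t • B)⁻¹) + 1)

/-- The second order part of the inverse. -/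
noncomputable def invTail (g : Fin d → ℝ) (B : Matrix (Fin d) (Fin d) ℝ) (t : ℝ) : Fin d → ℝ :=
  g ᵥ* (B * B * (1 + t • B)⁻¹)

/-- The quotient in the first order difference of the squared norm. -/
noncomputable def normTail (g : Fin d → ℝ) (B : Matrix (Fin d) (Fin d) ℝ) (t : ℝ) : ℝ :=
  (g ᵥ* B) ⬝ᵥ (g ᵥ* B) + 2 * (g ⬝ᵥ invTail g B t) - 2 * t * ((g ᵥ* B) ⬝ᵥ invTail g B t)
    + t ^ 2 * (invTail g B t ⬝ᵥ invTail g B t)

/-- The second symmetric difference quotient, extended to `t = 0`. -/
noncomputable def symQuot (g : Fin d → ℝ) (B : Matrix (Fin d) (Fin d) ℝ) (t : ℝ) : ℝ :=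
  (g ⬝ᵥ g + 1) * (detRem t B + detRem (-t) B)
    + (trace B + t * detRem t B) * (-2 * (g ⬝ᵥ (g ᵥ* B)) + t * normTail g B t)
    + (trace B + (-t) * detRem (-t) B) * (-2 * (g ⬝ᵥ (g ᵥ* B)) + (-t) * normTail g B (-t))
    + normTail g B t + normTail g B (-t)

lemma vecMul_inv_expansion (g : Fin d → ℝ) (B : Matrix (Fin d) (Fin d) ℝ) (t : ℝ)
    (h : det (1 + t • B) ≠ 0) :
    g ᵥ* (1 + t • B)⁻¹ = g - t • (g ᵥ* B) + t ^ 2 • invTail g B t := by
  have hI : (1 + t • B) * (1 + t • B)⁻¹ = 1 := mul_nonsing_inv _ (isUnit_iff_ne_zero.2 h)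
  have e : (1 + t • B)⁻¹ = 1 - t • B + t ^ 2 • (B * B * (1 + t • B)⁻¹) := by
    have e1 : (1 - t • B + t ^ 2 • (B * B * (1 + t • B)⁻¹)) =
        ((1 - t • B) * (1 + t • B) + t ^ 2 • (B * B)) * (1 + t • B)⁻¹ := by
      rw [add_mul, mul_assoc (1 - t • B), hI, mul_one, smul_mul_assoc]
    have e2 : (1 - t • B) * (1 + t • B) + t ^ 2 • (B * B) = 1 := by
      simp only [mul_add, sub_mul, one_mul, mul_one, smul_mul_assoc, mul_smul_comm]
      module
    rw [e1, e2, one_mul]
  conv_lhs => rw [e]
  rw [vecMul_add, vecMul_sub, vecMul_one, vecMul_smul, vecMul_smul, invTail]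

lemma symQuot_eq (g : Fin d → ℝ) (B : Matrix (Fin d) (Fin d) ℝ) (t : ℝ)
    (h : det (1 + t • B) ≠ 0) (h' : det (1 + (-t) • B) ≠ 0) :
    dens g B t + dens g B (-t) - 2 * dens g B 0 = t ^ 2 * symQuot g B t := by
  have h0 : dens g B 0 = g ⬝ᵥ g + 1 := by simp [dens]
  rw [h0, dens, dens, vecMul_inv_expansion g B t h, vecMul_inv_expansion g B (-t) h',
    det_expansion, det_expansion]
  simp only [symQuot, normTail, dotProduct_add, add_dotProduct, dotProduct_sub, sub_dotProduct,
    dotProduct_smul, smul_dotProduct, smul_eq_mul, dotProduct_comm (g ᵥ* B) g,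
    dotProduct_comm (invTail g B t) g, dotProduct_comm (invTail g B (-t)) g,
    dotProduct_comm (invTail g B t) (g ᵥ* B), dotProduct_comm (invTail g B (-t)) (g ᵥ* B)]
  ring

/-- The second order coefficient. -/
noncomputable def second (g : Fin d → ℝ) (B : Matrix (Fin d) (Fin d) ℝ) : ℝ :=
  (g ⬝ᵥ g + 1) * ((trace B ^ 2 - trace (B * B)) / 2) - 2 * trace B * (g ⬝ᵥ (g ᵥ* B))
    + (g ᵥ* B) ⬝ᵥ (g ᵥ* B) + 2 * (g ⬝ᵥ (g ᵥ* (B * B)))

lemma symQuot_zero (g : Fin d → ℝ) (B : Matrix (Fin d) (Fin d) ℝ) :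
    symQuot g B 0 = 2 * second g B := by
  have := detRem_zero_identity B
  simp only [symQuot, normTail, invTail, second, neg_zero, zero_smul, add_zero, inv_one, mul_one]
  linear_combination (g ⬝ᵥ g + 1) * this

lemma continuousAt_symQuot {X : Type*} [TopologicalSpace X] {g : X → Fin d → ℝ}
    {B : X → Matrix (Fin d) (Fin d) ℝ} {τ : X → ℝ} {s : Set X} {x : X}
    (hg : ContinuousWithinAt g s x) (hB : ContinuousWithinAt B s x)
    (hτ : ContinuousWithinAt τ s x)
    (h : det (1 + τ x • B x) ≠ 0) (h' : det (1 + (-τ x) • B x) ≠ 0) :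
    ContinuousWithinAt (fun y => symQuot (g y) (B y) (τ y)) s x := by
  have hinv : ∀ (σ : X → ℝ), ContinuousWithinAt σ s x → det (1 + σ x • B x) ≠ 0 →
      ContinuousWithinAt (fun y => (1 + σ y • B y)⁻¹) s x := fun σ hσ hd => by
    refine ContinuousAt.comp_continuousWithinAt (g := Inv.inv) ?_
      (continuousWithinAt_const.add (hσ.smul hB))
    refine continuousAt_matrix_inv _ ?_
    rw [Ring.inverse_eq_inv']
    exact continuousAt_inv₀ hd
  have hv : ∀ {M : X → Matrix (Fin d) (Fin d) ℝ}, ContinuousWithinAt M s x →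
      ContinuousWithinAt (fun y => g y ᵥ* M y) s x := fun hM =>
    ((continuous_fst.matrix_vecMul continuous_snd).continuousAt).comp_continuousWithinAt
      (hg.prodMk hM)
  have hd : ∀ {a b : X → Fin d → ℝ}, ContinuousWithinAt a s x → ContinuousWithinAt b s x →
      ContinuousWithinAt (fun y => a y ⬝ᵥ b y) s x := fun ha hb =>
    ((continuous_fst.dotProduct continuous_snd).continuousAt).comp_continuousWithinAt
      (ha.prodMk hb)
  have hm : ∀ {M N : X → Matrix (Fin d) (Fin d) ℝ}, ContinuousWithinAt M s x →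
      ContinuousWithinAt N s x → ContinuousWithinAt (fun y => M y * N y) s x := fun hM hN =>
    ((continuous_fst.matrix_mul continuous_snd).continuousAt).comp_continuousWithinAt
      (hM.prodMk hN)
  have hr : ∀ (σ : X → ℝ), ContinuousWithinAt σ s x →
      ContinuousWithinAt (fun y => detRem (σ y) (B y)) s x := fun σ hσ =>
    continuous_detRem.continuousAt.comp_continuousWithinAt (f := fun y => (σ y, B y))
      (hσ.prodMk hB)
  have hT := hv (hm (hm hB hB) (hinv τ hτ h))
  have hT' := hv (hm (hm hB hB) (hinv (fun y => -τ y) hτ.neg h'))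
  have htr : ContinuousWithinAt (fun y => trace (B y)) s x :=
    (continuous_id.matrix_trace.continuousAt).comp_continuousWithinAt hB
  have hgB := hv hB
  have hN : ∀ (σ : X → ℝ), ContinuousWithinAt σ s x →
      ContinuousWithinAt (fun y => invTail (g y) (B y) (σ y)) s x →
      ContinuousWithinAt (fun y => normTail (g y) (B y) (σ y)) s x := fun σ hσ hI => by
    unfold normTail
    exact (((hd hgB hgB).add (continuousWithinAt_const.mul (hd hg hI))).sub
      ((continuousWithinAt_const.mul hσ).mul (hd hgB hI))).add ((hσ.pow 2).mul (hd hI hI))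
  have hN1 := hN τ hτ hT
  have hN2 := hN (fun y => -τ y) hτ.neg hT'
  unfold symQuot
  exact ((((((hd hg hg).add continuousWithinAt_const).mul ((hr τ hτ).add (hr _ hτ.neg))).add
    ((htr.add (hτ.mul (hr τ hτ))).mul
      ((continuousWithinAt_const.mul (hd hg hgB)).add (hτ.mul hN1)))).add
    ((htr.add (hτ.neg.mul (hr _ hτ.neg))).mul
      ((continuousWithinAt_const.mul (hd hg hgB)).add (hτ.neg.mul hN2)))).add hN1).add hN2

end Vale.Agent.P098
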