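import Vale.Agent.P098.Stability

/-!
P098: a smooth cone with vanishing Hessian on its positivity set is flat, in dimension at
least two.
-/

open Filter
open scoped Topology ContDiff RealInnerProductSpace

namespace Vale.Agent.P098

variable {d : ℕ} {u v : Euc d → ℝ} {W : Set (Euc d)} (hu : IsSmoothCone u) (hW : IsOpen W)
  (hsub : closure (posSet u) \ {0} ⊆ W) (hv : ContDiffOn ℝ ∞ v W)
  (hvu : Set.EqOn v u (posSet u))
  (hH : ∀ x ∈ posSet u, ∀ i j, pd j (pd i u) x = 0)

include hu hW hsub hv hvu hH in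
lemma eventually_fderiv_eq {x : Euc d} (hx : x ∈ posSet u) :
    ∀ᶠ y in 𝓝 x, fderiv ℝ v y = fderiv ℝ v x := by
  obtain ⟨ε, hε, hball⟩ := Metric.isOpen_iff.1 (isOpen_posSet hu) x hx
  have hd : ∀ i, ∀ y ∈ Metric.ball x ε, HasFDerivAt (pd i v) (0 : Euc d →L[ℝ] ℝ) y := by
    intro i y hy
    have hdiff : DifferentiableAt ℝ (pd i v) y :=
      (contDiffAt_pd ((hv.contDiffAt (hW.mem_nhds (posSet_subset hu hsub (hball hy)))).of_le
        (WithTop.coe_le_coe.2 le_top)) (m := 1) (n := 2) le_rfl i).differentiableAt one_ne_zero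
    have hzero : fderiv ℝ (pd i v) y = 0 := by
      ext z
      rw [clm_apply_eq_sum (fderiv ℝ (pd i v) y) z]
      refine (Finset.sum_eq_zero fun j _ => ?_).trans (zero_apply z).symm
      have h : pd j (pd i v) y = pd j (pd i u) y := pd_congr (by
        filter_upwards [(eventuallyEq_of_mem_posSet hu hvu (hball hy)).eventually_nhds] with w hw
        exact pd_congr (Filter.EventuallyEq.symm hw) i) j
      simp only [pd] at h
      simp only [h]
      exact mul_eq_zero_of_right _ (hH y (hball hy) i j)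
    exact hzero ▸ hdiff.hasFDerivAt
  filter_upwards [Metric.ball_mem_nhds x hε] with y hy
  ext z
  rw [clm_apply_eq_sum, clm_apply_eq_sum (fderiv ℝ v x)]
  refine Finset.sum_congr rfl fun i _ => congrArg _ ?_
  exact (convex_ball x ε).is_const_of_fderivWithin_eq_zero (𝕜 := ℝ) (f := pd i v)
    (fun w hw => (hd i w hw).differentiableAt.differentiableWithinAt)
    (fun w hw => by rw [fderivWithin_of_isOpen Metric.isOpen_ball hw, (hd i w hw).fderiv])
    hy (Metric.mem_ball_self hε)

include hu hW hsub hv hvu hH in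
/-- The half space of the gradient at a positive point lies in the positivity set. -/
lemma halfspace_spec {x₀ : Euc d} (hx₀ : x₀ ∈ posSet u) {y : Euc d}
    (hy : 0 < fderiv ℝ v x₀ y) :
    y ∈ posSet u ∧ fderiv ℝ v y = fderiv ℝ v x₀ ∧ u y = fderiv ℝ v x₀ y := by
  set L := fderiv ℝ v x₀ with hL
  set H : Set (Euc d) := {z | 0 < L z} with hHdef
  set C : Set (Euc d) := {z | z ∈ posSet u ∧ fderiv ℝ v z = L} with hC
  have hCu : ∀ z ∈ C, u z = L z := fun z hz => by
    rw [← hz.2, fderiv_self hu hsub hv hvu hz.1]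
  have hHc : IsPreconnected H := (convex_halfSpace_gt L.isLinear 0).isPreconnected
  have hsubC : H ⊆ C := by
    refine hHc.subset_of_closure_inter_subset (isOpen_iff_mem_nhds.2 fun z hz => ?_)
      ⟨x₀, ?_, hx₀, rfl⟩ fun z hz => ?_
    · filter_upwards [(isOpen_posSet hu).mem_nhds hz.1,
        eventually_fderiv_eq hu hW hsub hv hvu hH hz.1] with w hw1 hw2
      exact ⟨hw1, hw2.trans hz.2⟩
    · show 0 < L x₀
      rw [← hCu x₀ ⟨hx₀, rfl⟩]
      exact hx₀
    · have huz : u z = L z := closure_minimal (fun w hw => hCu w hw)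
        (isClosed_eq hu.continuous L.continuous) hz.1
      have hzp : z ∈ posSet u := by
        show 0 < u z
        rw [huz]
        exact hz.2
      obtain ⟨w, hw1, hw2⟩ := mem_closure_iff_nhds.1 hz.1 _
        (eventually_fderiv_eq hu hW hsub hv hvu hH hzp)
      exact ⟨hzp, hw1.symm.trans hw2.2⟩
  have h := hsubC hy
  exact ⟨h.1, h.2, hCu y h⟩

omit hu hW hsub hv hvu hH in
/-- Flatness from a vanishing Hessian. -/
theorem flat_of_hessian_zero (hd : 2 ≤ d) (hu : IsSmoothCone u)
    (hH : ∀ x ∈ posSet u, ∀ i j, pd j (pd i u) x = 0) :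
    (∀ x, u x = 0) ∨ ∃ e : Euc d, ‖e‖ = 1 ∧ ∀ x, u x = max ⟪e, x⟫ 0 := by
  obtain ⟨W, v, hW, hsub, hv, hvu, hbd⟩ := hu.smooth
  by_cases hne : ∀ x, u x = 0
  · exact Or.inl hne
  obtain ⟨x₀, hx₀⟩ : ∃ x, x ∈ posSet u := by
    obtain ⟨x, hx⟩ := not_forall.1 hne
    exact ⟨x, (hu.nonneg x).lt_of_ne (Ne.symm hx)⟩
  set L := fderiv ℝ v x₀ with hL
  have hspec := fun y (hy : 0 < L y) => halfspace_spec hu hW hsub hv hvu hH hx₀ hy
  have hL0 : 0 < L x₀ := by
    rw [hL, fderiv_self hu hsub hv hvu hx₀]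
    exact hx₀
  -- a nonzero point of the hyperplane
  obtain ⟨y₀, hy₀L, hy₀⟩ : ∃ y : Euc d, L y = 0 ∧ y ≠ 0 := by
    by_contra! h
    have hinj : Function.Injective L := (injective_iff_map_eq_zero L).2 h
    have := LinearMap.finrank_le_finrank_of_injective (f := L.toLinearMap) hinj
    rw [finrank_euclideanSpace_fin, Module.finrank_self] at this
    omega
  have key : ∀ y : Euc d, L y = 0 → u y = 0 ∧ (y ≠ 0 → y ∈ closure (posSet u) ∧
      fderiv ℝ v y = L) := by
    intro y hy
    have hT : Tendsto (fun s : ℝ => y + s • x₀) (𝓝[>] 0) (𝓝 y) := by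
      have : Continuous fun s : ℝ => y + s • x₀ := continuous_const.add (continuous_id.smul continuous_const)
      simpa using (this.tendsto 0).mono_left nhdsWithin_le_nhds
    have hev : ∀ᶠ s : ℝ in 𝓝[>] 0, 0 < L (y + s • x₀) := by
      filter_upwards [self_mem_nhdsWithin] with s hs
      simpa [hy] using mul_pos (Set.mem_Ioi.1 hs) hL0
    have h1 : u y = 0 := by
      refine tendsto_nhds_unique ((hu.continuous.tendsto y).comp hT) ?_
      have h0 := (L.continuous.tendsto y).comp hT
      rw [hy] at h0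
      refine h0.congr' ?_
      filter_upwards [hev] with s hs
      exact (hspec _ hs).2.2.symm
    refine ⟨h1, fun hy0 => ?_⟩
    have hcl : y ∈ closure (posSet u) :=
      mem_closure_of_tendsto hT (hev.mono fun s hs => (hspec _ hs).1)
    refine ⟨hcl, ?_⟩
    have hcont : ContinuousAt (fderiv ℝ v) y :=
      (hv.contDiffAt (hW.mem_nhds (hsub ⟨hcl, hy0⟩))).continuousAt_fderiv (by simp)
    exact tendsto_nhds_unique (hcont.tendsto.comp hT)
      (tendsto_const_nhds.congr' (hev.mono fun s hs => (hspec _ hs).2.1.symm))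
  have hnorm : ‖L‖ = 1 := by
    obtain ⟨hcl, hf⟩ := (key y₀ hy₀L).2 hy₀
    rw [← hf]
    refine hbd y₀ ⟨hcl, fun hi => ?_⟩ hy₀
    have : 0 < u y₀ := interior_subset (s := posSet u) hi
    rw [(key y₀ hy₀L).1] at this
    exact lt_irrefl _ this
  have hout : ∀ y, L y ≤ 0 → u y = 0 := by
    intro y hy
    by_contra hne0
    have hyp : y ∈ posSet u := (hu.nonneg y).lt_of_ne (Ne.symm hne0)
    set L' := fderiv ℝ v y with hL'
    have hL'y : 0 < L' y := by
      rw [hL', fderiv_self hu hsub hv hvu hyp]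
      exact hyp
    have hspec' := fun z (hz : 0 < L' z) => halfspace_spec hu hW hsub hv hvu hH hyp hz
    have hne' : L' ≠ L := fun h => by rw [h] at hL'y; linarith
    have hdisj : ∀ z, 0 < L z → L' z ≤ 0 := fun z hz => le_of_not_gt fun hz' =>
      hne' ((hspec' z hz').2.1.symm.trans (hspec z hz).2.1)
    have hker : ∀ z, L z = 0 → L' z = 0 := by
      have hle : ∀ z, L z = 0 → L' z ≤ 0 := fun z hz => by
        have hT : Tendsto (fun s : ℝ => L' (z + s • x₀)) (𝓝[>] 0) (𝓝 (L' z)) := by
          have : Continuous fun s : ℝ => L' (z + s • x₀) :=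
            L'.continuous.comp (continuous_const.add (continuous_id.smul continuous_const))
          simpa using (this.tendsto 0).mono_left nhdsWithin_le_nhds
        refine le_of_tendsto hT ?_
        filter_upwards [self_mem_nhdsWithin] with s hs
        exact hdisj _ (by simpa [hz] using mul_pos (Set.mem_Ioi.1 hs) hL0)
      intro z hz
      refine le_antisymm (hle z hz) ?_
      have := hle (-z) (by simp [hz])
      simpa using this
    have hpos : ∀ᶠ s : ℝ in 𝓝[>] 0, 0 < L' (y₀ + s • y) := by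
      filter_upwards [self_mem_nhdsWithin] with s hs
      simpa [hker y₀ hy₀L] using mul_pos (Set.mem_Ioi.1 hs) hL'y
    have hT : Tendsto (fun s : ℝ => y₀ + s • y) (𝓝[>] 0) (𝓝 y₀) := by
      have : Continuous fun s : ℝ => y₀ + s • y := continuous_const.add (continuous_id.smul continuous_const)
      simpa using (this.tendsto 0).mono_left nhdsWithin_le_nhds
    obtain ⟨hcl, hf⟩ := (key y₀ hy₀L).2 hy₀
    have hcont : ContinuousAt (fderiv ℝ v) y₀ :=
      (hv.contDiffAt (hW.mem_nhds (hsub ⟨hcl, hy₀⟩))).continuousAt_fderiv (by simp)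
    refine hne' ?_
    rw [← hf]
    exact (tendsto_nhds_unique (hcont.tendsto.comp hT)
      (tendsto_const_nhds.congr' (hpos.mono fun s hs => (hspec' _ hs).2.1.symm))).symm
  refine Or.inr ⟨(InnerProductSpace.toDual ℝ (Euc d)).symm L,
    by rw [LinearIsometryEquiv.norm_map, hnorm], fun x => ?_⟩
  rw [InnerProductSpace.toDual_symm_apply]
  rcases lt_or_ge 0 (L x) with h | h
  · rw [max_eq_left h.le, (hspec x h).2.2]
  · rw [max_eq_right h, hout x h]

end Vale.Agent.P098
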