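import Vale.Agent.P098.Identity

/-!
P098: the flux field vanishes in the normal direction on the free boundary, for the
variation `X = φ ∇v / |∇v|²`.
-/

open Filter
open scoped Topology ContDiff

namespace Vale.Agent.P098

variable {d : ℕ} {v : Euc d → ℝ} {X : Fin d → Euc d → ℝ} {x : Euc d}

/-- `|∇v|²`. -/
noncomputable def gradSq (v : Euc d → ℝ) (y : Euc d) : ℝ := ∑ i, pd i v y * pd i v y

lemma norm_fderiv_sq (v : Euc d → ℝ) (x : Euc d) : ‖fderiv ℝ v x‖ ^ 2 = gradSq v x := by
  rw [← (InnerProductSpace.toDual ℝ (Euc d)).symm.norm_map, EuclideanSpace.norm_sq_eq]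
  refine Finset.sum_congr rfl fun i _ => ?_
  rw [Real.norm_eq_abs, sq_abs, sq]
  congr 1 <;>
  · rw [pd, ← InnerProductSpace.toDual_symm_apply, PiLp.inner_apply]
    simp

lemma fluxField_eq_zero (h : ∀ i, X i =ᶠ[𝓝 x] fun _ => 0) (k : Fin d) :
    fluxField v X k x = 0 := by
  have h0 : ∀ i, X i x = 0 := fun i => (h i).eq_of_nhds
  have h1 : ∀ i j, pd j (X i) x = 0 := fun i j => pd_eq_zero_of_eventually (h i) j
  simp [fluxField, quadG, hessGX, accel, divX, dirX, normalPart, h0, h1]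

lemma contDiffAt_fluxField (hv : ContDiffAt ℝ 3 v x) (hX : ∀ i, ContDiffAt ℝ 2 (X i) x)
    (k : Fin d) : ContDiffAt ℝ 1 (fluxField v X k) x := by
  have g : ∀ i, ContDiffAt ℝ 1 (pd i v) x := fun i => contDiffAt_pd hv (by norm_num) i
  have h : ∀ i j, ContDiffAt ℝ 1 (pd j (pd i v)) x := fun i j =>
    contDiffAt_pd (contDiffAt_pd hv (m := 2) (by norm_num) i) (by norm_num) j
  have y : ∀ i, ContDiffAt ℝ 1 (X i) x := fun i => (hX i).of_le (by norm_num)
  have b : ∀ i j, ContDiffAt ℝ 1 (pd j (X i)) x := fun i j =>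
    contDiffAt_pd (hX i) (by norm_num) j
  have hg : ∀ l, ContDiffAt ℝ 1 (hessGrad v l) x := fun l =>
    ContDiffAt.sum fun i _ => (g i).mul (h i l)
  have n : ContDiffAt ℝ 1 (normalPart v X) x := ContDiffAt.sum fun i _ => (y i).mul (g i)
  have q : ContDiffAt ℝ 1 (quadG v X) x := ContDiffAt.sum fun i _ => ContDiffAt.sum fun j _ =>
    ((g i).mul (b i j)).mul (g j)
  have q2 : ContDiffAt ℝ 1 (hessGX v X) x := ContDiffAt.sum fun i _ => (hg i).mul (y i)
  have e : ContDiffAt ℝ 1 (halfEnergy v) x :=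
    ((ContDiffAt.sum fun i _ => (g i).mul (g i)).add contDiffAt_const).mul contDiffAt_const
  have t : ContDiffAt ℝ 1 (fun z => divX X z * X k z - dirX X k z) x :=
    ((ContDiffAt.sum fun i _ => b i i).mul (y k)).sub
      (ContDiffAt.sum fun j _ => (b k j).mul (y j))
  have a : ContDiffAt ℝ 1 (accel v X) x :=
    (contDiffAt_const.mul (ContDiffAt.sum fun i _ => ContDiffAt.sum fun j _ =>
      ((g i).mul (b i j)).mul (y j))).add
      (ContDiffAt.sum fun i _ => ContDiffAt.sum fun j _ => ((y i).mul (h i j)).mul (y j))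
  exact (((((contDiffAt_const.mul q).mul (y k)).sub (q2.mul (y k))).add (e.mul t)).add
    (a.mul (g k))).add ((n.mul n).mul (hg k))

/-- The flux field of a test variation is a test field. -/
lemma isTest_fluxField {W : Set (Euc d)} (hW : IsOpen W) (hv : ContDiffOn ℝ ∞ v W)
    (hX : ∀ i, IsTest W 2 (X i)) (k : Fin d) : IsTest W 1 (fluxField v X k) := by
  have hS : IsCompact (⋃ i, tsupport (X i)) :=
    isCompact_iUnion fun i => (hX i).hasCompactSupport.isCompact
  have hz : ∀ x, x ∉ (⋃ i, tsupport (X i)) → fluxField v X k =ᶠ[𝓝 x] fun _ => 0 := fun x hx => by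
    filter_upwards [hS.isClosed.isOpen_compl.mem_nhds hx] with y hy
    exact fluxField_eq_zero (fun i => notMem_tsupport_iff_eventuallyEq.1
      fun h => hy (Set.mem_iUnion.2 ⟨i, h⟩)) k
  have hsub : Function.support (fluxField v X k) ⊆ ⋃ i, tsupport (X i) := fun x hx =>
    by_contra fun h => hx ((hz x h).eq_of_nhds)
  refine ⟨contDiff_iff_contDiffAt.2 fun x => ?_,
    HasCompactSupport.of_support_subset_isCompact hS hsub,
    (closure_minimal hsub hS.isClosed).trans (Set.iUnion_subset fun i => (hX i).subset)⟩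
  by_cases hx : x ∈ W
  · exact contDiffAt_fluxField ((hv.contDiffAt (hW.mem_nhds hx)).of_le (WithTop.coe_le_coe.2 le_top))
      (fun i => (hX i).contDiff.contDiffAt) k
  · exact contDiffAt_const.congr_of_eventuallyEq (hz x fun h => by
      obtain ⟨i, hi⟩ := Set.mem_iUnion.1 h
      exact hx ((hX i).subset hi).1)

lemma flux_algebra (g p Y : Fin d → ℝ) (H B : Fin d → Fin d → ℝ) (φ : ℝ)
    (hN : ∑ i, g i * g i = 1) (hH : ∑ i, H i i = 0) (hY : ∀ i, Y i = φ * g i)
    (hB : ∀ i j, B i j = p j * g i + φ * H i j - g i * (2 * φ * ∑ l, g l * H l j)) :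
    ∑ k, (-2 * (∑ i, ∑ j, g i * B i j * g j) * Y k
        - (∑ i, (∑ l, g l * H l i) * Y i) * Y k
        + (∑ i, g i * g i + 1) * (1 / 2) * ((∑ i, B i i) * Y k - ∑ j, B k j * Y j)
        + (2 * (∑ i, ∑ j, g i * B i j * Y j) + ∑ i, ∑ j, Y i * H i j * Y j) * g k
        + (∑ i, Y i * g i) * (∑ i, Y i * g i) * (∑ l, g l * H l k)) * g k = 0 := by
  set q : Fin d → ℝ := fun j => ∑ l, g l * H l j with hq
  set s : ℝ := ∑ j, q j * g j with hs
  set P : ℝ := ∑ j, p j * g j with hP
  have hYg : ∑ i, Y i * g i = φ := by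
    simp only [hY, mul_assoc, ← Finset.mul_sum, hN, mul_one]
  have hcol : ∀ j, ∑ i, g i * B i j = p j - φ * q j := fun j => by
    have e : ∀ i, g i * B i j
        = g i * g i * p j + φ * (g i * H i j) - g i * g i * (2 * φ * q j) := fun i => by
      rw [hB i j]; ring
    simp only [e, Finset.sum_add_distrib, Finset.sum_sub_distrib, ← Finset.sum_mul, hN,
      ← Finset.mul_sum, one_mul]
    show p j + φ * q j - 2 * φ * q j = _
    ring
  have ha : ∑ i, ∑ j, g i * B i j * g j = P - φ * s := by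
    rw [Finset.sum_comm]
    simp only [← Finset.sum_mul, hcol, hP, hs, Finset.mul_sum, ← Finset.sum_sub_distrib]
    exact Finset.sum_congr rfl fun j _ => by ring
  have haY : ∑ i, ∑ j, g i * B i j * Y j = φ * (P - φ * s) := by
    rw [← ha, Finset.mul_sum]
    refine Finset.sum_congr rfl fun i _ => ?_
    rw [Finset.mul_sum]
    exact Finset.sum_congr rfl fun j _ => by rw [hY]; ring
  have hτ : ∑ i, B i i = P - 2 * φ * s := by
    have e : ∀ i, B i i = p i * g i + φ * H i i - 2 * φ * (q i * g i) := fun i => by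
      rw [hB i i]; simp only [hq]; ring
    simp only [e, Finset.sum_sub_distrib, Finset.sum_add_distrib, ← Finset.mul_sum, hH, mul_zero,
      add_zero]
    rfl
  have hb : ∑ i, (∑ l, g l * H l i) * Y i = φ * s := by
    rw [hs, Finset.mul_sum]
    exact Finset.sum_congr rfl fun i _ => by rw [hY]; ring
  have hYHY : ∑ i, ∑ j, Y i * H i j * Y j = φ * φ * s := by
    rw [hs, Finset.sum_comm, Finset.mul_sum]
    refine Finset.sum_congr rfl fun j _ => ?_
    rw [hq, Finset.sum_mul, Finset.mul_sum]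
    exact Finset.sum_congr rfl fun i _ => by rw [hY, hY]; ring
  have hdir : ∑ k, (∑ j, B k j * Y j) * g k = φ * (P - φ * s) := by
    rw [← haY]
    refine Finset.sum_congr rfl fun k _ => ?_
    rw [Finset.sum_mul]
    exact Finset.sum_congr rfl fun j _ => by ring
  have e : ∀ (k : Fin d) (c1 c2 c3 c4 c5 D : ℝ),
      (c1 * Y k - c2 * Y k + 1 * (c3 * Y k - D) + c4 * g k + c5 * q k) * g k
        = (c1 - c2 + c3) * (Y k * g k) - D * g k + c4 * (g k * g k) + c5 * (q k * g k) :=
    fun k c1 c2 c3 c4 c5 D => by ring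
  rw [ha, haY, hτ, hb, hYHY, hYg, hN, show ((1 : ℝ) + 1) * (1 / 2) = 1 by norm_num]
  simp only [show ∀ k, ∑ l, g l * H l k = q k from fun k => rfl, e, Finset.sum_add_distrib,
    Finset.sum_sub_distrib, ← Finset.mul_sum, hYg, hdir, hN, ← hs]
  ring

/-- On the free boundary the flux field is tangent, for `X = φ ∇v / |∇v|²`. -/
lemma flux_eq_zero {φ : Euc d → ℝ} (hv : ContDiffAt ℝ 3 v x) (hφ : ContDiffAt ℝ 1 φ x)
    (hX : ∀ i, X i =ᶠ[𝓝 x] fun y => φ y * pd i v y * (gradSq v y)⁻¹)
    (hN : gradSq v x = 1) (hH : ∑ i, pd i (pd i v) x = 0) :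
    ∑ k, fluxField v X k x * pd k v x = 0 := by
  have g : ∀ i, DifferentiableAt ℝ (pd i v) x := fun i =>
    (contDiffAt_pd hv (m := 2) (by norm_num) i).differentiableAt (by norm_num)
  have p : DifferentiableAt ℝ φ x := hφ.differentiableAt one_ne_zero
  have n : DifferentiableAt ℝ (gradSq v) x :=
    DifferentiableAt.fun_sum fun i _ => (g i).fun_mul (g i)
  have hne : gradSq v x ≠ 0 := by rw [hN]; norm_num
  have ninv : DifferentiableAt ℝ (fun y => (gradSq v y)⁻¹) x := n.inv hne
  have dn : ∀ j, pd j (gradSq v) x = 2 * ∑ l, pd l v x * pd j (pd l v) x := fun j => by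
    refine (pd_sum Finset.univ j fun i _ => (g i).fun_mul (g i)).trans ?_
    rw [Finset.mul_sum]
    exact Finset.sum_congr rfl fun i _ => by rw [pd_mul j (g i) (g i)]; ring
  have dinv : ∀ j, pd j (fun y => (gradSq v y)⁻¹) x = -pd j (gradSq v) x := fun j => by
    have h1 : (fun y => (gradSq v y)⁻¹ * gradSq v y) =ᶠ[𝓝 x] fun _ => 1 := by
      filter_upwards [n.continuousAt.eventually_ne hne] with y hy
      exact inv_mul_cancel₀ hy
    have h2 := pd_congr h1 j
    rw [pd_mul j ninv n, pd_const, hN] at h2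
    linarith
  have hY : ∀ i, X i x = φ x * pd i v x := fun i => by
    rw [(hX i).eq_of_nhds]
    simp [hN]
  have hB : ∀ i j, pd j (X i) x = pd j φ x * pd i v x + φ x * pd j (pd i v) x
      - pd i v x * (2 * φ x * ∑ l, pd l v x * pd j (pd l v) x) := fun i j => by
    rw [pd_congr (hX i) j, pd_mul j (p.fun_mul (g i)) ninv, pd_mul j p (g i), dinv j, dn j, hN]
    ring
  exact flux_algebra (fun i => pd i v x) (fun j => pd j φ x) (fun i => X i x)
    (fun i j => pd j (pd i v) x) (fun i j => pd j (X i) x) (φ x) hN hH hY hB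

end Vale.Agent.P098
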