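import Vale.Agent.P098.Divergence
import Vale.Agent.P098.Expansion

/-!
P098: the pointwise identity relating the second inner variation to the stability integrand.
-/

open MeasureTheory Filter Matrix
open scoped Topology ContDiff

namespace Vale.Agent.P098

variable {d : ℕ}

lemma pd_sum {ι : Type*} (s : Finset ι) {f : ι → Euc d → ℝ} {x : Euc d} (k : Fin d)
    (hf : ∀ i ∈ s, DifferentiableAt ℝ (f i) x) :
    pd k (fun y => ∑ i ∈ s, f i y) x = ∑ i ∈ s, pd k (f i) x := by
  simp [pd, fderiv_fun_sum hf]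

lemma pd_add {f g : Euc d → ℝ} {x : Euc d} (k : Fin d) (hf : DifferentiableAt ℝ f x)
    (hg : DifferentiableAt ℝ g x) : pd k (fun y => f y + g y) x = pd k f x + pd k g x := by
  simp [pd, fderiv_fun_add hf hg]

lemma pd_sub {f g : Euc d → ℝ} {x : Euc d} (k : Fin d) (hf : DifferentiableAt ℝ f x)
    (hg : DifferentiableAt ℝ g x) : pd k (fun y => f y - g y) x = pd k f x - pd k g x := by
  simp [pd, fderiv_fun_sub hf hg]

lemma pd_const (c : ℝ) (x : Euc d) (k : Fin d) : pd k (fun _ => c) x = 0 := by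
  simp [pd]

lemma contDiffAt_pd {f : Euc d → ℝ} {x : Euc d} {m n : WithTop ℕ∞} (hf : ContDiffAt ℝ n f x)
    (hmn : m + 1 ≤ n) (i : Fin d) : ContDiffAt ℝ m (pd i f) x :=
  ((hf.fderiv_right hmn).clm_apply contDiffAt_const)

lemma pd_comm {f : Euc d → ℝ} {x : Euc d} (hf : ContDiffAt ℝ 2 f x) (i j : Fin d) :
    pd i (pd j f) x = pd j (pd i f) x := by
  have hd : DifferentiableAt ℝ (fderiv ℝ f) x :=
    (hf.fderiv_right (m := 1) le_rfl).differentiableAt one_ne_zero
  have h : ∀ k l : Fin d, pd k (pd l f) x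
      = fderiv ℝ (fderiv ℝ f) x (EuclideanSpace.single k 1) (EuclideanSpace.single l 1) := by
    intro k l
    have e : pd l f = fun y => fderiv ℝ f y (EuclideanSpace.single l 1) := rfl
    rw [e, pd, fderiv_clm_apply hd (differentiableAt_const _)]
    simp
  rw [h, h]
  exact (hf.isSymmSndFDerivAt (by simp)).eq _ _

/-- The stability integrand `|∇φ|² - φ²|D²u|² - 2 φ D²u(∇u, ∇φ)`. -/
noncomputable def stabDensity (u φ : Euc d → ℝ) (x : Euc d) : ℝ :=
  ∑ i, pd i φ x ^ 2 - φ x ^ 2 * ∑ i, ∑ j, pd j (pd i u) x ^ 2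
    - 2 * φ x * ∑ i, ∑ j, pd i u x * pd j (pd i u) x * pd j φ x

/-- The Jacobian matrix of a field. -/
noncomputable def jac (X : Fin d → Euc d → ℝ) (x : Euc d) : Matrix (Fin d) (Fin d) ℝ :=
  Matrix.of fun i j => pd j (X i) x

/-- The gradient as a vector. -/
noncomputable def gradVec (f : Euc d → ℝ) (x : Euc d) : Fin d → ℝ := fun i => pd i f x

/-- `D²u(∇u, ·)`. -/
noncomputable def hessGrad (u : Euc d → ℝ) (k : Fin d) (x : Euc d) : ℝ :=
  ∑ i, pd i u x * pd k (pd i u) x

/-- `∇u · DX ∇u`. -/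
noncomputable def quadG (u : Euc d → ℝ) (X : Fin d → Euc d → ℝ) (y : Euc d) : ℝ :=
  ∑ i, ∑ j, pd i u y * pd j (X i) y * pd j u y

/-- `D²u(∇u, X)`. -/
noncomputable def hessGX (u : Euc d → ℝ) (X : Fin d → Euc d → ℝ) (y : Euc d) : ℝ :=
  ∑ i, hessGrad u i y * X i y

/-- `2 ∇u · DX X + D²u(X, X)`. -/
noncomputable def accel (u : Euc d → ℝ) (X : Fin d → Euc d → ℝ) (y : Euc d) : ℝ :=
  2 * (∑ i, ∑ j, pd i u y * pd j (X i) y * X j y)
    + ∑ i, ∑ j, X i y * pd j (pd i u) y * X j y

/-- `(|∇u|² + 1) / 2`. -/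
noncomputable def halfEnergy (u : Euc d → ℝ) (y : Euc d) : ℝ :=
  (∑ i, pd i u y * pd i u y + 1) * (1 / 2)

/-- The divergence of `X`. -/
noncomputable def divX (X : Fin d → Euc d → ℝ) (y : Euc d) : ℝ :=
  ∑ i, pd i (X i) y

/-- `DX X`. -/
noncomputable def dirX (X : Fin d → Euc d → ℝ) (k : Fin d) (y : Euc d) : ℝ :=
  ∑ j, pd j (X k) y * X j y

/-- `X · ∇u`. -/
noncomputable def normalPart (u : Euc d → ℝ) (X : Fin d → Euc d → ℝ) (y : Euc d) : ℝ :=
  ∑ i, X i y * pd i u y

/-- The field whose divergence is the difference of the two second variations. -/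
noncomputable def fluxField (u : Euc d → ℝ) (X : Fin d → Euc d → ℝ) (k : Fin d) (x : Euc d) : ℝ :=
  -2 * quadG u X x * X k x - hessGX u X x * X k x
    + halfEnergy u x * (divX X x * X k x - dirX X k x)
    + accel u X x * pd k u x
    + normalPart u X x * normalPart u X x * hessGrad u k x

lemma sum3_rotate (f : Fin d → Fin d → Fin d → ℝ) :
    ∑ k, ∑ i, ∑ j, f i j k = ∑ i, ∑ j, ∑ k, f i j k := by
  rw [Finset.sum_comm]
  exact Finset.sum_congr rfl fun i _ => Finset.sum_comm

lemma dot_expansions (g : Fin d → ℝ) (B : Matrix (Fin d) (Fin d) ℝ) :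
    trace B = ∑ i, B i i ∧ trace (B * B) = ∑ i, ∑ j, B i j * B j i ∧
      g ⬝ᵥ (g ᵥ* B) = ∑ i, ∑ j, g i * B i j * g j ∧
      g ⬝ᵥ (g ᵥ* (B * B)) = ∑ i, ∑ j, ∑ k, g i * B i j * B j k * g k ∧
      (g ᵥ* B) ⬝ᵥ (g ᵥ* B) = ∑ j, (∑ i, g i * B i j) * (∑ i, g i * B i j) := by
  refine ⟨rfl, ?_, ?_, ?_, rfl⟩
  · simp [trace, Matrix.mul_apply]
  · simp only [dotProduct, vecMul, Finset.mul_sum]
    rw [Finset.sum_comm]
    exact Finset.sum_congr rfl fun i _ => Finset.sum_congr rfl fun j _ => by ring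
  · simp only [dotProduct, vecMul, Matrix.mul_apply, Finset.mul_sum]
    rw [Finset.sum_comm]
    refine Finset.sum_congr rfl fun i _ => ?_
    rw [Finset.sum_comm]
    exact Finset.sum_congr rfl fun j _ => Finset.sum_congr rfl fun k _ => by ring

section Derivatives

variable {u : Euc d → ℝ} {X : Fin d → Euc d → ℝ} {x : Euc d}

/-- The differentiability used below. -/
structure Reg (u : Euc d → ℝ) (X : Fin d → Euc d → ℝ) (x : Euc d) : Prop where
  g : ∀ i, DifferentiableAt ℝ (pd i u) x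
  h : ∀ i j, DifferentiableAt ℝ (pd j (pd i u)) x
  y : ∀ i, DifferentiableAt ℝ (X i) x
  b : ∀ i j, DifferentiableAt ℝ (pd j (X i)) x

lemma Reg.quadG (r : Reg u X x) : DifferentiableAt ℝ (Vale.Agent.P098.quadG u X) x :=
  DifferentiableAt.fun_sum fun i _ => DifferentiableAt.fun_sum fun j _ =>
    ((r.g i).fun_mul (r.b i j)).fun_mul (r.g j)

lemma Reg.hessGrad (r : Reg u X x) (k : Fin d) :
    DifferentiableAt ℝ (Vale.Agent.P098.hessGrad u k) x :=
  DifferentiableAt.fun_sum fun i _ => (r.g i).fun_mul (r.h i k)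

lemma Reg.hessGX (r : Reg u X x) : DifferentiableAt ℝ (Vale.Agent.P098.hessGX u X) x :=
  DifferentiableAt.fun_sum fun i _ => (r.hessGrad i).fun_mul (r.y i)

lemma Reg.accel (r : Reg u X x) : DifferentiableAt ℝ (Vale.Agent.P098.accel u X) x :=
  ((differentiableAt_const _).fun_mul (DifferentiableAt.fun_sum fun i _ =>
    DifferentiableAt.fun_sum fun j _ => ((r.g i).fun_mul (r.b i j)).fun_mul (r.y j))).fun_add
    (DifferentiableAt.fun_sum fun i _ => DifferentiableAt.fun_sum fun j _ =>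
      ((r.y i).fun_mul (r.h i j)).fun_mul (r.y j))

lemma Reg.halfEnergy (r : Reg u X x) : DifferentiableAt ℝ (Vale.Agent.P098.halfEnergy u) x :=
  ((DifferentiableAt.fun_sum fun i _ => (r.g i).fun_mul (r.g i)).fun_add
    (differentiableAt_const _)).fun_mul (differentiableAt_const _)

lemma Reg.divX (r : Reg u X x) : DifferentiableAt ℝ (Vale.Agent.P098.divX X) x :=
  DifferentiableAt.fun_sum fun i _ => r.b i i

lemma Reg.dirX (r : Reg u X x) (k : Fin d) : DifferentiableAt ℝ (Vale.Agent.P098.dirX X k) x :=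
  DifferentiableAt.fun_sum fun j _ => (r.b k j).fun_mul (r.y j)

lemma Reg.normalPart (r : Reg u X x) : DifferentiableAt ℝ (Vale.Agent.P098.normalPart u X) x :=
  DifferentiableAt.fun_sum fun i _ => (r.y i).fun_mul (r.g i)

lemma pd_quadG (r : Reg u X x) (k : Fin d) :
    pd k (quadG u X) x = ∑ i, ∑ j,
      (pd k (pd i u) x * pd j (X i) x * pd j u x + pd i u x * pd k (pd j (X i)) x * pd j u x
        + pd i u x * pd j (X i) x * pd k (pd j u) x) := by
  refine (pd_sum Finset.univ k fun i _ => DifferentiableAt.fun_sum fun j _ =>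
    ((r.g i).fun_mul (r.b i j)).fun_mul (r.g j)).trans (Finset.sum_congr rfl fun i _ => ?_)
  refine (pd_sum Finset.univ k fun j _ =>
    ((r.g i).fun_mul (r.b i j)).fun_mul (r.g j)).trans (Finset.sum_congr rfl fun j _ => ?_)
  rw [pd_mul k ((r.g i).fun_mul (r.b i j)) (r.g j), pd_mul k (r.g i) (r.b i j)]
  ring

lemma pd_hessGrad (r : Reg u X x) (k l : Fin d) :
    pd l (hessGrad u k) x = ∑ i,
      (pd l (pd i u) x * pd k (pd i u) x + pd i u x * pd l (pd k (pd i u)) x) :=
  (pd_sum Finset.univ l fun i _ => (r.g i).fun_mul (r.h i k)).trans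
    (Finset.sum_congr rfl fun i _ => pd_mul l (r.g i) (r.h i k))

lemma pd_hessGX (r : Reg u X x) (k : Fin d) :
    pd k (hessGX u X) x = ∑ j,
      ((∑ i, (pd k (pd i u) x * pd j (pd i u) x + pd i u x * pd k (pd j (pd i u)) x)) * X j x
        + hessGrad u j x * pd k (X j) x) := by
  refine (pd_sum Finset.univ k fun j _ => (r.hessGrad j).fun_mul (r.y j)).trans
    (Finset.sum_congr rfl fun j _ => ?_)
  rw [pd_mul k (r.hessGrad j) (r.y j), pd_hessGrad r j k]

lemma pd_accel (r : Reg u X x) (k : Fin d) :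
    pd k (accel u X) x =
      2 * (∑ i, ∑ j, (pd k (pd i u) x * pd j (X i) x * X j x
          + pd i u x * pd k (pd j (X i)) x * X j x + pd i u x * pd j (X i) x * pd k (X j) x))
        + ∑ i, ∑ j, (pd k (X i) x * pd j (pd i u) x * X j x
          + X i x * pd k (pd j (pd i u)) x * X j x + X i x * pd j (pd i u) x * pd k (X j) x) := by
  have dA : DifferentiableAt ℝ (fun y => ∑ i, ∑ j, pd i u y * pd j (X i) y * X j y) x :=
    DifferentiableAt.fun_sum fun i _ => DifferentiableAt.fun_sum fun j _ =>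
      ((r.g i).fun_mul (r.b i j)).fun_mul (r.y j)
  have dK : DifferentiableAt ℝ (fun y => ∑ i, ∑ j, X i y * pd j (pd i u) y * X j y) x :=
    DifferentiableAt.fun_sum fun i _ => DifferentiableAt.fun_sum fun j _ =>
      ((r.y i).fun_mul (r.h i j)).fun_mul (r.y j)
  refine (pd_add k ((differentiableAt_const _).fun_mul dA) dK).trans ?_
  rw [pd_mul k (differentiableAt_const _) dA, pd_const, zero_mul, zero_add]
  congr 1
  · congr 1
    rw [pd_sum _ _ fun i _ => DifferentiableAt.fun_sum fun j _ =>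
      ((r.g i).fun_mul (r.b i j)).fun_mul (r.y j)]
    refine Finset.sum_congr rfl fun i _ => ?_
    rw [pd_sum _ _ fun j _ => ((r.g i).fun_mul (r.b i j)).fun_mul (r.y j)]
    refine Finset.sum_congr rfl fun j _ => ?_
    rw [pd_mul k ((r.g i).fun_mul (r.b i j)) (r.y j), pd_mul k (r.g i) (r.b i j)]
    ring
  · rw [pd_sum _ _ fun i _ => DifferentiableAt.fun_sum fun j _ =>
      ((r.y i).fun_mul (r.h i j)).fun_mul (r.y j)]
    refine Finset.sum_congr rfl fun i _ => ?_
    rw [pd_sum _ _ fun j _ => ((r.y i).fun_mul (r.h i j)).fun_mul (r.y j)]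
    refine Finset.sum_congr rfl fun j _ => ?_
    rw [pd_mul k ((r.y i).fun_mul (r.h i j)) (r.y j), pd_mul k (r.y i) (r.h i j)]
    ring

lemma pd_halfEnergy (r : Reg u X x) (k : Fin d) :
    pd k (halfEnergy u) x = ∑ i, pd i u x * pd k (pd i u) x := by
  have dN : DifferentiableAt ℝ (fun y => ∑ i, pd i u y * pd i u y) x :=
    DifferentiableAt.fun_sum fun i _ => (r.g i).fun_mul (r.g i)
  refine (pd_mul k (dN.fun_add (differentiableAt_const _)) (differentiableAt_const _)).trans ?_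
  rw [pd_add k dN (differentiableAt_const _), pd_const, pd_const, mul_zero, add_zero, add_zero,
    pd_sum _ _ fun i _ => (r.g i).fun_mul (r.g i), Finset.sum_mul]
  refine Finset.sum_congr rfl fun i _ => ?_
  rw [pd_mul k (r.g i) (r.g i)]
  ring

lemma pd_divX (r : Reg u X x) (k : Fin d) :
    pd k (divX X) x = ∑ i, pd k (pd i (X i)) x :=
  pd_sum Finset.univ k fun i _ => r.b i i

lemma pd_dirX (r : Reg u X x) (k : Fin d) :
    pd k (dirX X k) x = ∑ j, (pd k (pd j (X k)) x * X j x + pd j (X k) x * pd k (X j) x) :=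
  (pd_sum Finset.univ k fun j _ => (r.b k j).fun_mul (r.y j)).trans
    (Finset.sum_congr rfl fun j _ => pd_mul k (r.b k j) (r.y j))

lemma pd_normalPart (r : Reg u X x) (k : Fin d) :
    pd k (normalPart u X) x = ∑ i, (pd k (X i) x * pd i u x + X i x * pd k (pd i u) x) :=
  (pd_sum Finset.univ k fun i _ => (r.y i).fun_mul (r.g i)).trans
    (Finset.sum_congr rfl fun i _ => pd_mul k (r.y i) (r.g i))

lemma pd_fluxField (r : Reg u X x) (k : Fin d) :
    pd k (fluxField u X k) x =
      -2 * (pd k (quadG u X) x * X k x + quadG u X x * pd k (X k) x)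
      - (pd k (hessGX u X) x * X k x + hessGX u X x * pd k (X k) x)
      + (pd k (halfEnergy u) x * (divX X x * X k x - dirX X k x)
          + halfEnergy u x * (pd k (divX X) x * X k x + divX X x * pd k (X k) x
            - pd k (dirX X k) x))
      + (pd k (accel u X) x * pd k u x + accel u X x * pd k (pd k u) x)
      + (2 * normalPart u X x * pd k (normalPart u X) x * hessGrad u k x
          + normalPart u X x * normalPart u X x * pd k (hessGrad u k) x) := by
  have d1 := ((differentiableAt_const (-2 : ℝ)).fun_mul r.quadG).fun_mul (r.y k)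
  have d2 := r.hessGX.fun_mul (r.y k)
  have d3 := r.halfEnergy.fun_mul ((r.divX.fun_mul (r.y k)).fun_sub (r.dirX k))
  have d4 := r.accel.fun_mul (r.g k)
  have d5 := (r.normalPart.fun_mul r.normalPart).fun_mul (r.hessGrad k)
  refine (pd_add k (((d1.fun_sub d2).fun_add d3).fun_add d4) d5).trans ?_
  rw [pd_add k ((d1.fun_sub d2).fun_add d3) d4, pd_add k (d1.fun_sub d2) d3, pd_sub k d1 d2,
    pd_mul k ((differentiableAt_const (-2 : ℝ)).fun_mul r.quadG) (r.y k),
    pd_mul k (differentiableAt_const (-2 : ℝ)) r.quadG, pd_const, pd_mul k r.hessGX (r.y k),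
    pd_mul k r.halfEnergy ((r.divX.fun_mul (r.y k)).fun_sub (r.dirX k)),
    pd_sub k (r.divX.fun_mul (r.y k)) (r.dirX k), pd_mul k r.divX (r.y k),
    pd_mul k r.accel (r.g k), pd_mul k (r.normalPart.fun_mul r.normalPart) (r.hessGrad k),
    pd_mul k r.normalPart r.normalPart]
  ring

end Derivatives

section Algebra

variable (G Y : Fin d → ℝ) (B H : Fin d → Fin d → ℝ) (T C : Fin d → Fin d → Fin d → ℝ)

lemma alg_quadG :
    ∑ k, (∑ i, ∑ j, (H i k * B i j * G j + G i * C i j k * G j + G i * B i j * H j k)) * Y k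
      = (∑ i, ∑ j, ∑ k, H i k * B i j * G j * Y k) + (∑ i, ∑ j, ∑ k, G i * C i j k * G j * Y k)
        + ∑ i, ∑ j, ∑ k, G i * B i j * H j k * Y k := by
  simp only [Finset.sum_mul]
  rw [sum3_rotate (fun i j k =>
    (H i k * B i j * G j + G i * C i j k * G j + G i * B i j * H j k) * Y k)]
  simp only [add_mul, Finset.sum_add_distrib]

lemma alg_hessGX (Hs : ∀ i j, H i j = H j i) :
    ∑ k, (∑ j, ((∑ i, (H i k * H i j + G i * T i j k)) * Y j + (∑ i, G i * H i j) * B j k)) * Y k
      = (∑ j, (∑ i, Y i * H i j) * (∑ i, Y i * H i j))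
        + (∑ i, ∑ j, ∑ k, G i * T i j k * Y j * Y k)
        + ∑ i, ∑ j, ∑ k, G i * H i j * B j k * Y k := by
  have e3 : ∑ j, (∑ i, Y i * H i j) * (∑ i, Y i * H i j)
      = ∑ j, ∑ i, ∑ k, H i k * H i j * Y j * Y k := by
    simp only [Finset.sum_mul_sum]
    rw [sum3_rotate (fun j k i => Y j * H j i * (Y k * H k i))]
    refine Finset.sum_congr rfl fun j _ => ?_
    rw [Finset.sum_comm]
    refine Finset.sum_congr rfl fun i _ => Finset.sum_congr rfl fun k _ => ?_
    rw [Hs j i, Hs k i]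
    ring
  have e4 : ∑ i, ∑ j, ∑ k, G i * T i j k * Y j * Y k
      = ∑ j, ∑ i, ∑ k, G i * T i j k * Y j * Y k := Finset.sum_comm
  have e5 : ∑ i, ∑ j, ∑ k, G i * H i j * B j k * Y k
      = ∑ j, ∑ i, ∑ k, G i * H i j * B j k * Y k := Finset.sum_comm
  rw [e3, e4, e5]
  simp only [add_mul, Finset.sum_add_distrib, Finset.sum_mul]
  congr 1
  · congr 1
    · exact sum3_rotate (fun j i k => H i k * H i j * Y j * Y k)
    · exact sum3_rotate (fun j i k => G i * T i j k * Y j * Y k)
  · exact sum3_rotate (fun j i k => G i * H i j * B j k * Y k)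

lemma alg_halfEnergy (τ : ℝ) :
    ∑ k, (∑ i, G i * H i k) * (τ * Y k - ∑ j, B k j * Y j)
      = τ * (∑ k, (∑ i, G i * H i k) * Y k) - ∑ i, ∑ j, ∑ k, G i * H i j * B j k * Y k := by
  simp only [mul_sub, Finset.sum_sub_distrib]
  congr 1
  · rw [Finset.mul_sum]
    exact Finset.sum_congr rfl fun k _ => by ring
  · simp only [Finset.sum_mul_sum]
    rw [Finset.sum_comm]
    exact Finset.sum_congr rfl fun i _ => Finset.sum_congr rfl fun j _ =>
      Finset.sum_congr rfl fun k _ => by ring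

lemma alg_divX (Cs : ∀ i j k, C i j k = C i k j) (τ : ℝ) (hτ : ∑ i, B i i = τ) :
    ∑ k, ((∑ i, C i i k) * Y k + τ * B k k - ∑ j, (C k j k * Y j + B k j * B j k))
      = τ * τ - ∑ i, ∑ j, B i j * B j i := by
  have e : ∑ k, ∑ i, C i i k * Y k = ∑ k, ∑ j, C k j k * Y j := by
    rw [Finset.sum_comm]
    exact Finset.sum_congr rfl fun i _ => Finset.sum_congr rfl fun j _ => by rw [Cs i i j]
  simp only [Finset.sum_sub_distrib, Finset.sum_add_distrib, Finset.sum_mul, ← Finset.mul_sum]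
  rw [e, hτ]
  ring

lemma alg_accel (Hs : ∀ i j, H i j = H j i) (Cs : ∀ i j k, C i j k = C i k j)
    (Ts1 : ∀ i j k, T i j k = T i k j) (Ts2 : ∀ i j k, T i j k = T j i k) :
    ∑ k, (2 * (∑ i, ∑ j, (H i k * B i j * Y j + G i * C i j k * Y j + G i * B i j * B j k))
        + ∑ i, ∑ j, (B i k * H i j * Y j + Y i * T i j k * Y j + Y i * H i j * B j k)) * G k
      = 2 * ((∑ i, ∑ j, ∑ k, G i * H i j * B j k * Y k)
          + (∑ i, ∑ j, ∑ k, G i * C i j k * G j * Y k)
          + ∑ i, ∑ j, ∑ k, G i * B i j * B j k * G k)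
        + (2 * (∑ i, ∑ j, ∑ k, H i k * B i j * G j * Y k)
          + ∑ i, ∑ j, ∑ k, G i * T i j k * Y j * Y k) := by
  have a1 : ∑ i, ∑ j, ∑ k, H i k * B i j * Y j * G k
      = ∑ i, ∑ j, ∑ k, G i * H i j * B j k * Y k := by
    rw [← sum3_rotate (fun i j k => H i k * B i j * Y j * G k)]
    exact Finset.sum_congr rfl fun k _ => Finset.sum_congr rfl fun i _ =>
      Finset.sum_congr rfl fun j _ => by rw [Hs i k]; ring
  have a2 : ∑ i, ∑ j, ∑ k, G i * C i j k * Y j * G k
      = ∑ i, ∑ j, ∑ k, G i * C i j k * G j * Y k := by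
    refine Finset.sum_congr rfl fun i _ => ?_
    rw [Finset.sum_comm]
    exact Finset.sum_congr rfl fun j _ => Finset.sum_congr rfl fun k _ => by
      rw [Cs i k j]; ring
  have b1 : ∑ i, ∑ j, ∑ k, B i k * H i j * Y j * G k
      = ∑ i, ∑ j, ∑ k, H i k * B i j * G j * Y k := by
    refine Finset.sum_congr rfl fun i _ => ?_
    rw [Finset.sum_comm]
    exact Finset.sum_congr rfl fun j _ => Finset.sum_congr rfl fun k _ => by ring
  have b2 : ∑ i, ∑ j, ∑ k, Y i * T i j k * Y j * G k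
      = ∑ i, ∑ j, ∑ k, G i * T i j k * Y j * Y k := by
    rw [← sum3_rotate (fun i j k => Y i * T i j k * Y j * G k)]
    exact Finset.sum_congr rfl fun k _ => Finset.sum_congr rfl fun i _ =>
      Finset.sum_congr rfl fun j _ => by
        rw [Ts1 i j k, Ts2 i k j]
        ring
  have b3 : ∑ i, ∑ j, ∑ k, Y i * H i j * B j k * G k
      = ∑ i, ∑ j, ∑ k, H i k * B i j * G j * Y k := by
    rw [Finset.sum_comm]
    refine Finset.sum_congr rfl fun j _ => ?_
    rw [Finset.sum_comm]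
    exact Finset.sum_congr rfl fun i _ => Finset.sum_congr rfl fun k _ => by
      rw [Hs j k]; ring
  simp only [add_mul, mul_assoc (2 : ℝ), Finset.sum_add_distrib, ← Finset.mul_sum, Finset.sum_mul]
  congr 1
  · congr 1
    rw [sum3_rotate (fun i j k => H i k * B i j * Y j * G k),
      sum3_rotate (fun i j k => G i * C i j k * Y j * G k),
      sum3_rotate (fun i j k => G i * B i j * B j k * G k), a1, a2]
  · rw [sum3_rotate (fun i j k => B i k * H i j * Y j * G k),
      sum3_rotate (fun i j k => Y i * T i j k * Y j * G k),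
      sum3_rotate (fun i j k => Y i * H i j * B j k * G k), b1, b2, b3]
    ring

lemma alg_hessGrad (Ts1 : ∀ i j k, T i j k = T i k j) (Ts2 : ∀ i j k, T i j k = T j i k)
    (hT0 : ∀ k, ∑ i, T i i k = 0) :
    ∑ k, ∑ i, (H i k * H i k + G i * T i k k) = ∑ i, ∑ j, H i j ^ 2 := by
  have : ∀ i, ∑ k, T i k k = 0 := fun i => by
    rw [← hT0 i]
    exact Finset.sum_congr rfl fun k _ => by rw [Ts2 i k k, Ts1 k i k]
  rw [Finset.sum_comm]
  simp only [Finset.sum_add_distrib, ← Finset.mul_sum, this, mul_zero, Finset.sum_const_zero,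
    add_zero]
  exact Finset.sum_congr rfl fun i _ => Finset.sum_congr rfl fun k _ => by ring

lemma alg_stab (Hs : ∀ i j, H i j = H j i) :
    ∑ j, (∑ i, (B i j * G i + Y i * H i j)) ^ 2
      = ∑ j, (∑ i, G i * B i j) * (∑ i, G i * B i j)
        + 2 * (∑ i, ∑ j, ∑ k, G i * B i j * H j k * Y k)
        + ∑ j, (∑ i, Y i * H i j) * (∑ i, Y i * H i j) := by
  have e2 : ∑ i, ∑ j, ∑ k, G i * B i j * H j k * Y k
      = ∑ j, (∑ i, G i * B i j) * (∑ i, Y i * H i j) := by
    simp only [Finset.sum_mul_sum]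
    rw [Finset.sum_comm]
    refine Finset.sum_congr rfl fun j _ => Finset.sum_congr rfl fun i _ =>
      Finset.sum_congr rfl fun k _ => ?_
    rw [Hs j k]
    ring
  rw [e2, Finset.mul_sum, ← Finset.sum_add_distrib, ← Finset.sum_add_distrib]
  refine Finset.sum_congr rfl fun j _ => ?_
  have : ∑ i, (B i j * G i + Y i * H i j) = (∑ i, G i * B i j) + ∑ i, Y i * H i j := by
    rw [Finset.sum_add_distrib]
    congr 1
    exact Finset.sum_congr rfl fun i _ => mul_comm _ _
  rw [this]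
  ring

lemma alg_combine (a1 a2 a3 a4 a5 a6 a7 a8 b : Fin d → ℝ) (S1 S2 F S3 p : ℝ) :
    ∑ k, (-2 * (a1 k + S1 * b k) - (a2 k + S2 * b k) + (a3 k + F * a4 k) + (a5 k + S3 * a6 k)
        + (2 * p * a7 k + p * p * a8 k))
      = -2 * (∑ k, a1 k + S1 * ∑ k, b k) - (∑ k, a2 k + S2 * ∑ k, b k)
        + (∑ k, a3 k + F * ∑ k, a4 k) + (∑ k, a5 k + S3 * ∑ k, a6 k)
        + (2 * p * ∑ k, a7 k + p * p * ∑ k, a8 k) := by
  simp only [Finset.sum_add_distrib, Finset.sum_sub_distrib, ← Finset.mul_sum]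

end Algebra

/-- The identity `second = stability + divergence`. -/
theorem second_eq {u : Euc d → ℝ} {X : Fin d → Euc d → ℝ} {x : Euc d}
    (hu : ContDiffAt ℝ 3 u x) (hX : ∀ i, ContDiffAt ℝ 2 (X i) x)
    (hharm : (fun y => ∑ i, pd i (pd i u) y) =ᶠ[𝓝 x] fun _ => 0) :
    second (gradVec u x) (jac X x)
      = stabDensity u (normalPart u X) x + ∑ k, pd k (fluxField u X k) x := by
  have hu2 : ContDiffAt ℝ 2 u x := hu.of_le (by norm_num)
  have hu1 : ∀ i, ContDiffAt ℝ 2 (pd i u) x := fun i => contDiffAt_pd hu (by norm_num) i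
  have r : Reg u X x :=
    ⟨fun i => (hu1 i).differentiableAt (by norm_num),
      fun i j => (contDiffAt_pd (hu1 i) (m := 1) (by norm_num) j).differentiableAt one_ne_zero,
      fun i => (hX i).differentiableAt (by norm_num),
      fun i j => (contDiffAt_pd (hX i) (m := 1) (by norm_num) j).differentiableAt one_ne_zero⟩
  have Hs : ∀ i j, pd j (pd i u) x = pd i (pd j u) x := fun i j => pd_comm hu2 j i
  have Cs : ∀ i j k, pd k (pd j (X i)) x = pd j (pd k (X i)) x := fun i j k => pd_comm (hX i) k j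
  have Ts1 : ∀ i j k, pd k (pd j (pd i u)) x = pd j (pd k (pd i u)) x := fun i j k =>
    pd_comm (hu1 i) k j
  have Ts2 : ∀ i j k, pd k (pd j (pd i u)) x = pd k (pd i (pd j u)) x := fun i j k => by
    refine pd_congr ?_ k
    filter_upwards [hu2.eventually (by norm_num)] with y hy
    exact pd_comm hy j i
  have hT0 : ∀ k, ∑ i, pd k (pd i (pd i u)) x = 0 := fun k => by
    rw [← pd_sum Finset.univ k fun i _ => r.h i i]
    exact pd_eq_zero_of_eventually hharm k
  have hH0 : ∑ i, pd i (pd i u) x = 0 := hharm.eq_of_nhds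
  set G : Fin d → ℝ := fun i => pd i u x with hG
  set Y : Fin d → ℝ := fun i => X i x with hY
  set B : Fin d → Fin d → ℝ := fun i j => pd j (X i) x with hB
  set H : Fin d → Fin d → ℝ := fun i j => pd j (pd i u) x with hH
  set T : Fin d → Fin d → Fin d → ℝ := fun i j k => pd k (pd j (pd i u)) x with hT
  set C : Fin d → Fin d → Fin d → ℝ := fun i j k => pd k (pd j (X i)) x with hC
  have c1 : ∑ k, pd k (quadG u X) x * X k x = _ :=
    (Finset.sum_congr rfl fun k _ => by rw [pd_quadG r k]).trans (alg_quadG G Y B H C)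
  have c2 : ∑ k, pd k (hessGX u X) x * X k x = _ :=
    (Finset.sum_congr rfl fun k _ => by rw [pd_hessGX r k]; rfl).trans
      (alg_hessGX G Y B H T Hs)
  have c3 : ∑ k, pd k (halfEnergy u) x * (divX X x * X k x - dirX X k x) = _ :=
    (Finset.sum_congr rfl fun k _ => by rw [pd_halfEnergy r k]; rfl).trans
      (alg_halfEnergy G Y B H (divX X x))
  have c4 : ∑ k, (pd k (divX X) x * X k x + divX X x * pd k (X k) x - pd k (dirX X k) x) = _ :=
    (Finset.sum_congr rfl fun k _ => by rw [pd_divX r k, pd_dirX r k]).trans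
      (alg_divX Y B C Cs (divX X x) rfl)
  have c5 : ∑ k, pd k (accel u X) x * pd k u x = _ :=
    (Finset.sum_congr rfl fun k _ => by rw [pd_accel r k]).trans
      (alg_accel G Y B H T C Hs Cs Ts1 Ts2)
  have c6 : ∑ k, pd k (hessGrad u k) x = _ :=
    (Finset.sum_congr rfl fun k _ => pd_hessGrad r k k).trans (alg_hessGrad G H T Ts1 Ts2 hT0)
  have c7 : ∑ j, pd j (normalPart u X) x ^ 2 = _ :=
    (Finset.sum_congr rfl fun j _ => by rw [pd_normalPart r j]).trans (alg_stab G Y B H Hs)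
  have c8 : ∑ i, ∑ j, pd i u x * pd j (pd i u) x * pd j (normalPart u X) x
      = ∑ k, pd k (normalPart u X) x * hessGrad u k x := by
    rw [Finset.sum_comm]
    refine Finset.sum_congr rfl fun k _ => ?_
    rw [hessGrad, Finset.mul_sum]
    exact Finset.sum_congr rfl fun i _ => by ring
  have c9 : ∀ k, 2 * normalPart u X x * pd k (normalPart u X) x * hessGrad u k x
      = 2 * normalPart u X x * (pd k (normalPart u X) x * hessGrad u k x) := fun k => mul_assoc _ _ _
  have c10 : ∑ k, (∑ i, G i * H i k) * Y k = hessGX u X x := rfl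
  obtain ⟨t1, t2, t3, t4, t5⟩ := dot_expansions (gradVec u x) (jac X x)
  rw [second, t1, t2, t3, t4, t5, stabDensity,
    Finset.sum_congr rfl fun k _ => pd_fluxField r k]
  simp only [c9]
  rw [alg_combine, c1, c2, c3, c4, c5, c6, c7, c8, c10, hH0]
  simp only [gradVec, jac, Matrix.of_apply, dotProduct, halfEnergy, divX, quadG, hG, hB, hY, hH]
  ring

end Vale.Agent.P098
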