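import Vale.Agent.P098.Boundary

/-!
P098: third derivatives of the smooth extension of a smooth cone: symmetry, trace, Euler,
and the second-order relation on the free boundary.
-/

open Filter
open scoped Topology ContDiff

namespace Vale.Agent.P098

variable {d : ℕ} {u v : Euc d → ℝ} {W : Set (Euc d)} (hu : IsSmoothCone u) (hW : IsOpen W)
  (hsub : closure (posSet u) \ {0} ⊆ W) (hv : ContDiffOn ℝ ∞ v W)
  (hvu : Set.EqOn v u (posSet u))

/-- The third derivatives. -/
noncomputable def third (v : Euc d → ℝ) (i j k : Fin d) (x : Euc d) : ℝ :=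
  pd k (pd j (pd i v)) x

lemma third_symm {x : Euc d} (h : ContDiffAt ℝ 3 v x) (i j k : Fin d) :
    third v i j k x = third v i k j x ∧ third v i j k x = third v j i k x := by
  refine ⟨pd_comm (contDiffAt_pd h (m := 2) (by norm_num) i) k j, pd_congr ?_ k⟩
  filter_upwards [(h.of_le (by norm_num : (2 : WithTop ℕ∞) ≤ 3)).eventually (by norm_num)] with y hy
  exact pd_comm hy j i

lemma continuousAt_third {x : Euc d} (h : ContDiffAt ℝ 3 v x) (i j k : Fin d) :
    ContinuousAt (third v i j k) x :=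
  (contDiffAt_pd (contDiffAt_pd (contDiffAt_pd h (m := 2) (by norm_num) i) (m := 1) (by norm_num) j)
    (m := 0) le_rfl k).continuousAt

include hu hW hsub hv hvu in
/-- `∑ T_iik = 0` up to the boundary. -/
theorem third_trace {x : Euc d} (hx : x ∈ closure (posSet u)) (hx0 : x ≠ 0) (k : Fin d) :
    ∑ i, third v i i k x = 0 := by
  have h3 : ∀ y ∈ W, ContDiffAt ℝ 3 v y := fun y hy =>
    (hv.contDiffAt (hW.mem_nhds hy)).of_le (WithTop.coe_le_coe.2 le_top)
  have hint : ∀ y ∈ posSet u, ∑ i, third v i i k y = 0 := fun y hy => by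
    have hyW := posSet_subset hu hsub hy
    simp only [third]
    rw [← pd_sum Finset.univ k fun i _ =>
      (contDiffAt_pd (contDiffAt_pd (h3 y hyW) (m := 2) (by norm_num) i) (m := 1) (by norm_num)
        i).differentiableAt one_ne_zero]
    refine pd_eq_zero_of_eventually ?_ k
    filter_upwards [(isOpen_posSet hu).mem_nhds hy] with z hz
    exact laplace_eq_zero hu hW hsub hv hvu (subset_closure hz) (ne_zero_of_mem_posSet hu hz)
  have : (𝓝[posSet u] x).NeBot := mem_closure_iff_nhdsWithin_neBot.1 hx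
  exact tendsto_nhds_unique (f := fun y => ∑ i, third v i i k y) (l := 𝓝[posSet u] x)
    ((tendsto_finsetSum _ fun i _ => continuousAt_third (h3 x (hsub ⟨hx, hx0⟩)) i i k).mono_left
      nhdsWithin_le_nhds)
    (tendsto_const_nhds.congr' (eventually_nhdsWithin_of_forall fun y hy => (hint y hy).symm))

include hu hW hsub hv hvu in
/-- `∑ x_k T_ijk = -H_ij` up to the boundary. -/
theorem third_euler {x : Euc d} (hx : x ∈ closure (posSet u)) (hx0 : x ≠ 0) (i j : Fin d) :
    ∑ k, x k * third v i j k x = -pd j (pd i v) x := by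
  have h3 : ∀ y ∈ W, ContDiffAt ℝ 3 v y := fun y hy =>
    (hv.contDiffAt (hW.mem_nhds hy)).of_le (WithTop.coe_le_coe.2 le_top)
  have hH : ∀ y ∈ W, ContDiffAt ℝ 1 (pd j (pd i v)) y := fun y hy =>
    contDiffAt_pd (contDiffAt_pd (h3 y hy) (m := 2) (by norm_num) i) (by norm_num) j
  have hint : ∀ y ∈ posSet u, ∑ k, y k * third v i j k y = -pd j (pd i v) y := fun y hy => by
    rw [← neg_one_mul]
    exact euler_of_homOn (f := pd j (pd i v)) (fun z hz r hr => by
      rw [Real.rpow_neg_one, hessian_smul hu hW hsub hv hvu hz hr]) hy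
      ((hH y (posSet_subset hu hsub hy)).differentiableAt one_ne_zero)
  have : (𝓝[posSet u] x).NeBot := mem_closure_iff_nhdsWithin_neBot.1 hx
  refine tendsto_nhds_unique (f := fun y => ∑ k, y k * third v i j k y) (l := 𝓝[posSet u] x)
    ((tendsto_finsetSum _ fun k _ => ?_).mono_left nhdsWithin_le_nhds)
    (((hH x (hsub ⟨hx, hx0⟩)).continuousAt.neg.tendsto.mono_left nhdsWithin_le_nhds).congr'
      (eventually_nhdsWithin_of_forall fun y hy => (hint y hy).symm))
  exact ((continuous_apply k).comp (PiLp.continuous_ofLp 2 _)).continuousAt.mul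
    (continuousAt_third (h3 x (hsub ⟨hx, hx0⟩)) i j k)

include hu hW hsub hv hvu in
/-- On the free boundary, for tangent `a, b`: `g·T(a,b) = s H(a,b) - H²(a,b)`. -/
theorem third_boundary
    (hbd : ∀ x ∈ frontier (posSet u), x ≠ 0 → ‖fderiv ℝ v x‖ = 1) {x : Euc d}
    (hx : x ∈ frontier (posSet u)) (hx0 : x ≠ 0) {a b : Fin d → ℝ}
    (ha : ∑ i, a i * pd i v x = 0) (hb : ∑ i, b i * pd i v x = 0) :
    ∑ i, ∑ j, a i * b j * ∑ l, pd l v x * third v l i j x
      = (∑ k, hessGrad v k x * pd k v x) * (∑ i, ∑ j, a i * b j * pd j (pd i v) x)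
        - ∑ i, ∑ j, a i * b j * ∑ l, pd j (pd l v) x * pd i (pd l v) x := by
  have hxW : x ∈ W := hsub ⟨hx.1, hx0⟩
  have hv3 : ContDiffAt ℝ 3 v x :=
    (hv.contDiffAt (hW.mem_nhds hxW)).of_le (WithTop.coe_le_coe.2 le_top)
  have g : ∀ i, ContDiffAt ℝ 1 (pd i v) x := fun i => contDiffAt_pd hv3 (by norm_num) i
  have hg : ∀ i, DifferentiableAt ℝ (pd i v) x := fun i => (g i).differentiableAt one_ne_zero
  have hHd : ∀ i j, DifferentiableAt ℝ (pd j (pd i v)) x := fun i j =>
    (contDiffAt_pd (contDiffAt_pd hv3 (m := 2) (by norm_num) i) (m := 1) (by norm_num)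
      j).differentiableAt one_ne_zero
  set σ : Euc d → ℝ := fun y => ∑ k, hessGrad v k y * pd k v y with hσ
  have hσ1 : ContDiffAt ℝ 1 σ x :=
    ContDiffAt.sum fun k _ => (contDiffAt_hessGrad hu hW hsub hv hvu hxW k).mul (g k)
  set Φ : Fin d → Euc d → ℝ := fun i y => hessGrad v i y - σ y * pd i v y with hΦ
  have hΦd : ∀ i j, pd j (Φ i) x = (∑ l, (pd j (pd l v) x * pd i (pd l v) x
      + pd l v x * third v l i j x)) - (pd j σ x * pd i v x + σ x * pd j (pd i v) x) := by
    intro i j
    have hσd := hσ1.differentiableAt one_ne_zero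
    have hh : DifferentiableAt ℝ (hessGrad v i) x :=
      (contDiffAt_hessGrad hu hW hsub hv hvu hxW i).differentiableAt one_ne_zero
    rw [hΦ, pd_sub j hh (hσd.fun_mul (hg i)), pd_mul j hσd (hg i)]
    congr 1
    exact (pd_sum Finset.univ j fun l _ => (hg l).fun_mul (hHd l i)).trans
      (Finset.sum_congr rfl fun l _ => pd_mul j (hg l) (hHd l i))
  have hpar : ∀ i j, pd j (Φ i) x = (∑ k, pd k (Φ i) x * pd k v x) * pd j v x := fun i j => by
    refine pd_of_vanishing hu hW hsub hv hvu hbd hx hx0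
      ((contDiffAt_hessGrad hu hW hsub hv hvu hxW i).sub (hσ1.mul (g i))) ?_ j
    filter_upwards [isOpen_compl_singleton.mem_nhds (show x ∈ ({0} : Set (Euc d))ᶜ from hx0)]
      with y hy0 hy
    exact sub_eq_zero.2 (hessGrad_eq hu hW hsub hv hvu hbd hy hy0 i)
  have hzero : ∑ i, ∑ j, a i * b j * pd j (Φ i) x = 0 := by
    refine Finset.sum_eq_zero fun i _ => ?_
    have e : ∀ j, a i * b j * pd j (Φ i) x
        = a i * (∑ k, pd k (Φ i) x * pd k v x) * (b j * pd j v x) := fun j => by
      rw [hpar i j]; ring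
    rw [Finset.sum_congr rfl fun j _ => e j, ← Finset.mul_sum, hb, mul_zero]
  have hdσ : ∑ i, ∑ j, a i * b j * (pd j σ x * pd i v x) = 0 := by
    have e : ∀ i j, a i * b j * (pd j σ x * pd i v x) = a i * pd i v x * (b j * pd j σ x) :=
      fun i j => by ring
    simp only [e, ← Finset.mul_sum, ← Finset.sum_mul, ha, zero_mul]
  have hσH : ∑ i, ∑ j, a i * b j * (σ x * pd j (pd i v) x)
      = σ x * ∑ i, ∑ j, a i * b j * pd j (pd i v) x := by
    simp only [Finset.mul_sum]
    exact Finset.sum_congr rfl fun i _ => Finset.sum_congr rfl fun j _ => by ring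
  simp only [hΦd, Finset.sum_add_distrib, mul_sub, mul_add, Finset.sum_sub_distrib, hdσ, hσH] at hzero
  show _ = σ x * _ - _
  linarith

end Vale.Agent.P098
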