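import Vale.Agent.P098.Jets

/-!
P098: a smooth cone has `|∇u| ≤ 1` in its positivity set and `∇u · D²u ∇u ≤ 0` on the free
boundary (nonnegative mean curvature).
-/

open MeasureTheory Filter
open scoped Topology ContDiff

namespace Vale.Agent.P098

variable {d : ℕ} {u v : Euc d → ℝ} {W : Set (Euc d)} (hu : IsSmoothCone u) (hW : IsOpen W)
  (hsub : closure (posSet u) \ {0} ⊆ W) (hv : ContDiffOn ℝ ∞ v W)
  (hvu : Set.EqOn v u (posSet u))
  (hbd : ∀ x ∈ frontier (posSet u), x ≠ 0 → ‖fderiv ℝ v x‖ = 1)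

/-- A radial bump, positive on `1/2 < |x| < 2`. -/
noncomputable def radialBump (x : Euc d) : ℝ :=
  Real.smoothTransition (‖x‖ ^ 2 - 1 / 4) * Real.smoothTransition (4 - ‖x‖ ^ 2)

lemma contDiff_radialBump {k : ℕ∞} : ContDiff ℝ k (radialBump : Euc d → ℝ) :=
  (Real.smoothTransition.contDiff.comp ((contDiff_norm_sq ℝ).sub contDiff_const)).mul
    (Real.smoothTransition.contDiff.comp (contDiff_const.sub (contDiff_norm_sq ℝ)))

lemma radialBump_eq_zero {x : Euc d} (h : ‖x‖ ≤ 1 / 2 ∨ 2 ≤ ‖x‖) : radialBump x = 0 := by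
  rcases h with h | h
  · rw [radialBump, Real.smoothTransition.zero_of_nonpos (by nlinarith [norm_nonneg x]), zero_mul]
  · rw [radialBump, Real.smoothTransition.zero_of_nonpos (x := 4 - ‖x‖ ^ 2) (by nlinarith),
      mul_zero]

lemma pd_radialBump (x : Euc d) : ∃ c : ℝ, ∀ k, pd k radialBump x = c * x k := by
  set h : ℝ → ℝ := fun t =>
    Real.smoothTransition (t - 1 / 4) * Real.smoothTransition (4 - t) with hh
  have hd : DifferentiableAt ℝ h (‖x‖ ^ 2) := by
    have hc : ContDiff ℝ 1 h := (Real.smoothTransition.contDiff.comp (contDiff_id.sub contDiff_const)).mul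
      (Real.smoothTransition.contDiff.comp (contDiff_const.sub contDiff_id))
    exact hc.differentiable one_ne_zero _
  refine ⟨deriv h (‖x‖ ^ 2) * 2, fun k => ?_⟩
  have h1 := hd.hasDerivAt.comp_hasFDerivAt x ((hasFDerivAt_id x).norm_sq)
  have e : (radialBump : Euc d → ℝ) = fun y => h (‖id y‖ ^ 2) := rfl
  rw [pd, e, HasFDerivAt.fderiv (f := fun y : Euc d => h (‖id y‖ ^ 2)) h1]
  simp [EuclideanSpace.inner_single_right]
  ring

include hu hW hsub hv hvu hbd in
lemma hessian_zero_of_gradSq_gt {x : Euc d} (hx : x ∈ posSet u) (hg : 1 < gradSq v x)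
    (hx1 : 1 / 2 < ‖x‖) (hx2 : ‖x‖ < 2) (i j : Fin d) : pd j (pd i v) x = 0 := by
  set η : Euc d → ℝ := radialBump with hη
  set A : Set (Euc d) := Metric.closedBall 0 2 \ Metric.ball 0 (1 / 2) with hA
  have hKc : IsCompact (closure (posSet u) ∩ A) :=
    ((isCompact_closedBall _ _).diff Metric.isOpen_ball).inter_left isClosed_closure
  have hKW : closure (posSet u) ∩ A ⊆ W \ {0} := fun y hy => by
    have h0 : y ≠ 0 := fun h => hy.2.2 (by simp [h])
    exact ⟨hsub ⟨hy.1, h0⟩, h0⟩
  obtain ⟨L, hL, hKL, hLW⟩ := exists_compact_between hKc (hW.sdiff isClosed_singleton) hKW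
  obtain ⟨χ, hχ, -, hχ1⟩ := exists_eta hL hW hLW
  have hts : tsupport η ⊆ A := by
    refine closure_minimal (fun y hy => ?_) (Metric.isClosed_closedBall.sdiff Metric.isOpen_ball)
    constructor
    · rw [Metric.mem_closedBall, dist_zero_right]
      by_contra h
      exact hy (radialBump_eq_zero (Or.inr (not_le.1 h).le))
    · rw [Metric.mem_ball, dist_zero_right]
      exact fun h => hy (radialBump_eq_zero (Or.inl h.le))
  have hv3 : ∀ y ∈ W, ContDiffAt ℝ 3 v y := fun y hy =>
    (hv.contDiffAt (hW.mem_nhds hy)).of_le (WithTop.coe_le_coe.2 le_top)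
  set θ : Euc d → ℝ := fun y => Real.smoothTransition (gradSq v y - 1) with hθ
  have hθc : ∀ y ∈ W, ContDiffAt ℝ 1 θ y := fun y hy =>
    Real.smoothTransition.contDiff.contDiffAt.comp y
      ((ContDiffAt.sum fun k _ => (contDiffAt_pd (hv3 y hy) (m := 1) (by norm_num) k).mul
        (contDiffAt_pd (hv3 y hy) (m := 1) (by norm_num) k)).sub contDiffAt_const)
  set V : Fin d → Euc d → ℝ := fun k y => χ y * (η y * θ y * hessGrad v k y) with hV
  have hVt : ∀ k, IsTest W 1 (V k) := fun k =>
    (hχ.of_le (WithTop.coe_le_coe.2 le_top)).mul hW fun y hy =>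
      (((contDiff_radialBump (k := 1)).contDiffAt.mul (hθc y hy)).mul
        (contDiffAt_hessGrad hu hW hsub hv hvu hy k)).contDiffWithinAt
  have hflux : ∀ y ∈ frontier (posSet u), y ≠ 0 → ∀ c : ℝ,
      ∑ k, c * V k y * pd k v y = 0 := fun y hy hy0 c => by
    have : θ y = 0 := Real.smoothTransition.zero_of_nonpos (by
      rw [← norm_fderiv_sq, hbd y hy hy0]; norm_num)
    simp [hV, this]
  have h1 := integral_div_nonneg hu hW hsub hv hvu hbd hVt
    fun y hy hy0 => by simpa using (hflux y hy hy0 1).le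
  have h2 := integral_div_nonneg hu hW hsub hv hvu hbd
    (V := fun k y => V k y * (-1)) (fun k => (hVt k).mul hW contDiffOn_const)
    fun y hy hy0 => by
      have := (hflux y hy hy0 (-1)).le
      simpa [mul_comm] using this
  have e : ∀ y, ∑ k, pd k (fun z => V k z * (-1)) y = -∑ k, pd k (V k) y := fun y => by
    rw [← Finset.sum_neg_distrib]
    refine Finset.sum_congr rfl fun k _ => ?_
    rw [pd_mul k ((hVt k).contDiff.differentiable one_ne_zero y) (differentiableAt_const _),
      pd_const]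
    ring
  simp only [e, integral_neg] at h2
  -- the divergence is a nonnegative multiple
  have hdiv : ∀ y ∈ posSet u, ∑ k, pd k (V k) y
      = η y * (deriv Real.smoothTransition (gradSq v y - 1) * 2
          * ∑ k, hessGrad v k y * hessGrad v k y
        + θ y * ∑ a, ∑ b, pd b (pd a v) y ^ 2) := by
    intro y hy
    have hyW : y ∈ W := posSet_subset hu hsub hy
    have hloc : ∀ k, V k =ᶠ[𝓝 y] fun z => η z * θ z * hessGrad v k z := fun k => by
      by_cases hys : y ∈ tsupport η
      · filter_upwards [isOpen_interior.mem_nhds (hKL ⟨subset_closure hy, hts hys⟩)] with z hz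
        simp [hV, hχ1 z (interior_subset hz)]
      · filter_upwards [notMem_tsupport_iff_eventuallyEq.1 hys] with z hz
        simp [hV, hz]
    have hg1 : ∀ a, DifferentiableAt ℝ (pd a v) y := fun a =>
      (contDiffAt_pd (hv3 y hyW) (m := 1) (by norm_num) a).differentiableAt one_ne_zero
    have hN : DifferentiableAt ℝ (gradSq v) y :=
      DifferentiableAt.fun_sum fun a _ => (hg1 a).fun_mul (hg1 a)
    have hηd : DifferentiableAt ℝ η y :=
      (contDiff_radialBump (k := 1)).differentiable one_ne_zero y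
    have hθd : DifferentiableAt ℝ θ y := (hθc y hyW).differentiableAt one_ne_zero
    have hNk : ∀ k, pd k θ y
        = deriv Real.smoothTransition (gradSq v y - 1) * (2 * hessGrad v k y) := by
      intro k
      have h := ((Real.smoothTransition.contDiff (n := 1)).differentiable one_ne_zero
        (gradSq v y - 1)).hasDerivAt.comp_hasFDerivAt y (hN.hasFDerivAt.sub_const 1)
      rw [pd, HasFDerivAt.fderiv (f := θ) h]
      simp only [_root_.smul_apply, smul_eq_mul]
      congr 1
      show pd k (gradSq v) y = _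
      refine (pd_sum Finset.univ k fun a _ => (hg1 a).fun_mul (hg1 a)).trans ?_
      rw [hessGrad, Finset.mul_sum]
      exact Finset.sum_congr rfl fun a _ => by rw [pd_mul k (hg1 a) (hg1 a)]; ring
    have hHd : ∀ k, DifferentiableAt ℝ (hessGrad v k) y := fun k =>
      (contDiffAt_hessGrad hu hW hsub hv hvu hyW k).differentiableAt one_ne_zero
    obtain ⟨c, hc⟩ := pd_radialBump y
    have hrad : ∑ k, y k * hessGrad v k y = 0 := by
      have e2 : ∀ k, y k * hessGrad v k y = ∑ a, pd a v y * (y k * pd k (pd a v) y) := fun k => by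
        rw [hessGrad, Finset.mul_sum]
        exact Finset.sum_congr rfl fun a _ => by ring
      simp only [e2]
      rw [Finset.sum_comm]
      simp only [← Finset.mul_sum,
        hessian_euler hu hW hsub hv hvu (subset_closure hy) (ne_zero_of_mem_posSet hu hy),
        mul_zero, Finset.sum_const_zero]
    have e1 : ∀ k, pd k (V k) y = c * θ y * (y k * hessGrad v k y)
        + η y * (deriv Real.smoothTransition (gradSq v y - 1) * 2)
          * (hessGrad v k y * hessGrad v k y)
        + η y * θ y * pd k (hessGrad v k) y := fun k => by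
      rw [pd_congr (hloc k) k, pd_mul k (hηd.fun_mul hθd) (hHd k), pd_mul k hηd hθd, hNk k,
        show pd k η y = c * y k from hc k]
      ring
    simp only [e1, Finset.sum_add_distrib, ← Finset.mul_sum, hrad, mul_zero, zero_add]
    rw [sum_pd_hessGrad (hv3 y hyW) (by
      filter_upwards [(isOpen_posSet hu).mem_nhds hy] with z hz
      exact laplace_eq_zero hu hW hsub hv hvu (subset_closure hz) (ne_zero_of_mem_posSet hu hz))]
    ring
  have hnn : ∀ y ∈ posSet u, 0 ≤ ∑ k, pd k (V k) y := fun y hy => by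
    rw [hdiv y hy]
    refine mul_nonneg (mul_nonneg (Real.smoothTransition.nonneg _) (Real.smoothTransition.nonneg _))
      (add_nonneg (mul_nonneg (mul_nonneg Real.smoothTransition.monotone.deriv_nonneg two_pos.le)
        (Finset.sum_nonneg fun k _ => mul_self_nonneg _))
      (mul_nonneg (Real.smoothTransition.nonneg _)
        (Finset.sum_nonneg fun a _ => Finset.sum_nonneg fun b _ => sq_nonneg _)))
  have hcont : Continuous fun y => ∑ k, pd k (V k) y :=
    continuous_finsetSum _ fun k _ => continuous_pd (hVt k).contDiff k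
  have hint : IntegrableOn (fun y => ∑ k, pd k (V k) y) (posSet u) :=
    (integrable_finsetSum _ fun k _ => (continuous_pd (hVt k).contDiff k).integrable_of_hasCompactSupport
      (hasCompactSupport_pd (hVt k).hasCompactSupport k)).integrableOn
  have hzero := (setIntegral_eq_zero_iff_of_nonneg_ae
    ((ae_restrict_iff' (isOpen_posSet hu).measurableSet).2 (Eventually.of_forall hnn)) hint).1
    (le_antisymm (by linarith) h1)
  have hall : Set.EqOn (fun y => ∑ k, pd k (V k) y) (fun _ => 0) (posSet u) :=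
    Measure.eqOn_open_of_ae_eq hzero (isOpen_posSet hu) hcont.continuousOn continuousOn_const
  have h0 := hall hx
  simp only [hdiv x hx] at h0
  have hη0 : 0 < η x := by
    rw [hη, radialBump]
    exact mul_pos (Real.smoothTransition.pos_of_pos (by nlinarith))
      (Real.smoothTransition.pos_of_pos (by nlinarith [norm_nonneg x]))
  have hsum := (mul_eq_zero.1 h0).resolve_left hη0.ne'
  have ha : 0 ≤ deriv Real.smoothTransition (gradSq v x - 1) * 2
      * ∑ k, hessGrad v k x * hessGrad v k x :=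
    mul_nonneg (mul_nonneg Real.smoothTransition.monotone.deriv_nonneg two_pos.le)
      (Finset.sum_nonneg fun k _ => mul_self_nonneg _)
  have hθ0 : 0 < θ x := Real.smoothTransition.pos_of_pos (by linarith)
  have hb : ∑ a, ∑ b, pd b (pd a v) x ^ 2 = 0 := by
    have hnn' : (0 : ℝ) ≤ ∑ a, ∑ b, pd b (pd a v) x ^ 2 :=
      Finset.sum_nonneg fun a _ => Finset.sum_nonneg fun b _ => sq_nonneg _
    nlinarith [mul_nonneg hθ0.le hnn']
  have := (Finset.sum_eq_zero_iff_of_nonneg fun a _ => Finset.sum_nonneg fun b _ => sq_nonneg _).1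
    hb i (Finset.mem_univ i)
  exact pow_eq_zero_iff two_ne_zero |>.1
    ((Finset.sum_eq_zero_iff_of_nonneg fun b _ => sq_nonneg _).1 this j (Finset.mem_univ j))

include hu hW hsub hv hvu hbd in
/-- `|∇u| ≤ 1` on the positivity set. -/
theorem gradSq_le_one (hd : 2 ≤ d) {x₀ : Euc d} (hx₀ : x₀ ∈ posSet u) : gradSq v x₀ ≤ 1 := by
  by_contra hgt
  rw [not_le] at hgt
  have hH : ∀ y ∈ posSet u, 1 < gradSq v y → ∀ i j, pd j (pd i v) y = 0 := by
    intro y hy hg i j
    have hn : 0 < ‖y‖ := norm_pos_iff.2 (ne_zero_of_mem_posSet hu hy)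
    have hr : 0 < ‖y‖⁻¹ := inv_pos.2 hn
    have hgs : gradSq v (‖y‖⁻¹ • y) = gradSq v y := by
      rw [← norm_fderiv_sq, ← norm_fderiv_sq, fderiv_smul_eq hu hsub hv hvu hy hr]
    have hn1 : ‖‖y‖⁻¹ • y‖ = 1 := by simp [norm_smul, hn.ne']
    have h := hessian_zero_of_gradSq_gt hu hW hsub hv hvu hbd (smul_mem_posSet hu hy hr)
      (by rwa [hgs]) (by rw [hn1]; norm_num) (by rw [hn1]; norm_num) i j
    rw [hessian_smul hu hW hsub hv hvu hy hr] at h
    exact (mul_eq_zero.1 h).resolve_left (inv_ne_zero hr.ne')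
  set L := fderiv ℝ v x₀ with hL
  have hgL : ∀ z, fderiv ℝ v z = L → 1 < gradSq v z := fun z hz => by
    rw [← norm_fderiv_sq, hz, hL, norm_fderiv_sq]
    exact hgt
  set Hs : Set (Euc d) := {z | 0 < L z} with hHs
  set C : Set (Euc d) := {z | z ∈ posSet u ∧ fderiv ℝ v z = L} with hC
  have hloc : ∀ z ∈ posSet u, 1 < gradSq v z → ∀ᶠ y in 𝓝 z, fderiv ℝ v y = fderiv ℝ v z := by
    intro z hz hgz
    have hc : ∀ i, ContinuousAt (pd i v) z := fun i =>
      (contDiffAt_pd ((hv.contDiffAt (hW.mem_nhds (posSet_subset hu hsub hz))).of_le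
        (WithTop.coe_le_coe.2 le_top)) (m := 0) (n := 1) (by norm_num) i).continuousAt
    have hN : ContinuousAt (gradSq v) z := tendsto_finsetSum _ fun i _ => (hc i).mul (hc i)
    obtain ⟨ε, hε, hball⟩ := Metric.mem_nhds_iff.1
      (inter_mem ((isOpen_posSet hu).mem_nhds hz) (hN.eventually (lt_mem_nhds hgz)))
    filter_upwards [Metric.ball_mem_nhds z hε] with y hy
    ext w
    rw [clm_apply_eq_sum, clm_apply_eq_sum (fderiv ℝ v z)]
    refine Finset.sum_congr rfl fun i _ => congrArg _ ?_
    have hdiff : ∀ p ∈ Metric.ball z ε, DifferentiableAt ℝ (pd i v) p := fun p hp =>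
      (contDiffAt_pd ((hv.contDiffAt (hW.mem_nhds (posSet_subset hu hsub (hball hp).1))).of_le
        (WithTop.coe_le_coe.2 le_top)) (m := 1) (n := 2) le_rfl i).differentiableAt one_ne_zero
    refine (convex_ball z ε).is_const_of_fderivWithin_eq_zero (𝕜 := ℝ) (f := pd i v)
      (fun p hp => (hdiff p hp).differentiableWithinAt) (fun p hp => ?_) hy
      (Metric.mem_ball_self hε)
    rw [fderivWithin_of_isOpen Metric.isOpen_ball hp]
    ext q
    rw [clm_apply_eq_sum (fderiv ℝ (pd i v) p) q]
    refine (Finset.sum_eq_zero fun k _ => ?_).trans (zero_apply q).symm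
    exact mul_eq_zero_of_right _ (hH p (hball hp).1 (hball hp).2 i k)
  have hCu : ∀ z ∈ C, u z = L z := fun z hz => by
    rw [← hz.2, fderiv_self hu hsub hv hvu hz.1]
  have hL0 : 0 < L x₀ := by
    rw [hL, fderiv_self hu hsub hv hvu hx₀]
    exact hx₀
  have hsubC : Hs ⊆ C := by
    refine (convex_halfSpace_gt L.isLinear 0).isPreconnected.subset_of_closure_inter_subset
      (isOpen_iff_mem_nhds.2 fun z hz => ?_) ⟨x₀, hL0, hx₀, rfl⟩ fun z hz => ?_
    · filter_upwards [(isOpen_posSet hu).mem_nhds hz.1, hloc z hz.1 (hgL z hz.2)] with y hy1 hy2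
      exact ⟨hy1, hy2.trans hz.2⟩
    · have huz : u z = L z := closure_minimal (fun w hw => hCu w hw)
        (isClosed_eq hu.continuous L.continuous) hz.1
      have hzp : z ∈ posSet u := by
        show 0 < u z
        rw [huz]
        exact hz.2
      have hcont : ContinuousAt (fderiv ℝ v) z :=
        (hv.contDiffAt (hW.mem_nhds (posSet_subset hu hsub hzp))).continuousAt_fderiv (by simp)
      have : (𝓝[C] z).NeBot := mem_closure_iff_nhdsWithin_neBot.1 hz.1
      exact ⟨hzp, tendsto_nhds_unique (hcont.tendsto.mono_left nhdsWithin_le_nhds)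
        (tendsto_const_nhds.congr' (eventually_nhdsWithin_of_forall fun w (hw : w ∈ C) => hw.2.symm))⟩
  obtain ⟨y₀, hy₀L, hy₀⟩ : ∃ y : Euc d, L y = 0 ∧ y ≠ 0 := by
    by_contra! h
    have hinj : Function.Injective L := (injective_iff_map_eq_zero L).2 h
    have := LinearMap.finrank_le_finrank_of_injective (f := L.toLinearMap) hinj
    rw [finrank_euclideanSpace_fin, Module.finrank_self] at this
    omega
  have hT : Tendsto (fun s : ℝ => y₀ + s • x₀) (𝓝[>] 0) (𝓝 y₀) := by
    have : Continuous fun s : ℝ => y₀ + s • x₀ :=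
      continuous_const.add (continuous_id.smul continuous_const)
    simpa using (this.tendsto 0).mono_left nhdsWithin_le_nhds
  have hev : ∀ᶠ s : ℝ in 𝓝[>] 0, y₀ + s • x₀ ∈ C := by
    filter_upwards [self_mem_nhdsWithin] with s hs
    exact hsubC (show 0 < L (y₀ + s • x₀) by simpa [hy₀L] using mul_pos (Set.mem_Ioi.1 hs) hL0)
  have hcl : y₀ ∈ closure (posSet u) := mem_closure_of_tendsto hT (hev.mono fun s hs => hs.1)
  have hu0 : u y₀ = 0 := by
    refine tendsto_nhds_unique ((hu.continuous.tendsto y₀).comp hT) ?_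
    have h0 := (L.continuous.tendsto y₀).comp hT
    rw [hy₀L] at h0
    exact h0.congr' (hev.mono fun s hs => (hCu _ hs).symm)
  have hfd : fderiv ℝ v y₀ = L := by
    have hcont : ContinuousAt (fderiv ℝ v) y₀ :=
      (hv.contDiffAt (hW.mem_nhds (hsub ⟨hcl, hy₀⟩))).continuousAt_fderiv (by simp)
    exact tendsto_nhds_unique (hcont.tendsto.comp hT)
      (tendsto_const_nhds.congr' (hev.mono fun s hs => hs.2.symm))
  have hfr : y₀ ∈ frontier (posSet u) := ⟨hcl, fun hi => by
    have : 0 < u y₀ := interior_subset (s := posSet u) hi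
    linarith⟩
  have h := hgL y₀ hfd
  rw [← norm_fderiv_sq, hbd y₀ hfr hy₀] at h
  norm_num at h

include hu hW hsub hv hvu hbd in
/-- The free boundary has nonnegative mean curvature: `∇u · D²u ∇u ≤ 0` there. -/
theorem hessGrad_dot_nonpos (hd : 2 ≤ d) {x : Euc d} (hx : x ∈ frontier (posSet u)) (hx0 : x ≠ 0) :
    ∑ k, hessGrad v k x * pd k v x ≤ 0 := by
  have hxW : x ∈ W := hsub ⟨hx.1, hx0⟩
  have hnp : x ∉ posSet u := fun h => hx.2 (by rwa [(isOpen_posSet hu).interior_eq])
  have hvx : v x = 0 := by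
    rw [eqOn_closure_of_ne hu hsub hv hvu hx.1 hx0]
    exact le_antisymm (not_lt.1 hnp) (hu.nonneg x)
  set n : Euc d := WithLp.toLp 2 fun k => pd k v x with hn
  have hv3 : ContDiffAt ℝ 3 v x :=
    (hv.contDiffAt (hW.mem_nhds hxW)).of_le (WithTop.coe_le_coe.2 le_top)
  have hg1 : ∀ a, DifferentiableAt ℝ (pd a v) x := fun a =>
    (contDiffAt_pd hv3 (m := 1) (by norm_num) a).differentiableAt one_ne_zero
  have hN : DifferentiableAt ℝ (gradSq v) x :=
    DifferentiableAt.fun_sum fun a _ => (hg1 a).fun_mul (hg1 a)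
  have hsq : gradSq v x = 1 := by rw [← norm_fderiv_sq, hbd x hx hx0, one_pow]
  have hline : HasDerivAt (fun t : ℝ => x + t • n) n 0 := by
    simpa using ((hasDerivAt_id (0 : ℝ)).smul_const n).const_add x
  have h1 : HasDerivAt (fun t : ℝ => v (x + t • n)) 1 0 := by
    have h := ((hv3.differentiableAt (by norm_num)).hasFDerivAt).comp_hasDerivAt_of_eq (0 : ℝ)
      hline (by simp)
    have e : fderiv ℝ v x n = 1 := by
      rw [clm_apply_eq_sum (fderiv ℝ v x) n]
      exact hsq
    rwa [e] at h
  have h2 : HasDerivAt (fun t : ℝ => gradSq v (x + t • n))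
      (2 * ∑ k, hessGrad v k x * pd k v x) 0 := by
    have h := hN.hasFDerivAt.comp_hasDerivAt_of_eq (0 : ℝ) hline (by simp)
    have e : fderiv ℝ (gradSq v) x n = 2 * ∑ k, hessGrad v k x * pd k v x := by
      rw [clm_apply_eq_sum (fderiv ℝ (gradSq v) x) n, Finset.mul_sum]
      refine Finset.sum_congr rfl fun k _ => ?_
      show pd k v x * pd k (gradSq v) x = _
      have e1 : pd k (gradSq v) x = 2 * hessGrad v k x := by
        refine (pd_sum Finset.univ k fun a _ => (hg1 a).fun_mul (hg1 a)).trans ?_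
        rw [hessGrad, Finset.mul_sum]
        exact Finset.sum_congr rfl fun a _ => by rw [pd_mul k (hg1 a) (hg1 a)]; ring
      rw [e1]
      ring
    rwa [e] at h
  have hpos : ∀ᶠ t : ℝ in 𝓝[>] 0, x + t • n ∈ posSet u := by
    have hT : Tendsto (fun t : ℝ => x + t • n) (𝓝[>] 0) (𝓝 x) := by
      have := hline.continuousAt.tendsto
      simpa using this.mono_left nhdsWithin_le_nhds
    have hs := (hasDerivAt_iff_tendsto_slope.1 h1).mono_left
      (nhdsWithin_mono (0 : ℝ) (show Set.Ioi (0 : ℝ) ⊆ {0}ᶜ from fun t ht => ne_of_gt ht))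
    filter_upwards [hs.eventually (lt_mem_nhds zero_lt_one),
      hT.eventually (boundary_local hu hW hsub hv hvu hbd hx hx0), self_mem_nhdsWithin]
      with t ht hl (ht0 : 0 < t)
    refine hl.2 ?_
    simp [slope_def_field, hvx] at ht
    rcases (div_pos_iff.1 ht) with h | h
    · exact h.1
    · linarith [h.2]
  have hslope := (hasDerivAt_iff_tendsto_slope.1 h2).mono_left
    (nhdsWithin_mono (0 : ℝ) (show Set.Ioi (0 : ℝ) ⊆ {0}ᶜ from fun t ht => ne_of_gt ht))
  have hle : 2 * ∑ k, hessGrad v k x * pd k v x ≤ 0 := by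
    refine le_of_tendsto hslope ?_
    filter_upwards [hpos, self_mem_nhdsWithin] with t ht (ht0 : 0 < t)
    have := gradSq_le_one hu hW hsub hv hvu hbd hd ht
    simp only [slope_def_field, sub_zero, zero_smul, add_zero, hsq]
    exact div_nonpos_of_nonpos_of_nonneg (by linarith) ht0.le
  linarith

end Vale.Agent.P098
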