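import Vale.Agent.P098.Cutoff
import Vale.Agent.P098.Flat

/-!
P098: certificates given by a nonnegative `F` (the square of the test function) and a field `V`:
pointwise `y · ∇F - |y|² F + div V ≤ q ≤ 0` inside and `(V + F D²u ∇u) · ∇u ≤ 0` on the free
boundary force the minimizing smooth cone to be flat where `q = 0` detects the Hessian.
-/

open MeasureTheory Filter
open scoped Topology ContDiff RealInnerProductSpace

namespace Vale.Agent.P098

variable {d : ℕ}

/-- `|x| ^ (2 - d)`. -/
noncomputable def radialWeight (d : ℕ) (x : Euc d) : ℝ := (‖x‖ ^ 2) ^ ((2 - (d : ℝ)) / 2)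

lemma contDiffAt_radialWeight {x : Euc d} (hx : x ≠ 0) {k : ℕ∞} :
    ContDiffAt ℝ k (radialWeight d) x :=
  ((contDiff_norm_sq ℝ).contDiffAt).rpow_const_of_ne (pow_ne_zero 2 (norm_ne_zero_iff.2 hx))

lemma radialWeight_pos {x : Euc d} (hx : x ≠ 0) : 0 < radialWeight d x :=
  Real.rpow_pos_of_pos (pow_pos (norm_pos_iff.2 hx) 2) _

lemma radialWeight_smul {r : ℝ} (hr : 0 < r) (x : Euc d) :
    radialWeight d (r • x) = r ^ (2 - (d : ℝ)) * radialWeight d x := by
  rw [radialWeight, radialWeight, norm_smul, Real.norm_eq_abs, abs_of_pos hr, mul_pow,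
    Real.mul_rpow (sq_nonneg r) (sq_nonneg _), ← Real.rpow_natCast r 2, ← Real.rpow_mul hr.le]
  congr 2
  push_cast
  ring

/-- `∑ ∂_k (D²v ∇v)_k = |D²v|²` for harmonic `v`. -/
lemma sum_pd_hessGrad {v : Euc d → ℝ} {x : Euc d} (hv : ContDiffAt ℝ 3 v x)
    (hharm : (fun y => ∑ i, pd i (pd i v) y) =ᶠ[𝓝 x] fun _ => 0) :
    ∑ k, pd k (hessGrad v k) x = ∑ i, ∑ j, pd j (pd i v) x ^ 2 := by
  have hv2 : ContDiffAt ℝ 2 v x := hv.of_le (by norm_num)
  have hv1 : ∀ i, ContDiffAt ℝ 2 (pd i v) x := fun i => contDiffAt_pd hv (by norm_num) i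
  have dG : ∀ i, DifferentiableAt ℝ (pd i v) x := fun i => (hv1 i).differentiableAt (by norm_num)
  have dH : ∀ i j, DifferentiableAt ℝ (pd j (pd i v)) x := fun i j =>
    (contDiffAt_pd (hv1 i) (m := 1) (by norm_num) j).differentiableAt one_ne_zero
  have e : ∀ k, pd k (hessGrad v k) x
      = ∑ i, (pd k (pd i v) x * pd k (pd i v) x + pd i v x * pd k (pd k (pd i v)) x) := fun k =>
    (pd_sum Finset.univ k fun i _ => (dG i).fun_mul (dH i k)).trans
      (Finset.sum_congr rfl fun i _ => pd_mul k (dG i) (dH i k))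
  simp only [e]
  exact alg_hessGrad (fun i => pd i v x) (fun i j => pd j (pd i v) x)
    (fun i j k => pd k (pd j (pd i v)) x) (fun i j k => pd_comm (hv1 i) k j)
    (fun i j k => pd_congr (by
      filter_upwards [hv2.eventually (by norm_num)] with y hy
      exact pd_comm hy j i) k)
    fun k => by
      rw [← pd_sum Finset.univ k fun i _ => dH i i]
      exact pd_eq_zero_of_eventually hharm k

variable {u v : Euc d → ℝ} {W : Set (Euc d)} (hu : IsSmoothCone u) (hW : IsOpen W)
  (hsub : closure (posSet u) \ {0} ⊆ W) (hv : ContDiffOn ℝ ∞ v W)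
  (hvu : Set.EqOn v u (posSet u))

include hu hW hsub hv hvu in
lemma hessian_smul {x : Euc d} (hx : x ∈ posSet u) {r : ℝ} (hr : 0 < r) (i j : Fin d) :
    pd j (pd i v) (r • x) = r⁻¹ * pd j (pd i v) x := by
  have hd : ∀ y ∈ posSet u, DifferentiableAt ℝ (pd i v) y := fun y hy =>
    (contDiffAt_pd ((hv.contDiffAt (hW.mem_nhds (posSet_subset hu hsub hy))).of_le
      (WithTop.coe_le_coe.2 le_top)) (m := 1) (n := 2) le_rfl i).differentiableAt one_ne_zero
  have h := pd_scale (h := pd i v) (h' := pd i v) (c := 1) (r := r) (by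
    filter_upwards [(isOpen_posSet hu).mem_nhds hx] with y hy
    rw [one_mul, pd, pd, fderiv_smul_eq hu hsub hv hvu hy hr])
    (hd _ (smul_mem_posSet hu hx hr)) (hd x hx) j
  field_simp
  linarith

include hu hW hsub hv hvu in
lemma homOn_hessGrad (k : Fin d) : HomOn u (-1) (hessGrad v k) := fun x hx r hr => by
  rw [Real.rpow_neg_one, hessGrad, hessGrad, Finset.mul_sum]
  refine Finset.sum_congr rfl fun i _ => ?_
  have hg : pd i v (r • x) = pd i v x := by rw [pd, pd, fderiv_smul_eq hu hsub hv hvu hx hr]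
  rw [hessian_smul hu hW hsub hv hvu hx hr, hg]
  ring

include hu hW hsub hv hvu in
lemma contDiffAt_hessGrad {x : Euc d} (hx : x ∈ W) (k : Fin d) :
    ContDiffAt ℝ 1 (hessGrad v k) x := by
  have _ := hu
  have _ := hsub
  have _ := hvu
  have hv3 : ContDiffAt ℝ 3 v x := (hv.contDiffAt (hW.mem_nhds hx)).of_le
    (WithTop.coe_le_coe.2 le_top)
  exact ContDiffAt.sum fun i _ => (contDiffAt_pd hv3 (m := 1) (by norm_num) i).mul
    (contDiffAt_pd (contDiffAt_pd hv3 (m := 2) (by norm_num) i) (by norm_num) k)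

include hu hW hsub hv hvu in
/-- The certificate forces `q = 0` on the open unit shell. -/
theorem certificate_eq_zero (hmin : IsStable u)
    (hbd : ∀ x ∈ frontier (posSet u), x ≠ 0 → ‖fderiv ℝ v x‖ = 1)
    {F : Euc d → ℝ} (hF : ContDiffOn ℝ 2 F W) (hF0 : ∀ x ∈ posSet u, 0 ≤ F x)
    (hFh : HomOn u (2 - (d : ℝ)) F)
    {V : Fin d → Euc d → ℝ} (hV : ∀ k, ContDiffOn ℝ 1 (V k) W)
    (hVh : ∀ k, HomOn u (1 - (d : ℝ)) (V k))
    (hflux : ∀ x ∈ frontier (posSet u), x ≠ 0 →
      ∑ k, V k x * pd k v x + F x * ∑ k, hessGrad v k x * pd k v x ≤ 0)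
    {q : Euc d → ℝ} (hq : ContinuousOn q W) (hq0 : ∀ x ∈ posSet u, q x ≤ 0)
    (hcert : ∀ x ∈ posSet u, ∀ y : Fin d → ℝ,
      ∑ i, y i * pd i F x - (∑ i, y i ^ 2) * F x + ∑ k, pd k (V k) x ≤ q x) :
    ∀ x ∈ posSet u, 1 < ‖x‖ → ‖x‖ < 2 → q x = 0 := by
  set h : Euc d → ℝ := radialWeight d with hh
  set R : Euc d → ℝ := fun x => ∑ i, pd i h x ^ 2 / (4 * h x)
    - h x * ∑ i, ∑ j, pd j (pd i v) x ^ 2 - ∑ k, pd k h x * hessGrad v k x with hR
  set S := shell 0 ∩ posSet u with hS
  have hSm : MeasurableSet S := (measurableSet_shell 0).inter (isOpen_posSet hu).measurableSet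
  set K := closure (posSet u) ∩ (Metric.closedBall (0 : Euc d) 2 \ Metric.ball 0 1) with hK
  have hKc : IsCompact K :=
    ((isCompact_closedBall _ _).diff Metric.isOpen_ball).inter_left isClosed_closure
  have hSK : S ⊆ K := fun y hy => by
    have h1 : 1 ≤ ‖y‖ := by simpa [shell] using hy.1.1
    have h2 : ‖y‖ < 2 := by simpa [shell] using hy.1.2
    exact ⟨subset_closure hy.2, by simp [h2.le], by simp [h1]⟩
  have hK0 : ∀ y ∈ K, y ≠ 0 := fun y hy h => hy.2.2 (by simp [h])
  have hKW : K ⊆ W := fun y hy => hsub ⟨hy.1, hK0 y hy⟩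
  have hRc : ContinuousOn R K := fun y hy => by
    have hy0 : y ≠ 0 := hK0 y hy
    have hy3 : ContDiffAt ℝ 3 v y := (hv.contDiffAt (hW.mem_nhds (hKW hy))).of_le
      (WithTop.coe_le_coe.2 le_top)
    have hr : ContinuousAt h y := (contDiffAt_radialWeight (k := 1) hy0).continuousAt
    have p : ∀ i, ContinuousAt (pd i h) y := fun i =>
      (contDiffAt_pd (contDiffAt_radialWeight (k := 2) hy0) (m := 1) (by norm_num) i).continuousAt
    have H : ∀ i j, ContinuousAt (pd j (pd i v)) y := fun i j =>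
      (contDiffAt_pd (contDiffAt_pd hy3 (m := 2) (by norm_num) i) (m := 1) (by norm_num)
        j).continuousAt
    have s1 : ∀ {f : Fin d → Euc d → ℝ}, (∀ i, ContinuousAt (f i) y) →
        ContinuousAt (fun z => ∑ i, f i z) y := fun hf => tendsto_finsetSum _ fun i _ => hf i
    have hden : (4 : ℝ) * h y ≠ 0 := mul_ne_zero (by norm_num) (radialWeight_pos hy0).ne'
    exact (((s1 fun i => ((p i).pow 2).div (continuousAt_const.mul hr) hden).sub
      (hr.mul (s1 fun i => s1 fun j => (H i j).pow 2))).sub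
      (s1 fun k => (p k).mul (contDiffAt_hessGrad hu hW hsub hv hvu (hKW hy) k).continuousAt))
      |>.continuousWithinAt
  have hRi : IntegrableOn R S := (hRc.integrableOn_compact hKc).mono_set hSK
  have hqi : IntegrableOn q S := ((hq.mono hKW).integrableOn_compact hKc).mono_set hSK
  have key : ∀ η : ℝ, 0 < η → 0 ≤ (∫ x in S, q x) + η * ∫ x in S, R x := by
    intro η hη
    set G : Euc d → ℝ := fun x => F x + η * h x with hG
    have hGd : ∀ {x}, x ∈ W → x ≠ 0 → ContDiffAt ℝ 2 G x := fun hx hx0 =>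
      (hF.contDiffAt (hW.mem_nhds hx)).add
        (contDiffAt_const.mul (contDiffAt_radialWeight hx0))
    set W' := (W \ {0}) ∩ G ⁻¹' Set.Ioi 0 with hW'def
    have hW0 : IsOpen (W \ {0}) := hW.sdiff isClosed_singleton
    have hW' : IsOpen W' := by
      have hc : ContinuousOn G (W \ {0}) := fun x hx =>
        (hGd hx.1 hx.2).continuousAt.continuousWithinAt
      exact hc.isOpen_inter_preimage hW0 isOpen_Ioi
    have hsub' : closure (posSet u) \ {0} ⊆ W' := by
      intro x hx
      have hxW := hsub hx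
      refine ⟨⟨hxW, hx.2⟩, ?_⟩
      have hFx : 0 ≤ F x := by
        have : (𝓝[posSet u] x).NeBot := mem_closure_iff_nhdsWithin_neBot.1 hx.1
        exact ge_of_tendsto ((hF.continuousOn.continuousAt (hW.mem_nhds hxW)).mono_left
          nhdsWithin_le_nhds) (eventually_nhdsWithin_of_forall hF0)
      exact add_pos_of_nonneg_of_pos hFx (mul_pos hη (radialWeight_pos hx.2))
    have hv' : ContDiffOn ℝ ∞ v W' := hv.mono fun x hx => hx.1.1
    set f : Euc d → ℝ := fun x => Real.sqrt (G x) with hf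
    have hfd : ContDiffOn ℝ 2 f W' := fun x hx =>
      ((hGd hx.1.1 hx.1.2).sqrt hx.2.ne').contDiffWithinAt
    have hfh : HomOn u ((2 - (d : ℝ)) / 2) f := fun x hx r hr => by
      simp only [hf, hG]
      rw [hFh x hx r hr, hh, radialWeight_smul hr, ← mul_left_comm, ← mul_add,
        Real.sqrt_mul (Real.rpow_nonneg hr.le _), Real.sqrt_eq_rpow, ← Real.rpow_mul hr.le]
      ring_nf
    set U : Fin d → Euc d → ℝ := fun k x => V k x + F x * hessGrad v k x with hU
    have hUd : ∀ k, ContDiffOn ℝ 1 (U k) W' := fun k x hx =>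
      (((hV k).contDiffAt (hW.mem_nhds hx.1.1)).add
        (((hF.contDiffAt (hW.mem_nhds hx.1.1)).of_le (by norm_num)).mul
          (contDiffAt_hessGrad hu hW hsub hv hvu hx.1.1 k))).contDiffWithinAt
    have hUh : ∀ k, HomOn u (1 - (d : ℝ)) (U k) := fun k x hx r hr => by
      simp only [hU]
      rw [hVh k x hx r hr, hFh x hx r hr, homOn_hessGrad hu hW hsub hv hvu k x hx r hr,
        show 1 - (d : ℝ) = (2 - (d : ℝ)) + (-1) by ring, Real.rpow_add hr]
      ring
    have hUf : ∀ x ∈ frontier (posSet u), x ≠ 0 → ∑ k, U k x * pd k v x ≤ 0 := fun x hx hx0 => by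
      refine le_trans (le_of_eq ?_) (hflux x hx hx0)
      simp only [hU, add_mul, Finset.sum_add_distrib, Finset.mul_sum]
      congr 1
      exact Finset.sum_congr rfl fun k _ => by ring
    have h1 := shell_integral_nonneg hu hW' hsub' hv' hvu hmin hbd hfd hfh hUd hUh hUf
    have hpt : ∀ x ∈ posSet u, certDensity u f U x ≤ q x + η * R x := by
      intro x hx
      have hxW : x ∈ W' := posSet_subset hu hsub' hx
      have hx0 : x ≠ 0 := hxW.1.2
      have hv3 : ContDiffAt ℝ 3 v x := (hv'.contDiffAt (hW'.mem_nhds hxW)).of_le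
        (WithTop.coe_le_coe.2 le_top)
      have hdf : DifferentiableAt ℝ f x :=
        (hfd.contDiffAt (hW'.mem_nhds hxW)).differentiableAt (by norm_num)
      have hdF : DifferentiableAt ℝ F x :=
        (hF.contDiffAt (hW.mem_nhds hxW.1.1)).differentiableAt (by norm_num)
      have hdh : DifferentiableAt ℝ h x :=
        (contDiffAt_radialWeight (k := 1) hx0).differentiableAt one_ne_zero
      have hdV : ∀ k, DifferentiableAt ℝ (V k) x := fun k =>
        ((hV k).contDiffAt (hW.mem_nhds hxW.1.1)).differentiableAt one_ne_zero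
      have hdHg : ∀ k, DifferentiableAt ℝ (hessGrad v k) x := fun k =>
        (contDiffAt_hessGrad hu hW hsub hv hvu hxW.1.1 k).differentiableAt one_ne_zero
      have hfpos : 0 < f x := Real.sqrt_pos.2 hxW.2
      have hfG : f x * f x = G x := Real.mul_self_sqrt (le_of_lt hxW.2)
      have hpG : ∀ k, pd k F x + η * pd k h x = 2 * f x * pd k f x := fun k => by
        have e : (fun y => f y * f y) =ᶠ[𝓝 x] G := by
          filter_upwards [hW'.mem_nhds hxW] with y hy
          exact Real.mul_self_sqrt (le_of_lt hy.2)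
        have e2 := pd_congr e k
        rw [pd_mul k hdf hdf, hG, pd_add k hdF ((differentiableAt_const η).fun_mul hdh),
          pd_mul k (differentiableAt_const η) hdh, pd_const, zero_mul, zero_add] at e2
        linarith
      have hHg := sum_pd_hessGrad hv3 (by
        filter_upwards [(isOpen_posSet hu).mem_nhds hx] with y hy
        exact laplace_eq_zero hu hW hsub hv hvu (subset_closure hy) (ne_zero_of_mem_posSet hu hy))
      rw [certDensity, stabDensity_congr_left (eventuallyEq_of_mem_posSet hu hvu hx), stabDensity]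
      have e3 : ∀ k, pd k (U k) x
          = pd k (V k) x + (pd k F x * hessGrad v k x + F x * pd k (hessGrad v k) x) := fun k => by
        rw [hU, pd_add k (hdV k) (hdF.fun_mul (hdHg k)), pd_mul k hdF (hdHg k)]
      simp only [e3, Finset.sum_add_distrib, ← Finset.mul_sum, hHg]
      set D := ∑ i, ∑ j, pd j (pd i v) x ^ 2 with hD
      have e4 : 2 * f x * ∑ i, ∑ j, pd i v x * pd j (pd i v) x * pd j f x
          = ∑ k, pd k F x * hessGrad v k x + η * ∑ k, pd k h x * hessGrad v k x := by
        rw [Finset.mul_sum (a := η), ← Finset.sum_add_distrib, Finset.sum_comm, Finset.mul_sum]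
        refine Finset.sum_congr rfl fun k _ => ?_
        rw [← mul_assoc η, ← add_mul, hpG k, hessGrad, Finset.mul_sum, Finset.mul_sum]
        exact Finset.sum_congr rfl fun i _ => by ring
      set y : Fin d → ℝ := fun i => pd i f x / f x with hy
      have e5 : ∑ i, pd i f x ^ 2 = (∑ i, y i * pd i F x - (∑ i, y i ^ 2) * F x)
          + η * ∑ i, (y i * pd i h x - y i ^ 2 * h x) := by
        rw [Finset.sum_mul, ← Finset.sum_sub_distrib, Finset.mul_sum, ← Finset.sum_add_distrib]
        refine Finset.sum_congr rfl fun i _ => ?_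
        have hG' : f x * f x = F x + η * h x := hfG
        have e : y i * f x = pd i f x := div_mul_cancel₀ _ hfpos.ne'
        linear_combination (- y i ^ 2) * hG' + (- y i) * hpG i
          + (y i * f x - pd i f x) * e
      have e6 : ∑ i, (y i * pd i h x - y i ^ 2 * h x) ≤ ∑ i, pd i h x ^ 2 / (4 * h x) := by
        refine Finset.sum_le_sum fun i _ => ?_
        have hp : 0 < h x := radialWeight_pos hx0
        rw [le_div_iff₀ (by positivity)]
        nlinarith [sq_nonneg (2 * h x * y i - pd i h x)]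
      have e7 := hcert x hx y
      have hRx : R x = ∑ i, pd i h x ^ 2 / (4 * h x) - h x * D
          - ∑ k, pd k h x * hessGrad v k x := rfl
      have hG' : f x ^ 2 = F x + η * h x := by rw [sq]; exact hfG
      rw [e4, e5, hG', hRx]
      nlinarith [mul_le_mul_of_nonneg_left e6 hη.le]
    have hc : IntegrableOn (certDensity v f U) S := by
      refine (ContinuousOn.integrableOn_compact hKc fun y hy => ?_).mono_set hSK
      have hyW : y ∈ W' := hsub' ⟨hy.1, hK0 y hy⟩
      have hy3 : ContDiffAt ℝ 3 v y := (hv'.contDiffAt (hW'.mem_nhds hyW)).of_le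
        (WithTop.coe_le_coe.2 le_top)
      have hfy : ContDiffAt ℝ 2 f y := hfd.contDiffAt (hW'.mem_nhds hyW)
      have g : ∀ i, ContinuousAt (pd i v) y := fun i =>
        (contDiffAt_pd hy3 (m := 2) (by norm_num) i).continuousAt
      have H : ∀ i j, ContinuousAt (pd j (pd i v)) y := fun i j =>
        (contDiffAt_pd (contDiffAt_pd hy3 (m := 2) (by norm_num) i) (m := 1) (by norm_num)
          j).continuousAt
      have p : ∀ i, ContinuousAt (pd i f) y := fun i =>
        (contDiffAt_pd hfy (m := 1) (by norm_num) i).continuousAt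
      have r : ∀ i, ContinuousAt (pd i (U i)) y := fun i =>
        (contDiffAt_pd ((hUd i).contDiffAt (hW'.mem_nhds hyW)) (m := 0) (by norm_num)
          i).continuousAt
      have s1 : ∀ {f : Fin d → Euc d → ℝ}, (∀ i, ContinuousAt (f i) y) →
          ContinuousAt (fun z => ∑ i, f i z) y := fun hf => tendsto_finsetSum _ fun i _ => hf i
      exact ((((s1 fun i => (p i).pow 2).sub ((hfy.continuousAt.pow 2).mul
        (s1 fun i => s1 fun j => (H i j).pow 2))).sub
        ((continuousAt_const.mul hfy.continuousAt).mul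
          (s1 fun i => s1 fun j => ((g i).mul (H i j)).mul (p j)))).add
        (s1 r)).continuousWithinAt
    have hc' : IntegrableOn (certDensity u f U) S := hc.congr_fun (fun x hx => by
      simp [certDensity, stabDensity_congr_left (eventuallyEq_of_mem_posSet hu hvu hx.2)]) hSm
    rw [← integral_const_mul, ← integral_add hqi (hRi.const_mul η)]
    exact h1.trans (setIntegral_mono_on hc' (hqi.add (hRi.const_mul η)) hSm fun x hx =>
      hpt x hx.2)
  have hq1 : 0 ≤ ∫ x in S, q x := by
    refine le_of_forall_pos_le_add fun ε hε => ?_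
    have hb : 0 < |∫ x in S, R x| + 1 := by positivity
    have h1 := key (ε / (|∫ x in S, R x| + 1)) (div_pos hε hb)
    have h2 : ε / (|∫ x in S, R x| + 1) * ∫ x in S, R x ≤ ε := by
      rw [div_mul_eq_mul_div, div_le_iff₀ hb]
      nlinarith [le_abs_self (∫ x in S, R x)]
    linarith
  have hzero : ∫ x in S, -q x = 0 := by
    refine le_antisymm ?_ (setIntegral_nonneg hSm fun x hx => neg_nonneg.2 (hq0 x hx.2))
    rw [integral_neg]
    linarith
  have hae := (setIntegral_eq_zero_iff_of_nonneg_ae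
    ((ae_restrict_iff' hSm).2 (Eventually.of_forall fun x hx => neg_nonneg.2 (hq0 x hx.2)))
    hqi.neg).1 hzero
  set O := posSet u ∩ {y : Euc d | 1 < ‖y‖ ∧ ‖y‖ < 2} with hO
  have hOo : IsOpen O := (isOpen_posSet hu).inter
    ((isOpen_lt continuous_const continuous_norm).inter
      (isOpen_lt continuous_norm continuous_const))
  have hOS : O ⊆ S := fun y hy => ⟨by
    simp only [shell, Set.mem_ofPred_eq, zpow_zero, zero_add, zpow_one]
    exact ⟨hy.2.1.le, hy.2.2⟩, hy.1⟩
  have hOz : Set.EqOn q (fun _ => 0) O := by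
    refine Measure.eqOn_open_of_ae_eq (μ := volume) ?_ hOo
      (hq.mono fun y hy => posSet_subset hu hsub hy.1) continuousOn_const
    have : ∀ᵐ y ∂volume.restrict O, -q y = 0 := ae_mono (Measure.restrict_mono hOS le_rfl) hae
    filter_upwards [this] with y hy
    simpa using hy
  exact fun x hx h1 h2 => hOz ⟨hx, h1, h2⟩

include hu hW hsub hv hvu in
/-- A certificate whose `q` detects the Hessian forces flatness. -/
theorem flat_of_certificate (hd : 2 ≤ d) (hmin : IsStable u)
    (hbd : ∀ x ∈ frontier (posSet u), x ≠ 0 → ‖fderiv ℝ v x‖ = 1)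
    {F : Euc d → ℝ} (hF : ContDiffOn ℝ 2 F W) (hF0 : ∀ x ∈ posSet u, 0 ≤ F x)
    (hFh : HomOn u (2 - (d : ℝ)) F)
    {V : Fin d → Euc d → ℝ} (hV : ∀ k, ContDiffOn ℝ 1 (V k) W)
    (hVh : ∀ k, HomOn u (1 - (d : ℝ)) (V k))
    (hflux : ∀ x ∈ frontier (posSet u), x ≠ 0 →
      ∑ k, V k x * pd k v x + F x * ∑ k, hessGrad v k x * pd k v x ≤ 0)
    {q : Euc d → ℝ} (hq : ContinuousOn q W) (hq0 : ∀ x ∈ posSet u, q x ≤ 0)
    (hcert : ∀ x ∈ posSet u, ∀ y : Fin d → ℝ,
      ∑ i, y i * pd i F x - (∑ i, y i ^ 2) * F x + ∑ k, pd k (V k) x ≤ q x)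
    (hdet : ∀ x ∈ posSet u, q x = 0 → ∀ i j, pd j (pd i v) x = 0) :
    (∀ x, u x = 0) ∨ ∃ e : Euc d, ‖e‖ = 1 ∧ ∀ x, u x = max ⟪e, x⟫ 0 := by
  refine flat_of_hessian_zero hd hu fun x hx i j => ?_
  have hn : 0 < ‖x‖ := norm_pos_iff.2 (ne_zero_of_mem_posSet hu hx)
  set r := (3 / 2 : ℝ) / ‖x‖ with hr
  have hr0 : 0 < r := by positivity
  have hnr : ‖r • x‖ = 3 / 2 := by
    rw [norm_smul, Real.norm_eq_abs, abs_of_pos hr0, hr, div_mul_cancel₀ _ hn.ne']
  have hrx := smul_mem_posSet hu hx hr0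
  have h0 := hdet _ hrx (certificate_eq_zero hu hW hsub hv hvu hmin hbd hF hF0 hFh hV hVh hflux
    hq hq0 hcert _ hrx (by rw [hnr]; norm_num) (by rw [hnr]; norm_num)) i j
  rw [hessian_smul hu hW hsub hv hvu hx hr0] at h0
  have hxv : pd j (pd i v) x = 0 := (mul_eq_zero.1 h0).resolve_left (inv_ne_zero hr0.ne')
  rw [← hxv]
  exact pd_congr (by
    filter_upwards [(eventuallyEq_of_mem_posSet hu hvu hx).eventually_nhds] with y hy
    exact pd_congr hy i) j

end Vale.Agent.P098
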