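import Vale.Agent.P098.Variation

/-!
P098: a minimizing smooth cone is stable.
-/

open MeasureTheory Filter Matrix
open scoped Topology ContDiff

namespace Vale.Agent.P098

variable {d : ℕ}

lemma stabDensity_congr_left {u v φ : Euc d → ℝ} {x : Euc d} (h : u =ᶠ[𝓝 x] v) :
    stabDensity u φ x = stabDensity v φ x := by
  have h1 : ∀ i, pd i u =ᶠ[𝓝 x] pd i v := fun i => by
    filter_upwards [h.eventually_nhds] with y hy
    exact pd_congr hy i
  simp only [stabDensity, fun i => (h1 i).eq_of_nhds, fun i j => pd_congr (h1 i) j]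

lemma stabDensity_congr_right {v φ ψ : Euc d → ℝ} {x : Euc d} (h : φ =ᶠ[𝓝 x] ψ) :
    stabDensity v φ x = stabDensity v ψ x := by
  simp only [stabDensity, h.eq_of_nhds, fun i => pd_congr h i]

lemma jac_eq_zero {X : Fin d → Euc d → ℝ} {x : Euc d} (hx : x ∉ ⋃ i, tsupport (X i)) :
    jac X x = 0 := by
  ext i j
  exact pd_eq_zero_of_eventually (notMem_tsupport_iff_eventuallyEq.1
    fun h => hx (Set.mem_iUnion.2 ⟨i, h⟩)) j

lemma dens_nonneg (g : Fin d → ℝ) {B : Matrix (Fin d) (Fin d) ℝ} {t : ℝ}
    (h : 0 < det (1 + t • B)) : 0 ≤ dens g B t :=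
  mul_nonneg h.le (add_nonneg (Finset.sum_nonneg fun _ _ => mul_self_nonneg _) zero_le_one)

lemma second_zero (g : Fin d → ℝ) : second g 0 = 0 := by
  simp [second]

variable {u v : Euc d → ℝ} {W : Set (Euc d)} (hu : IsSmoothCone u) (hW : IsOpen W)
  (hsub : closure (posSet u) \ {0} ⊆ W) (hv : ContDiffOn ℝ ∞ v W)
  (hvu : Set.EqOn v u (posSet u))

include hu hsub hv hvu in
lemma hasFDerivAt_of_mem {x : Euc d} (hx : x ∈ posSet u) :
    HasFDerivAt u (fderiv ℝ v x) x := by
  rw [← (eventuallyEq_of_mem_posSet hu hvu hx).fderiv_eq]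
  exact ((contDiffAt_of_mem_posSet hu hsub hv hvu hx (k := 1)
    (WithTop.coe_le_coe.2 le_top)).differentiableAt one_ne_zero).hasFDerivAt

include hu in
lemma smul_mem_posSet {x : Euc d} (hx : x ∈ posSet u) {r : ℝ} (hr : 0 < r) :
    r • x ∈ posSet u := by
  show 0 < u (r • x)
  rw [hu.homogeneous r hr x]
  exact mul_pos hr hx

include hu hsub hv hvu in
/-- Euler's identity. -/
lemma fderiv_self {x : Euc d} (hx : x ∈ posSet u) : fderiv ℝ v x x = u x := by
  have h1 : HasDerivAt (fun r : ℝ => r • x) x 1 := by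
    simpa using (hasDerivAt_id (1 : ℝ)).smul_const x
  have hf : HasFDerivAt u (fderiv ℝ v x) ((1 : ℝ) • x) := by
    rw [one_smul]
    exact hasFDerivAt_of_mem hu hsub hv hvu hx
  have h2 : HasDerivAt (fun r : ℝ => u (r • x)) (fderiv ℝ v x x) 1 :=
    hf.comp_hasDerivAt (1 : ℝ) h1
  have h3 : HasDerivAt (fun r : ℝ => u (r • x)) (u x) 1 := by
    refine HasDerivAt.congr_of_eventuallyEq (f := fun r : ℝ => r * u x) ?_ ?_
    · simpa using (hasDerivAt_id (1 : ℝ)).mul_const (u x)
    · filter_upwards [lt_mem_nhds (show (0 : ℝ) < 1 from one_pos)] with r hr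
      exact hu.homogeneous r hr x
  exact h2.unique h3

include hu hsub hv hvu in
/-- The gradient is homogeneous of degree zero. -/
lemma fderiv_smul_eq {x : Euc d} (hx : x ∈ posSet u) {r : ℝ} (hr : 0 < r) :
    fderiv ℝ v (r • x) = fderiv ℝ v x := by
  have h1 : HasFDerivAt (fun y : Euc d => u (r • y))
      ((fderiv ℝ v (r • x)).comp (r • ContinuousLinearMap.id ℝ (Euc d))) x :=
    (hasFDerivAt_of_mem hu hsub hv hvu (smul_mem_posSet hu hx hr)).comp x
      ((hasFDerivAt_id x).const_smul r)
  have h2 : HasFDerivAt (fun y : Euc d => u (r • y)) (r • fderiv ℝ v x) x :=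
    ((hasFDerivAt_of_mem hu hsub hv hvu hx).const_mul r).congr_of_eventuallyEq
      (Eventually.of_forall fun y => hu.homogeneous r hr y)
  have h3 := h1.unique h2
  ext z
  have h4 := congrArg (fun L : Euc d →L[ℝ] ℝ => L z) h3
  simp at h4
  exact h4.resolve_right hr.ne'

include hu hW hsub hv hvu in
lemma exists_gradSq_bound : ∃ C, ∀ x ∈ posSet u, gradSq v x ≤ C := by
  have hK : IsCompact (closure (posSet u) ∩ Metric.sphere (0 : Euc d) 1) :=
    (isCompact_sphere _ _).inter_left isClosed_closure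
  have hc : ContinuousOn (gradSq v) (closure (posSet u) ∩ Metric.sphere (0 : Euc d) 1) := by
    have hp : ∀ i, ContinuousOn (pd i v) W := fun i =>
      ((hv.fderiv_of_isOpen hW (m := 1) (WithTop.coe_le_coe.2 le_top)).clm_apply
        contDiffOn_const).continuousOn
    refine (continuousOn_finsetSum _ fun i _ => (hp i).mul (hp i)).mono fun x hx => hsub ⟨hx.1, ?_⟩
    rintro rfl
    simpa using hx.2
  obtain ⟨C, hC⟩ := hK.exists_bound_of_continuousOn hc
  refine ⟨C, fun x hx => ?_⟩
  have hn : 0 < ‖x‖ := norm_pos_iff.2 (ne_zero_of_mem_posSet hu hx)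
  have hy : ‖x‖⁻¹ • x ∈ closure (posSet u) ∩ Metric.sphere (0 : Euc d) 1 :=
    ⟨subset_closure (smul_mem_posSet hu hx (inv_pos.2 hn)), by
      simp [norm_smul, hn.ne']⟩
  have h := le_trans (le_abs_self _) (hC _ hy)
  rwa [← norm_fderiv_sq, fderiv_smul_eq hu hsub hv hvu hx (inv_pos.2 hn), norm_fderiv_sq] at h

include hu hsub hv hvu hW in
lemma laplace_eq_zero {x : Euc d} (hx : x ∈ closure (posSet u)) (hx0 : x ≠ 0) :
    ∑ i, pd i (pd i v) x = 0 := by
  have hxW : x ∈ W := hsub ⟨hx, hx0⟩
  have hpd : ∀ i, ContinuousAt (pd i (pd i v)) x := fun i =>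
    (contDiffAt_pd (contDiffAt_pd ((hv.contDiffAt (hW.mem_nhds hxW)).of_le
      (WithTop.coe_le_coe.2 le_top)) (m := 1) (n := 2) le_rfl i) (m := 0) le_rfl i).continuousAt
  have : (𝓝[posSet u] x).NeBot := mem_closure_iff_nhdsWithin_neBot.1 hx
  refine tendsto_nhds_unique (f := fun y => ∑ i, pd i (pd i v) y) (l := 𝓝[posSet u] x)
    ((tendsto_finsetSum _ fun i _ => hpd i).mono_left nhdsWithin_le_nhds) ?_
  refine tendsto_const_nhds.congr' (eventually_nhdsWithin_of_forall fun y hy => ?_)
  have h1 : ∀ i, pd i u =ᶠ[𝓝 y] pd i v := fun i => by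
    filter_upwards [(eventuallyEq_of_mem_posSet hu hvu hy).eventually_nhds] with z hz
    exact pd_congr hz i
  rw [← hu.harmonic y hy]
  exact Finset.sum_congr rfl fun i _ => pd_congr (h1 i) i

include hu hW hsub hv hvu in
lemma continuousOn_dens {X : Fin d → Euc d → ℝ} (hX : ∀ i, ContDiff ℝ 1 (X i)) {t : ℝ}
    (hdet : ∀ x, 0 < det (1 + t • jac X x)) :
    ContinuousOn (fun x => dens (gradVec v x) (jac X x) t) W := by
  have _ := hvu
  have _ := hsub
  have _ := hu
  have hM : Continuous fun x => 1 + t • jac X x :=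
    continuous_const.add ((continuous_pi fun i => continuous_pi fun j =>
      continuous_pd (hX i) j).const_smul t)
  have hinv : Continuous fun x => (1 + t • jac X x)⁻¹ := by
    refine continuous_iff_continuousAt.2 fun x => ?_
    refine ContinuousAt.comp (g := Inv.inv) ?_ hM.continuousAt
    refine continuousAt_matrix_inv _ ?_
    rw [Ring.inverse_eq_inv']
    exact continuousAt_inv₀ (hdet x).ne'
  have hg : ContinuousOn (gradVec v) W := continuousOn_pi.2 fun i =>
    ((hv.fderiv_of_isOpen hW (m := 1) (WithTop.coe_le_coe.2 le_top)).clm_apply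
      contDiffOn_const).continuousOn
  have hvm : ContinuousOn (fun x => gradVec v x ᵥ* (1 + t • jac X x)⁻¹) W :=
    (continuous_fst.matrix_vecMul continuous_snd).comp_continuousOn
      (hg.prodMk hinv.continuousOn)
  exact hM.matrix_det.continuousOn.mul
    (((continuous_fst.dotProduct continuous_snd).comp_continuousOn (hvm.prodMk hvm)).add
      continuousOn_const)

include hu hW hsub hv hvu in
/-- The second inner variation of a minimizer is nonnegative. -/
theorem integral_second_nonneg (hmin : IsMinimizer u) {X : Fin d → Euc d → ℝ}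
    (hX : ∀ i, IsTest W 2 (X i)) :
    0 ≤ ∫ x in posSet u, second (gradVec v x) (jac X x) := by
  set S := ⋃ i, tsupport (X i) with hSdef
  have hS : IsCompact S := isCompact_iUnion fun i => (hX i).hasCompactSupport.isCompact
  have hX1 : ∀ i, ContDiff ℝ 1 (X i) := fun i => (hX i).contDiff.of_le (by norm_num)
  have hJ : Continuous (jac X) :=
    continuous_pi fun i => continuous_pi fun j => continuous_pd (hX1 i) j
  obtain ⟨R, hR⟩ := hS.isBounded.subset_ball (0 : Euc d)
  set B : Set (Euc d) := Metric.ball (0 : Euc d) R with hBdef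
  set Ω := B ∩ posSet u with hΩdef
  have hΩ : IsOpen Ω := Metric.isOpen_ball.inter (isOpen_posSet hu)
  have hvol : volume Ω < ⊤ := (Metric.isBounded_ball.subset Set.inter_subset_left).measure_lt_top
  have hΩW : Ω ⊆ W := fun x hx => posSet_subset hu hsub hx.2
  set K := S ∩ closure (posSet u) with hKdef
  have hK : IsCompact K := hS.inter_right isClosed_closure
  have hKW : K ⊆ W := fun x hx => by
    obtain ⟨i, hi⟩ := Set.mem_iUnion.1 hx.1
    exact ((hX i).subset hi).1
  have hgood : ∀ᶠ t : ℝ in 𝓝 0, (∀ x, 0 < det (1 + t • jac X x)) ∧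
      ∃ e : Euc d ≃ₜ Euc d, ⇑e = deform X t :=
    (eventually_det_pos fun i => ⟨hX1 i, (hX i).hasCompactSupport,
      fun x hx => ⟨trivial, ((hX i).subset hx).2⟩⟩).and
      (eventually_homeomorph hX1 fun i => (hX i).hasCompactSupport)
  obtain ⟨δ, hδ, hδg⟩ := Metric.nhds_basis_closedBall.eventually_iff.1 hgood
  obtain ⟨C, hC⟩ := exists_gradSq_bound hu hW hsub hv hvu
  have hzero : ∀ x, x ∉ S → ∀ t, dens (gradVec v x) (jac X x) t = gradSq v x + 1 := by
    intro x hx t
    simp [dens, jac_eq_zero hx, gradSq, gradVec, dotProduct]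
  have hint : ∀ t : ℝ, (∀ x, 0 < det (1 + t • jac X x)) →
      IntegrableOn (fun x => dens (gradVec v x) (jac X x) t) Ω := by
    intro t ht
    have hc := continuousOn_dens hu hW hsub hv hvu hX1 ht
    obtain ⟨M, hM⟩ := hK.exists_bound_of_continuousOn (hc.mono hKW)
    refine IntegrableOn.of_bound hvol ((hc.mono hΩW).aestronglyMeasurable hΩ.measurableSet)
      (max M (C + 1)) ((ae_restrict_iff' hΩ.measurableSet).2 (Eventually.of_forall fun x hx => ?_))
    by_cases hxS : x ∈ S
    · exact le_max_of_le_left (hM x ⟨hxS, subset_closure hx.2⟩)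
    · refine le_max_of_le_right ?_
      rw [Real.norm_eq_abs, abs_of_nonneg (dens_nonneg _ (ht x)), hzero x hxS]
      linarith [hC x hx.2]
  have hmin' : ∀ t ∈ Metric.closedBall (0 : ℝ) δ,
      ∫ x in Ω, dens (gradVec v x) (jac X x) 0 ≤ ∫ x in Ω, dens (gradVec v x) (jac X x) t := by
    intro t ht
    obtain ⟨hdet, e, he⟩ := hδg ht
    have hdet0 : ∀ x, 0 < det (1 + (0 : ℝ) • jac X x) := fun x => by simp
    have hcd : ∀ x ∈ posSet u, ContDiffAt ℝ 1 u x := fun x hx =>
      contDiffAt_of_mem_posSet hu hsub hv hvu hx (WithTop.coe_le_coe.2 le_top)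
    have hfix : ∀ x, x ∉ S → vecField X x = 0 := fun x hx => PiLp.ext fun i =>
      image_eq_zero_of_notMem_tsupport (f := X i) fun h => hx (Set.mem_iUnion.2 ⟨i, h⟩)
    have hm := hmin 0 R (fun y => u (e.symm y)) (hu.continuous.comp e.symm.continuous)
      (fun y => hu.nonneg _) (contDiffOn_deformed he hX1 hdet hcd)
      ⟨S, hS, hR, fun x hx => congrArg u (fix_of_zero he (hfix x hx)).2⟩
    rw [energy_deformed (v := v) he hX1 hdet hu.continuous hcd
      (fun x hx => (hasFDerivAt_of_mem hu hsub hv hvu hx).fderiv) Metric.isOpen_ball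
      (fun x hx => hfix x fun h => hx (hR h))] at hm
    have h0 : energy u B = ∫⁻ x in Ω, ENNReal.ofReal (dens (gradVec v x) (jac X x) 0) := by
      refine setLIntegral_congr_fun hΩ.measurableSet fun x hx => ?_
      simp [dens, gradVec, dotProduct, (hasFDerivAt_of_mem hu hsub hv hvu hx.2).fderiv,
        norm_fderiv_sq, gradSq]
    rw [h0, ← ofReal_integral_eq_lintegral_ofReal (hint 0 hdet0)
        (Eventually.of_forall fun x => dens_nonneg _ (hdet0 x)),
      ← ofReal_integral_eq_lintegral_ofReal (hint t hdet)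
        (Eventually.of_forall fun x => dens_nonneg _ (hdet x))] at hm
    exact (ENNReal.ofReal_le_ofReal_iff (setIntegral_nonneg hΩ.measurableSet
      fun x _ => dens_nonneg _ (hdet x))).1 hm
  have hsymm : ∀ t ∈ Metric.closedBall (0 : ℝ) δ, t ≠ 0 →
      0 ≤ ∫ x in Ω, symQuot (gradVec v x) (jac X x) t := by
    intro t ht ht0
    have ht' : -t ∈ Metric.closedBall (0 : ℝ) δ := by simpa using ht
    have hd : ∀ x, 0 < det (1 + (0 : ℝ) • jac X x) := fun x => by simp
    have he : (fun x => symQuot (gradVec v x) (jac X x) t) = fun x => (t ^ 2)⁻¹ *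
        (dens (gradVec v x) (jac X x) t + dens (gradVec v x) (jac X x) (-t)
          - 2 * dens (gradVec v x) (jac X x) 0) := funext fun x => by
      rw [symQuot_eq _ _ t ((hδg ht).1 x).ne' ((hδg ht').1 x).ne', inv_mul_cancel_left₀
        (pow_ne_zero 2 ht0)]
    have i1 := hint t (hδg ht).1
    have i2 := hint (-t) (hδg ht').1
    have i0 := hint 0 hd
    rw [he, integral_const_mul, integral_sub (f := fun x =>
        dens (gradVec v x) (jac X x) t + dens (gradVec v x) (jac X x) (-t)) (i1.add i2)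
      (i0.const_mul 2), integral_add i1 i2, integral_const_mul]
    refine mul_nonneg (inv_nonneg.2 (sq_nonneg t)) ?_
    linarith [hmin' t ht, hmin' (-t) ht']
  have hqc : ∀ x ∈ W, ∀ t ∈ Metric.closedBall (0 : ℝ) δ, ContinuousWithinAt
      (fun p : Euc d × ℝ => symQuot (gradVec v p.1) (jac X p.1) p.2)
      (W ×ˢ Metric.closedBall (0 : ℝ) δ) (x, t) := by
    intro x hx t ht
    have hg : ContinuousAt (gradVec v) x := continuousAt_pi.2 fun i =>
      (contDiffAt_pd ((hv.contDiffAt (hW.mem_nhds hx)).of_le (n := ∞) (m := 1)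
        (WithTop.coe_le_coe.2 le_top)) (m := 0) le_rfl i).continuousAt
    refine continuousAt_symQuot (g := fun p : Euc d × ℝ => gradVec v p.1)
      (B := fun p : Euc d × ℝ => jac X p.1) (τ := Prod.snd)
      (hg.comp' continuousAt_fst).continuousWithinAt
      (hJ.comp continuous_fst).continuousWithinAt continuous_snd.continuousWithinAt
      ((hδg ht).1 x).ne' ?_
    exact ((hδg (show -t ∈ Metric.closedBall (0 : ℝ) δ by simpa using ht)).1 x).ne'
  obtain ⟨M, hM⟩ := (hK.prod (isCompact_closedBall (0 : ℝ) δ)).exists_bound_of_continuousOn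
    (f := fun p : Euc d × ℝ => symQuot (gradVec v p.1) (jac X p.1) p.2)
    fun p hp => (hqc p.1 (hKW hp.1) p.2 hp.2).mono (Set.prod_mono hKW le_rfl)
  have hev : ∀ᶠ t : ℝ in 𝓝[≠] 0, t ∈ Metric.closedBall (0 : ℝ) δ ∧ t ≠ 0 :=
    (eventually_nhdsWithin_of_eventually_nhds (Metric.closedBall_mem_nhds 0 hδ)).and
      self_mem_nhdsWithin
  have hlim : Tendsto (fun t : ℝ => ∫ x in Ω, symQuot (gradVec v x) (jac X x) t) (𝓝[≠] 0)
      (𝓝 (∫ x in Ω, symQuot (gradVec v x) (jac X x) 0)) := by
    refine tendsto_integral_filter_of_dominated_convergence (fun _ => max M 0) ?_ ?_ ?_ ?_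
    · filter_upwards [hev] with t ht
      refine ContinuousOn.aestronglyMeasurable (fun x hx => ?_) hΩ.measurableSet
      exact ContinuousWithinAt.comp (f := fun y : Euc d => (y, t))
        (g := fun p : Euc d × ℝ => symQuot (gradVec v p.1) (jac X p.1) p.2)
        (hqc x (hΩW hx) t ht.1) (continuousWithinAt_id.prodMk continuousWithinAt_const)
        fun y hy => ⟨hΩW hy, ht.1⟩
    · filter_upwards [hev] with t ht
      refine (ae_restrict_iff' hΩ.measurableSet).2 (Eventually.of_forall fun x hx => ?_)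
      by_cases hxS : x ∈ S
      · exact le_max_of_le_left (hM (x, t) ⟨⟨hxS, subset_closure hx.2⟩, ht.1⟩)
      · refine le_max_of_le_right (le_of_eq ?_)
        have h := symQuot_eq (gradVec v x) (jac X x) t ((hδg ht.1).1 x).ne'
          ((hδg (show -t ∈ Metric.closedBall (0 : ℝ) δ by simpa using ht.1)).1 x).ne'
        rw [hzero x hxS, hzero x hxS, hzero x hxS] at h
        ring_nf at h
        rw [norm_eq_zero]
        rcases mul_eq_zero.1 h.symm with h' | h'
        · exact absurd h' (pow_ne_zero 2 ht.2)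
        · exact h'
    · exact integrableOn_const hvol.ne
    · refine Eventually.of_forall fun x => ?_
      have h : ContinuousWithinAt (fun t : ℝ => symQuot (gradVec v x) (jac X x) t) Set.univ 0 :=
        continuousAt_symQuot (g := fun _ : ℝ => gradVec v x) (B := fun _ : ℝ => jac X x)
          (τ := id) continuousWithinAt_const continuousWithinAt_const continuousWithinAt_id
          (by simp) (by simp)
      exact (continuousWithinAt_univ _ _ |>.1 h).tendsto.mono_left nhdsWithin_le_nhds
  have h0 : 0 ≤ ∫ x in Ω, symQuot (gradVec v x) (jac X x) 0 :=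
    ge_of_tendsto hlim (hev.mono fun t ht => hsymm t ht.1 ht.2)
  simp only [symQuot_zero, integral_const_mul] at h0
  rw [setIntegral_eq_of_subset_of_forall_sdiff_eq_zero (isOpen_posSet hu).measurableSet
    (show Ω ⊆ posSet u from Set.inter_subset_right)]
  · linarith
  · intro x hx
    rw [jac_eq_zero fun h => hx.2 ⟨hR h, hx.1⟩, second_zero]

omit hu hW hsub hv hvu in
/-- A minimizing smooth cone is stable: the stability integral is nonnegative. -/
theorem stability (hu : IsSmoothCone u) (hmin : IsMinimizer u) {φ : Euc d → ℝ}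
    (hφ : ContDiff ℝ 2 φ) (hs : HasCompactSupport φ) (h0 : (0 : Euc d) ∉ tsupport φ) :
    IntegrableOn (stabDensity u φ) (posSet u) ∧ 0 ≤ ∫ x in posSet u, stabDensity u φ x := by
  obtain ⟨W, v, hW, hsub, hv, hvu, hbd⟩ := hu.smooth
  have hpdW : ∀ i, ContDiffOn ℝ ∞ (pd i v) W := fun i =>
    ((hv.fderiv_of_isOpen hW (m := ∞) le_rfl).clm_apply contDiffOn_const)
  have hgW : ContDiffOn ℝ ∞ (gradSq v) W :=
    ContDiffOn.sum fun i _ => (hpdW i).mul (hpdW i)
  set W' := W ∩ {x | gradSq v x ≠ 0} with hW'def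
  have hW' : IsOpen W' := hgW.continuousOn.isOpen_inter_preimage hW isOpen_compl_singleton
  have hv' : ContDiffOn ℝ ∞ v W' := hv.mono Set.inter_subset_left
  have hsub' : closure (posSet u) \ {0} ⊆ W' := by
    intro x hx
    refine ⟨hsub hx, ?_⟩
    show gradSq v x ≠ 0
    rw [← norm_fderiv_sq]
    refine pow_ne_zero 2 (norm_ne_zero_iff.2 fun h => ?_)
    by_cases hp : x ∈ posSet u
    · have he := fderiv_self hu hsub hv hvu hp
      rw [h] at he
      exact (ne_of_gt hp) he.symm
    · have := hbd x ⟨hx.1, fun hi => hp (interior_subset hi)⟩ hx.2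
      rw [h, norm_zero] at this
      exact zero_ne_one this
  -- localization
  set K0 := tsupport φ ∩ closure (posSet u) with hK0
  have hK0c : IsCompact K0 := hs.isCompact.inter_right isClosed_closure
  have hne : ∀ x ∈ K0, x ≠ 0 := fun x hx h => h0 (h ▸ hx.1)
  have hK0W : K0 ⊆ W' \ {0} := fun x hx => ⟨hsub' ⟨hx.2, hne x hx⟩, hne x hx⟩
  obtain ⟨L, hL, hKL, hLW⟩ :=
    exists_compact_between hK0c (hW'.sdiff isClosed_singleton) hK0W
  obtain ⟨η, hη, -, hη1⟩ := exists_eta hL hW' hLW
  set ψ : Euc d → ℝ := fun x => η x * φ x with hψdef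
  have hψ : IsTest W' 2 ψ := (hη.of_le (WithTop.coe_le_coe.2 le_top)).mul hW' hφ.contDiffOn
  have hψφ : ∀ x ∈ posSet u, ψ =ᶠ[𝓝 x] φ := by
    intro x hx
    by_cases hxs : x ∈ tsupport φ
    · filter_upwards [isOpen_interior.mem_nhds (hKL ⟨hxs, subset_closure hx⟩)] with y hy
      simp [hψdef, hη1 y (interior_subset hy)]
    · filter_upwards [notMem_tsupport_iff_eventuallyEq.1 hxs] with y hy
      simp [hψdef, hy]
  set X : Fin d → Euc d → ℝ := fun i x => ψ x * (pd i v x * (gradSq v x)⁻¹) with hXdef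
  have hX : ∀ i, IsTest W' 2 (X i) := fun i => hψ.mul hW'
    ((((hpdW i).mono Set.inter_subset_left).mul
      ((hgW.mono Set.inter_subset_left).inv fun x hx => hx.2)).of_le (WithTop.coe_le_coe.2 le_top))
  have h1 := integral_second_nonneg hu hW' hsub' hv' hvu hmin hX
  -- the divergence part has the wrong sign
  have hflux : ∀ x ∈ frontier (posSet u), x ≠ 0 →
      ∑ k, fluxField v X k x * pd k v x = 0 := by
    intro x hx hx0
    have hxW : x ∈ W' := hsub' ⟨hx.1, hx0⟩
    refine flux_eq_zero ((hv'.contDiffAt (hW'.mem_nhds hxW)).of_le (WithTop.coe_le_coe.2 le_top))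
      (hψ.contDiff.contDiffAt.of_le (by norm_num))
      (fun i => Eventually.of_forall fun y => (mul_assoc _ _ _).symm) ?_
      (laplace_eq_zero hu hW' hsub' hv' hvu hx.1 hx0)
    rw [← norm_fderiv_sq, hbd x hx hx0]
    norm_num
  have hZ : ∀ k, IsTest W' 1 (fluxField v X k) := isTest_fluxField hW' hv' hX
  have hdiv : ∫ x in posSet u, ∑ k, pd k (fluxField v X k) x ≤ 0 := by
    have hneg : ∀ k, IsTest W' 1 (fun x => fluxField v X k x * (-1)) := fun k =>
      (hZ k).mul hW' contDiffOn_const
    have h := integral_div_nonneg hu hW' hsub' hv' hvu hbd hneg fun x hx hx0 => by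
      simp [hflux x hx hx0]
    have e : ∀ x, ∑ k, pd k (fun y => fluxField v X k y * (-1)) x
        = -∑ k, pd k (fluxField v X k) x := fun x => by
      rw [← Finset.sum_neg_distrib]
      refine Finset.sum_congr rfl fun k _ => ?_
      rw [pd_mul k ((hZ k).contDiff.differentiable one_ne_zero x) (differentiableAt_const _),
        pd_const]
      ring
    simp only [e, integral_neg] at h
    linarith
  have hdivi : IntegrableOn (fun x => ∑ k, pd k (fluxField v X k) x) (posSet u) :=
    (integrable_finsetSum _ fun k _ => (continuous_pd (hZ k).contDiff k).integrable_of_hasCompactSupport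
      (hasCompactSupport_pd (hZ k).hasCompactSupport k)).integrableOn
  have hvi : IntegrableOn (stabDensity v φ) (posSet u) := by
    have hc : ContinuousOn (stabDensity v φ) W' := fun x hx => by
      have g : ∀ i, ContinuousAt (pd i v) x := fun i =>
        ((hpdW i).contDiffAt (hW.mem_nhds hx.1)).continuousAt
      have h : ∀ i j, ContinuousAt (pd j (pd i v)) x := fun i j =>
        (contDiffAt_pd ((hpdW i).contDiffAt (hW.mem_nhds hx.1)) (m := 0) (by simp) j).continuousAt
      have p : ∀ i, ContinuousAt (pd i φ) x := fun i =>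
        (continuous_pd (hφ.of_le (by norm_num)) i).continuousAt
      have s1 : ∀ {f : Fin d → Euc d → ℝ}, (∀ i, ContinuousAt (f i) x) →
          ContinuousAt (fun y => ∑ i, f i y) x := fun hf => tendsto_finsetSum _ fun i _ => hf i
      exact (((s1 fun i => (p i).pow 2).sub ((hφ.continuous.continuousAt.pow 2).mul
        (s1 fun i => s1 fun j => (h i j).pow 2))).sub
        ((continuousAt_const.mul hφ.continuous.continuousAt).mul
          (s1 fun i => s1 fun j => ((g i).mul (h i j)).mul (p j)))).continuousWithinAt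
    refine ((hc.mono fun x hx => (hK0W hx).1).integrableOn_compact hK0c).of_forall_sdiff_eq_zero
      (isOpen_posSet hu).measurableSet fun x hx => ?_
    have hxs : x ∉ tsupport φ := fun h => hx.2 ⟨h, subset_closure hx.1⟩
    rw [stabDensity_congr_right (notMem_tsupport_iff_eventuallyEq.1 hxs)]
    simp [stabDensity, pd]
  have hpt : ∀ x ∈ posSet u, second (gradVec v x) (jac X x)
      = stabDensity v φ x + ∑ k, pd k (fluxField v X k) x := by
    intro x hx
    have hxW : x ∈ W' := posSet_subset hu hsub' hx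
    rw [second_eq ((hv'.contDiffAt (hW'.mem_nhds hxW)).of_le (WithTop.coe_le_coe.2 le_top))
      (fun i => (hX i).contDiff.contDiffAt) ?_]
    · congr 1
      refine stabDensity_congr_right (EventuallyEq.trans ?_ (hψφ x hx))
      filter_upwards [hW'.mem_nhds hxW] with y hy
      have e : ∀ i, X i y * pd i v y = ψ y * ((gradSq v y)⁻¹ * (pd i v y * pd i v y)) := fun i => by
        simp only [hXdef]; ring
      simp only [normalPart, e, ← Finset.mul_sum]
      show ψ y * ((gradSq v y)⁻¹ * gradSq v y) = ψ y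
      rw [inv_mul_cancel₀ hy.2, mul_one]
    · filter_upwards [(isOpen_posSet hu).mem_nhds hx] with y hy
      exact laplace_eq_zero hu hW' hsub' hv' hvu (subset_closure hy) (ne_zero_of_mem_posSet hu hy)
  have huv : ∀ x ∈ posSet u, stabDensity v φ x = stabDensity u φ x := fun x hx =>
    (stabDensity_congr_left (eventuallyEq_of_mem_posSet hu hvu hx)).symm
  refine ⟨hvi.congr_fun huv (isOpen_posSet hu).measurableSet, ?_⟩
  rw [setIntegral_congr_fun (isOpen_posSet hu).measurableSet hpt,
    integral_add hvi hdivi] at h1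
  rw [← setIntegral_congr_fun (isOpen_posSet hu).measurableSet huv]
  linarith

omit hu hW hsub hv hvu in
theorem integrableOn_stabDensity (hu : IsSmoothCone u) {φ : Euc d → ℝ}
    (hφ : ContDiff ℝ 2 φ) (hs : HasCompactSupport φ) (h0 : (0 : Euc d) ∉ tsupport φ) :
    IntegrableOn (stabDensity u φ) (posSet u) := by
  obtain ⟨W, v, hW, hsub, hv, hvu, hbd⟩ := hu.smooth
  have hpdW : ∀ i, ContDiffOn ℝ ∞ (pd i v) W := fun i =>
    ((hv.fderiv_of_isOpen hW (m := ∞) le_rfl).clm_apply contDiffOn_const)
  set K0 := tsupport φ ∩ closure (posSet u) with hK0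
  have hK0c : IsCompact K0 := hs.isCompact.inter_right isClosed_closure
  have hK0W : K0 ⊆ W := fun x hx => hsub ⟨hx.2, fun h => h0 (h ▸ hx.1)⟩
  have hvi : IntegrableOn (stabDensity v φ) (posSet u) := by
    have hc : ContinuousOn (stabDensity v φ) W := fun x hx => by
      have g : ∀ i, ContinuousAt (pd i v) x := fun i =>
        ((hpdW i).contDiffAt (hW.mem_nhds hx)).continuousAt
      have h : ∀ i j, ContinuousAt (pd j (pd i v)) x := fun i j =>
        (contDiffAt_pd ((hpdW i).contDiffAt (hW.mem_nhds hx)) (m := 0) (by simp) j).continuousAt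
      have p : ∀ i, ContinuousAt (pd i φ) x := fun i =>
        (continuous_pd (hφ.of_le (by norm_num)) i).continuousAt
      have s1 : ∀ {f : Fin d → Euc d → ℝ}, (∀ i, ContinuousAt (f i) x) →
          ContinuousAt (fun y => ∑ i, f i y) x := fun hf => tendsto_finsetSum _ fun i _ => hf i
      exact (((s1 fun i => (p i).pow 2).sub ((hφ.continuous.continuousAt.pow 2).mul
        (s1 fun i => s1 fun j => (h i j).pow 2))).sub
        ((continuousAt_const.mul hφ.continuous.continuousAt).mul
          (s1 fun i => s1 fun j => ((g i).mul (h i j)).mul (p j)))).continuousWithinAt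
    refine ((hc.mono fun x hx => hK0W hx).integrableOn_compact hK0c).of_forall_sdiff_eq_zero
      (isOpen_posSet hu).measurableSet fun x hx => ?_
    have hxs : x ∉ tsupport φ := fun h => hx.2 ⟨h, subset_closure hx.1⟩
    rw [stabDensity_congr_right (notMem_tsupport_iff_eventuallyEq.1 hxs)]
    simp [stabDensity, pd]
  exact hvi.congr_fun (fun x hx => (stabDensity_congr_left
    (eventuallyEq_of_mem_posSet hu hvu hx)).symm) (isOpen_posSet hu).measurableSet

/-- Stability: the second variation is nonnegative. -/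
def IsStable (u : Euc d → ℝ) : Prop :=
  ∀ φ : Euc d → ℝ, ContDiff ℝ 2 φ → HasCompactSupport φ → (0 : Euc d) ∉ tsupport φ →
    0 ≤ ∫ x in posSet u, stabDensity u φ x

theorem IsMinimizer.isStable {u : Euc d → ℝ} (hu : IsSmoothCone u) (hmin : IsMinimizer u) :
    IsStable u := fun _ h1 h2 h3 => (stability hu hmin h1 h2 h3).2

end Vale.Agent.P098
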