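import Vale.Agent.P098.Flux

/-!
P098: the competitors `u ∘ (id + t X)⁻¹` and their energy.
-/

open MeasureTheory Filter Matrix
open scoped Topology ContDiff

namespace Vale.Agent.P098

variable {d : ℕ} {X : Fin d → Euc d → ℝ}

/-- The vector field with components `X`. -/
noncomputable def vecField (X : Fin d → Euc d → ℝ) (x : Euc d) : Euc d :=
  WithLp.toLp 2 fun i => X i x

/-- The deformation `id + t X`. -/
noncomputable def deform (X : Fin d → Euc d → ℝ) (t : ℝ) (x : Euc d) : Euc d :=
  x + t • vecField X x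

lemma contDiff_vecField {k : WithTop ℕ∞} (hX : ∀ i, ContDiff ℝ k (X i)) :
    ContDiff ℝ k (vecField X) :=
  contDiff_piLp' (p := 2) hX

lemma contDiff_deform {k : WithTop ℕ∞} (hX : ∀ i, ContDiff ℝ k (X i)) (t : ℝ) :
    ContDiff ℝ k (deform X t) :=
  contDiff_id.add ((contDiff_vecField hX).const_smul t)

lemma fderiv_vecField_apply (hX : ∀ i, ContDiff ℝ 1 (X i)) (x w : Euc d) (i : Fin d) :
    fderiv ℝ (vecField X) x w i = fderiv ℝ (X i) x w := by
  have h := (EuclideanSpace.proj (𝕜 := ℝ) i).hasFDerivAt.comp x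
    ((contDiff_vecField hX).differentiable one_ne_zero x).hasFDerivAt
  have e : fderiv ℝ (X i) x
      = (EuclideanSpace.proj (𝕜 := ℝ) i).comp (fderiv ℝ (vecField X) x) := h.fderiv
  rw [e]
  rfl

/-- The derivative of the deformation. -/
noncomputable def deformDeriv (X : Fin d → Euc d → ℝ) (t : ℝ) (x : Euc d) : Euc d →L[ℝ] Euc d :=
  ContinuousLinearMap.id ℝ (Euc d) + t • fderiv ℝ (vecField X) x

lemma hasFDerivAt_deform (hX : ∀ i, ContDiff ℝ 1 (X i)) (t : ℝ) (x : Euc d) :
    HasFDerivAt (deform X t) (deformDeriv X t x) x :=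
  (hasFDerivAt_id x).add
    (((contDiff_vecField hX).differentiable one_ne_zero x).hasFDerivAt.const_smul t)

lemma det_deformDeriv (hX : ∀ i, ContDiff ℝ 1 (X i)) (t : ℝ) (x : Euc d) :
    (deformDeriv X t x).det = det (1 + t • jac X x) := by
  rw [ContinuousLinearMap.det, ← LinearMap.det_toMatrix (EuclideanSpace.basisFun (Fin d) ℝ).toBasis]
  congr 1
  ext i j
  simp [LinearMap.toMatrix_apply, deformDeriv, fderiv_vecField_apply hX, jac, pd,
    Matrix.one_apply]

lemma clm_apply_eq_sum (L : Euc d →L[ℝ] ℝ) (z : Euc d) :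
    L z = ∑ i, z i * L (EuclideanSpace.single i 1) := by
  have h := (EuclideanSpace.basisFun (Fin d) ℝ).sum_repr z
  conv_lhs => rw [← h]
  simp

/-- Small deformations are homeomorphisms. -/
lemma eventually_homeomorph (hX : ∀ i, ContDiff ℝ 1 (X i))
    (hs : ∀ i, HasCompactSupport (X i)) :
    ∀ᶠ t : ℝ in 𝓝 0, ∃ e : Euc d ≃ₜ Euc d, ⇑e = deform X t := by
  have hcs : HasCompactSupport (vecField X) := by
    refine HasCompactSupport.of_support_subset_isCompact
      (isCompact_iUnion fun i => (hs i).isCompact) fun x hx => ?_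
    by_contra h
    refine hx (PiLp.ext fun i => ?_)
    exact image_eq_zero_of_notMem_tsupport (f := X i) fun hi => h (Set.mem_iUnion.2 ⟨i, hi⟩)
  obtain ⟨C, hC⟩ :=
    ContDiff.lipschitzWith_of_hasCompactSupport hcs (contDiff_vecField hX) one_ne_zero
  have hsmall : ∀ᶠ t : ℝ in 𝓝 0, ‖t‖₊ * C < 1 := by
    have : Tendsto (fun t : ℝ => ‖t‖₊ * C) (𝓝 0) (𝓝 (‖(0 : ℝ)‖₊ * C)) :=
      (continuous_nnnorm.mul continuous_const).tendsto 0
    exact this.eventually (gt_mem_nhds (by simp))
  filter_upwards [hsmall] with t ht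
  have happ : ApproximatesLinearOn (deform X t)
      ((ContinuousLinearEquiv.refl ℝ (Euc d) : Euc d ≃L[ℝ] Euc d) : Euc d →L[ℝ] Euc d)
      Set.univ (‖t‖₊ * C) := by
    refine ApproximatesLinearOn.approximatesLinearOn_iff_lipschitzOnWith.2 (LipschitzWith.lipschitzOnWith ?_)
    have e : deform X t - ⇑((ContinuousLinearEquiv.refl ℝ (Euc d) : Euc d ≃L[ℝ] Euc d) :
        Euc d →L[ℝ] Euc d) = fun x => t • vecField X x := by
      ext x
      simp [deform]
    rw [e]
    exact (lipschitzWith_smul t).comp hC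
  refine ⟨happ.toHomeomorph _ ?_, rfl⟩
  rcases subsingleton_or_nontrivial (Euc d) with h | h
  · exact Or.inl h
  · refine Or.inr ?_
    simpa using ht

lemma eventually_det_pos (hX : ∀ i, IsTest Set.univ 1 (X i)) :
    ∀ᶠ t : ℝ in 𝓝 0, ∀ x, 0 < det (1 + t • jac X x) := by
  have hS : IsCompact (⋃ i, tsupport (X i)) :=
    isCompact_iUnion fun i => (hX i).hasCompactSupport.isCompact
  have hc : Continuous fun p : ℝ × Euc d => det (1 + p.1 • jac X p.2) := by
    refine (continuous_const.add (continuous_fst.smul ?_)).matrix_det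
    exact (continuous_pi fun i => continuous_pi fun j =>
      continuous_pd (hX i).contDiff j).comp continuous_snd
  filter_upwards [hS.eventually_forall_of_forall_eventually (x₀ := (0 : ℝ))
    (P := fun t x => 0 < det (1 + t • jac X x)) fun y _ =>
      (hc.tendsto (0, y)).eventually (lt_mem_nhds (by simp))] with t ht x
  by_cases hx : x ∈ ⋃ i, tsupport (X i)
  · exact ht x hx
  · have hj : jac X x = 0 := by
      ext i j
      exact pd_eq_zero_of_eventually (notMem_tsupport_iff_eventuallyEq.1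
        fun h => hx (Set.mem_iUnion.2 ⟨i, h⟩)) j
    simp [hj]

variable {u v : Euc d → ℝ} {t : ℝ} {e : Euc d ≃ₜ Euc d}

lemma fix_of_zero (he : ⇑e = deform X t) {z : Euc d} (hz : vecField X z = 0) :
    e z = z ∧ e.symm z = z := by
  have h : e z = z := by rw [he, deform, hz, smul_zero, add_zero]
  refine ⟨h, ?_⟩
  conv_lhs => rw [← h, Homeomorph.symm_apply_apply]

lemma contDiff_symm_deform (he : ⇑e = deform X t) (hX : ∀ i, ContDiff ℝ 1 (X i))
    (hdet : ∀ x, 0 < det (1 + t • jac X x)) : ContDiff ℝ 1 e.symm := by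
  have h : ∀ a, (deformDeriv X t a).det ≠ 0 := fun a => by
    rw [det_deformDeriv hX]
    exact (hdet a).ne'
  refine e.contDiff_symm
    (f₀' := fun a => (deformDeriv X t a).toContinuousLinearEquivOfDetNeZero (h a)) (fun a => ?_)
    (he ▸ contDiff_deform hX t)
  rw [he, ContinuousLinearMap.coe_toContinuousLinearEquivOfDetNeZero]
  exact hasFDerivAt_deform hX t a

/-- The deformed function is `C¹` where positive. -/
lemma contDiffOn_deformed (he : ⇑e = deform X t) (hX : ∀ i, ContDiff ℝ 1 (X i))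
    (hdet : ∀ x, 0 < det (1 + t • jac X x)) (hu : ∀ x ∈ posSet u, ContDiffAt ℝ 1 u x) :
    ContDiffOn ℝ 1 (fun y => u (e.symm y)) (posSet fun y => u (e.symm y)) := fun y hy =>
  ((hu _ hy).comp y (contDiff_symm_deform he hX hdet).contDiffAt).contDiffWithinAt

/-- The energy of the deformed function, pulled back. -/
lemma energy_deformed (he : ⇑e = deform X t) (hX : ∀ i, ContDiff ℝ 1 (X i))
    (hdet : ∀ x, 0 < det (1 + t • jac X x)) (hc : Continuous u)
    (hu : ∀ x ∈ posSet u, ContDiffAt ℝ 1 u x) (huv : ∀ x ∈ posSet u, fderiv ℝ u x = fderiv ℝ v x)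
    {B : Set (Euc d)} (hB : IsOpen B) (hfix : ∀ x, x ∉ B → vecField X x = 0) :
    energy (fun y => u (e.symm y)) B
      = ∫⁻ x in B ∩ posSet u, ENNReal.ofReal (dens (gradVec v x) (jac X x) t) := by
  set w : Euc d → ℝ := fun y => u (e.symm y) with hw
  have hmem : ∀ z, e z ∈ B ↔ z ∈ B := by
    intro z
    constructor
    · intro h
      by_contra hz
      rw [(fix_of_zero he (hfix z hz)).1] at h
      exact hz h
    · intro h
      by_contra hz
      have := (fix_of_zero he (hfix _ hz)).2
      rw [Homeomorph.symm_apply_apply] at this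
      exact hz (this ▸ h)
  have himg : e '' (B ∩ posSet u) = B ∩ posSet w := by
    ext y
    constructor
    · rintro ⟨z, ⟨hz1, hz2⟩, rfl⟩
      exact ⟨(hmem z).2 hz1, by simpa [posSet, hw] using hz2⟩
    · rintro ⟨h1, h2⟩
      exact ⟨e.symm y, ⟨(hmem _).1 (by simpa using h1), h2⟩, e.apply_symm_apply y⟩
  have hpm : IsOpen (B ∩ posSet u) := hB.inter (isOpen_lt continuous_const hc)
  have hd : ∀ x ∈ B ∩ posSet u, HasFDerivWithinAt e (deformDeriv X t x) (B ∩ posSet u) x :=
    fun x _ => (he ▸ hasFDerivAt_deform hX t x).hasFDerivWithinAt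
  rw [energy, ← himg, lintegral_image_eq_lintegral_abs_det_fderiv_mul volume hpm.measurableSet hd
    e.injective.injOn]
  refine setLIntegral_congr_fun hpm.measurableSet fun x hx => ?_
  have hdx := hdet x
  beta_reduce
  rw [det_deformDeriv hX, abs_of_pos hdx, ← ENNReal.ofReal_mul hdx.le, norm_fderiv_sq]
  congr 1
  rw [dens]
  congr 2
  have hwx : DifferentiableAt ℝ w (e x) := by
    refine DifferentiableAt.comp _ ?_
      ((contDiff_symm_deform he hX hdet).differentiable one_ne_zero _)
    rw [e.symm_apply_apply]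
    exact (hu x hx.2).differentiableAt one_ne_zero
  have hchain : fderiv ℝ u x = (fderiv ℝ w (e x)).comp (deformDeriv X t x) := by
    have h := hwx.hasFDerivAt.comp x (he ▸ hasFDerivAt_deform hX t x)
    rw [← h.fderiv]
    congr 1
    funext z
    simp [hw]
  have hvec : gradVec v x = gradVec w (e x) ᵥ* (1 + t • jac X x) := by
    funext j
    have h := congrArg (fun L : Euc d →L[ℝ] ℝ => L (EuclideanSpace.single j 1)) hchain
    simp only [huv x hx.2] at h
    rw [Matrix.vecMul_add, Matrix.vecMul_one, Matrix.vecMul_smul]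
    simp only [gradVec, pd, Pi.add_apply, Pi.smul_apply, smul_eq_mul, h]
    simp only [deformDeriv, ContinuousLinearMap.coe_comp, Function.comp_apply,
      _root_.add_apply, ContinuousLinearMap.id_apply, _root_.smul_apply, map_add, map_smul,
      smul_eq_mul, clm_apply_eq_sum _ (fderiv ℝ (vecField X) x _), fderiv_vecField_apply hX]
    congr 1
    simp only [Matrix.vecMul, dotProduct, jac, Matrix.of_apply, pd]
    congr 1
    exact Finset.sum_congr rfl fun i _ => mul_comm _ _
  rw [hvec, Matrix.vecMul_vecMul, Matrix.mul_nonsing_inv _ (isUnit_iff_ne_zero.2 hdx.ne'),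
    Matrix.vecMul_one]
  rfl

end Vale.Agent.P098
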